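import Claimed.Agent.R291.Pln.PncScale

/-!
# Row 291 (S0539), Sec. 4, unit PLN-B3 : uniqueness of the coefficient (cutoff identity) and the full spectral limit      (helper140; prefix `pnc`)

TeX: `04-plane.tex` l.586-675 (Lemma 4.8 `plane:lem:unique`).

* `pnc_J_lim`   : `J(h) → L` as `h ↓ 0`   (split `[q0(|p|/h) - 1] + [1 - q0(k/h)]`; the first integrates to `0` by `pnc_chi_rad`; the second is
                  `∫ D (1 - q0(k/h)) dnu - ∫ χ (1 - q0(k/h)) dE - ∫ [χ∘Ch - χ](1 - q0(k/h)) dC0` by `pnc_mix_real` + `pnc_ang`: three dominated convergences).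
* `pnc_J_asymp` : `J(h) - c_h ∫ Ξ → 0`     (`J(h) = Λ_h(Ξ)`; truncate at `|ζ| ≤ R` by `pnc_cap_tail`; `pnc_lam`).
* `pnc_IXi`     : `∫ Ξ = -π/2`.
* `pnc_main`    : `∃ c ≥ 0`, `c_δ → c`, hence `Λ_δ Ψ → c ∫ Ψ`;   `pnc_fam` : the same for `δ`-dependent families with decay `(1+|ζ|)⁻³`.
-/

set_option autoImplicit false

namespace Claimed.Agent.R291

open MeasureTheory Filter Topology
open scoped ENNReal Real

variable (I : PncIn)

/-! ### the cutoff -/

theorem pnc_q0_nonneg (x : ℝ) : 0 ≤ pncq0 x := le_max_left _ _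

theorem pnc_q0_le_one (x : ℝ) : pncq0 x ≤ 1 := max_le zero_le_one (min_le_left _ _)

theorem pnc_q0_one {x : ℝ} (hx : |x| ≤ 1 / 2) : pncq0 x = 1 := by
  unfold pncq0
  rw [min_eq_left (by linarith), max_eq_right zero_le_one]

theorem pnc_q0_zero {x : ℝ} (hx : 1 ≤ |x|) : pncq0 x = 0 := by
  unfold pncq0
  rw [min_eq_right (by linarith), max_eq_left (by linarith)]

theorem pnc_q0_continuous : Continuous pncq0 := by
  unfold pncq0
  fun_prop

/-- `q0(x/h) → 0` as `h ↓ 0` for `x ≠ 0` -/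
theorem pnc_q0_tendsto {x : ℝ} (hx : x ≠ 0) : Tendsto (fun h : ℝ => pncq0 (x / h)) (𝓝[>] 0) (𝓝 0) := by
  refine tendsto_const_nhds.congr' ?_
  have hm : Set.Ioc (0 : ℝ) |x| ∈ 𝓝[>] (0 : ℝ) := Ioc_mem_nhdsGT (abs_pos.2 hx)
  filter_upwards [hm] with h hh
  refine (pnc_q0_zero ?_).symm
  rw [abs_div, abs_of_pos hh.1, le_div_iff₀ hh.1, one_mul]
  exact hh.2

/-! ### calculus for the number `∫ Ξ` -/

/-- rotation by `π/3` preserves the Lebesgue measure of the plane -/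
theorem pnc_rot_vol : (volume : Measure (ℝ × ℝ)).map pncRot = volume := by
  have h3 : Real.sqrt 3 * Real.sqrt 3 = 3 := Real.mul_self_sqrt (by norm_num)
  set f : (ℝ × ℝ) →ₗ[ℝ] (ℝ × ℝ) := Matrix.toLin (Module.Basis.finTwoProd ℝ) (Module.Basis.finTwoProd ℝ)
    !![1 / 2, -(Real.sqrt 3 / 2); Real.sqrt 3 / 2, 1 / 2] with hf
  have hdet : LinearMap.det f = 1 := by
    rw [hf, LinearMap.det_toLin, Matrix.det_fin_two_of]
    linear_combination (1 / 4 : ℝ) * h3
  have he : (f : ℝ × ℝ → ℝ × ℝ) = pncRot := by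
    funext p
    rw [hf, Matrix.toLin_finTwoProd_apply]
    unfold pncRot
    ext <;> simp <;> ring
  have := Measure.map_linearMap_addHaar_eq_smul_addHaar (μ := (volume : Measure (ℝ × ℝ))) (f := f) (by rw [hdet]; exact one_ne_zero)
  rw [hdet, he] at this
  simpa using this

/-- the antiderivative in `τ` of `χ/|ζ|²` -/
noncomputable def pncPhi (κ τ : ℝ) : ℝ := τ * (κ ^ 2 - τ ^ 2) / (κ ^ 2 + τ ^ 2) ^ 2

theorem pnc_Phi_hasDerivAt {κ τ : ℝ} (h : κ ^ 2 + τ ^ 2 ≠ 0) : HasDerivAt (pncPhi κ) (pncChi (κ, τ) / pncQ (κ, τ)) τ := by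
  have h0 : HasDerivAt (fun τ : ℝ => τ) 1 τ := hasDerivAt_id τ
  have h1 : HasDerivAt (fun τ : ℝ => κ ^ 2 - τ ^ 2) (-(2 * τ)) τ := by
    have := (hasDerivAt_pow 2 τ).const_sub (κ ^ 2)
    simpa using this
  have h2 : HasDerivAt (fun τ : ℝ => (κ ^ 2 + τ ^ 2) ^ 2) (2 * (κ ^ 2 + τ ^ 2) * (2 * τ)) τ := by
    have h3 : HasDerivAt (fun τ : ℝ => κ ^ 2 + τ ^ 2) (2 * τ) τ := by
      have := (hasDerivAt_pow 2 τ).const_add (κ ^ 2)
      simpa using this
    have h5 := h3.mul h3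
    refine (h5.congr_deriv (by ring)).congr_of_eventuallyEq (Eventually.of_forall fun t => ?_)
    simp only [Pi.mul_apply]
    ring
  have h01 : HasDerivAt (fun τ : ℝ => τ * (κ ^ 2 - τ ^ 2)) (1 * (κ ^ 2 - τ ^ 2) + τ * -(2 * τ)) τ := h0.mul h1
  have h4 : HasDerivAt (fun τ : ℝ => τ * (κ ^ 2 - τ ^ 2) / (κ ^ 2 + τ ^ 2) ^ 2)
      (((1 * (κ ^ 2 - τ ^ 2) + τ * -(2 * τ)) * (κ ^ 2 + τ ^ 2) ^ 2 - τ * (κ ^ 2 - τ ^ 2) * (2 * (κ ^ 2 + τ ^ 2) * (2 * τ)))
        / ((κ ^ 2 + τ ^ 2) ^ 2) ^ 2) τ := h01.div h2 (pow_ne_zero 2 h)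
  refine h4.congr_deriv ?_
  unfold pncChi pncQ
  simp only
  field_simp
  ring

theorem pnc_Phi_abs_le (κ : ℝ) {τ : ℝ} (hτ : τ ≠ 0) : |pncPhi κ τ| ≤ |τ|⁻¹ := by
  have ht : 0 < |τ| := abs_pos.2 hτ
  have hq : 0 < κ ^ 2 + τ ^ 2 := by positivity
  unfold pncPhi
  rw [abs_div, abs_mul, abs_of_pos (by positivity : 0 < (κ ^ 2 + τ ^ 2) ^ 2), div_le_iff₀ (by positivity)]
  have h1 : |κ ^ 2 - τ ^ 2| ≤ κ ^ 2 + τ ^ 2 := by
    rw [abs_le]; constructor <;> nlinarith [sq_nonneg κ, sq_nonneg τ]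
  have h2 : |τ| * |τ| ≤ κ ^ 2 + τ ^ 2 := by rw [← sq, sq_abs]; nlinarith [sq_nonneg κ]
  calc |τ| * |κ ^ 2 - τ ^ 2| ≤ |τ| * (κ ^ 2 + τ ^ 2) := mul_le_mul_of_nonneg_left h1 ht.le
    _ = |τ|⁻¹ * ((|τ| * |τ|) * (κ ^ 2 + τ ^ 2)) := by field_simp
    _ ≤ |τ|⁻¹ * ((κ ^ 2 + τ ^ 2) * (κ ^ 2 + τ ^ 2)) := by
        refine mul_le_mul_of_nonneg_left (mul_le_mul_of_nonneg_right h2 hq.le) (by positivity)
    _ = _ := by ring

theorem pnc_Phi_tendsto (κ : ℝ) (l : Filter ℝ) (hl : Tendsto (fun t : ℝ => |t|) l atTop) : Tendsto (pncPhi κ) l (𝓝 0) := by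
  refine squeeze_zero_norm' ?_ (tendsto_inv_atTop_zero.comp hl)
  filter_upwards [hl.eventually_gt_atTop 0] with t ht
  exact pnc_Phi_abs_le κ (abs_pos.1 ht)

theorem pnc_f_measurable : Measurable fun z : ℝ × ℝ => pncChi z / pncQ z :=
  pnc_chi_measurable.div pnc_Q_continuous.measurable

theorem pnc_f_abs_le (z : ℝ × ℝ) : |pncChi z / pncQ z| ≤ 1 / pncQ z := by
  rw [abs_div, abs_of_nonneg (pnc_Q_nonneg z)]
  exact div_le_div_of_nonneg_right (pnc_chi_abs_le z) (pnc_Q_nonneg z)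

/-- the majorant on `{|ζ₁| ≤ 1, c ≤ |ζ|²}` -/
noncomputable def pncMaj (c : ℝ) (z : ℝ × ℝ) : ℝ :=
  (Set.Icc (-1 : ℝ) 1).indicator (fun _ => (1 : ℝ)) z.1 * ((1 + 1 / c) * (1 + z.2 ^ 2)⁻¹)

theorem pnc_maj_nonneg {c : ℝ} (hc : 0 < c) (z : ℝ × ℝ) : 0 ≤ pncMaj c z := by
  unfold pncMaj
  exact mul_nonneg (Set.indicator_nonneg (fun _ _ => zero_le_one) _) (by positivity)

theorem pnc_maj_integrable (c : ℝ) : Integrable (pncMaj c) := by
  unfold pncMaj
  rw [Measure.volume_eq_prod]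
  refine Integrable.mul_prod (f := (Set.Icc (-1 : ℝ) 1).indicator (fun _ => (1 : ℝ))) ?_ (integrable_inv_one_add_sq.const_mul _)
  rw [integrable_indicator_iff measurableSet_Icc]
  exact integrableOn_const (by simp) (by simp)

theorem pnc_maj_le {c : ℝ} (hc : 0 < c) {z : ℝ × ℝ} (h1 : |z.1| ≤ 1) (h2 : c ≤ pncQ z) : 1 / pncQ z ≤ pncMaj c z := by
  have hQ : 0 < pncQ z := hc.trans_le h2
  unfold pncMaj
  rw [Set.indicator_of_mem (Set.mem_Icc.2 (abs_le.1 h1)), one_mul, ← div_eq_mul_inv, div_le_div_iff₀ hQ (by positivity)]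
  have h3 : 1 ≤ 1 / c * pncQ z := by rw [one_div, ← div_eq_inv_mul, le_div_iff₀ hc]; linarith
  have h4 : z.2 ^ 2 ≤ pncQ z := by unfold pncQ; nlinarith [sq_nonneg z.1]
  nlinarith

/-- integrability of a function dominated by `1/|ζ|²` which lives in `{|ζ₁| ≤ 1, c ≤ |ζ|²}` -/
theorem pnc_int_of_maj {c : ℝ} (hc : 0 < c) {F : ℝ × ℝ → ℝ} (hm : Measurable F) (hb : ∀ z, |F z| ≤ 1 / pncQ z)
    (h0 : ∀ z, ¬ (|z.1| ≤ 1 ∧ c ≤ pncQ z) → F z = 0) : Integrable F := by
  refine (pnc_maj_integrable c).mono' hm.aestronglyMeasurable (Eventually.of_forall fun z => ?_)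
  rw [Real.norm_eq_abs]
  by_cases h : |z.1| ≤ 1 ∧ c ≤ pncQ z
  · exact (hb z).trans (pnc_maj_le hc h.1 h.2)
  · rw [h0 z h, abs_zero]; exact pnc_maj_nonneg hc z

/-- one dimensional integrability where `c ≤ κ² + τ²` -/
theorem pnc_f_intOn {κ c : ℝ} (hc : 0 < c) {T : Set ℝ} (hT : MeasurableSet T) (h : ∀ τ ∈ T, c ≤ κ ^ 2 + τ ^ 2) :
    IntegrableOn (fun τ => pncChi (κ, τ) / pncQ (κ, τ)) T := by
  have hm : Measurable fun τ : ℝ => pncChi (κ, τ) / pncQ (κ, τ) := pnc_f_measurable.comp (measurable_const.prodMk measurable_id)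
  refine Integrable.mono' ((integrable_inv_one_add_sq.const_mul (1 + 1 / c)).integrableOn (s := T)) hm.aestronglyMeasurable ?_
  rw [ae_restrict_iff' hT]
  refine Eventually.of_forall fun τ hτ => ?_
  have hQ : c ≤ pncQ (κ, τ) := h τ hτ
  have hQ0 : 0 < pncQ (κ, τ) := hc.trans_le hQ
  rw [Real.norm_eq_abs]
  refine (pnc_f_abs_le _).trans ?_
  rw [← div_eq_mul_inv, div_le_div_iff₀ hQ0 (by positivity)]
  have h3 : 1 ≤ 1 / c * pncQ (κ, τ) := by rw [one_div, ← div_eq_inv_mul, le_div_iff₀ hc]; linarith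
  have h4 : τ ^ 2 ≤ pncQ (κ, τ) := by unfold pncQ; simp only; nlinarith [sq_nonneg κ]
  nlinarith

/-- the full normal integral of `χ/|ζ|²` vanishes -/
theorem pnc_f_line {κ : ℝ} (hκ : κ ≠ 0) : ∫ τ, pncChi (κ, τ) / pncQ (κ, τ) = 0 := by
  have hi : Integrable (fun τ => pncChi (κ, τ) / pncQ (κ, τ)) := by
    rw [← integrableOn_univ]
    exact pnc_f_intOn (c := κ ^ 2) (by positivity) MeasurableSet.univ fun τ _ => by nlinarith [sq_nonneg τ]
  rw [integral_of_hasDerivAt_of_tendsto (fun τ => pnc_Phi_hasDerivAt (by positivity)) hi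
    (pnc_Phi_tendsto κ atBot tendsto_abs_atBot_atTop) (pnc_Phi_tendsto κ atTop tendsto_abs_atTop_atTop), sub_zero]

theorem pnc_one_le_N_iff (z : ℝ × ℝ) : 1 ≤ pncN z ↔ 1 ≤ pncQ z := by
  unfold pncN
  rw [Real.one_le_sqrt]

/-- the normal integral over `{1 ≤ |ζ|}` -/
theorem pnc_cap_inner {κ : ℝ} (hκ : |κ| < 1) :
    ∫ τ in {τ : ℝ | 1 ≤ pncN (κ, τ)}, pncChi (κ, τ) / pncQ (κ, τ) = 2 * (Real.sqrt (1 - κ ^ 2) * (1 - 2 * κ ^ 2)) := by
  have hk2 : κ ^ 2 < 1 := by rw [← sq_abs]; nlinarith [abs_nonneg κ]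
  set w : ℝ := Real.sqrt (1 - κ ^ 2) with hw
  have hw0 : 0 < w := Real.sqrt_pos.2 (by linarith)
  have hw2 : w ^ 2 = 1 - κ ^ 2 := Real.sq_sqrt (by linarith)
  have hset : {τ : ℝ | 1 ≤ pncN (κ, τ)} = Set.Iic (-w) ∪ Set.Ici w := by
    ext τ
    simp only [Set.mem_ofPred_eq, Set.mem_union, Set.mem_Iic, Set.mem_Ici, pnc_one_le_N_iff]
    unfold pncQ
    simp only
    constructor
    · intro h
      have h1 : w ^ 2 ≤ τ ^ 2 := by linarith
      have h2 : w ≤ |τ| := by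
        have := sq_le_sq.1 h1
        rwa [abs_of_pos hw0] at this
      rcases le_abs'.1 h2 with h3 | h3
      · left; linarith
      · right; exact h3
    · rintro (h | h) <;> nlinarith
  have hge : ∀ τ, τ ∈ Set.Iic (-w) ∪ Set.Ici w → (1 : ℝ) ≤ κ ^ 2 + τ ^ 2 := by
    rintro τ (h | h)
    · have : τ ≤ -w := h
      nlinarith
    · have : w ≤ τ := h
      nlinarith
  have hne : ∀ τ, τ ∈ Set.Iic (-w) ∪ Set.Ici w → κ ^ 2 + τ ^ 2 ≠ 0 := fun τ h => by have := hge τ h; positivity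
  have i1 : IntegrableOn (fun τ => pncChi (κ, τ) / pncQ (κ, τ)) (Set.Iic (-w)) :=
    pnc_f_intOn one_pos measurableSet_Iic fun τ h => hge τ (Or.inl h)
  have i2 : IntegrableOn (fun τ => pncChi (κ, τ) / pncQ (κ, τ)) (Set.Ici w) :=
    pnc_f_intOn one_pos measurableSet_Ici fun τ h => hge τ (Or.inr h)
  have hdisj : Disjoint (Set.Iic (-w)) (Set.Ici w) := by
    rw [Set.disjoint_left]
    intro τ h1 h2
    have a : τ ≤ -w := h1
    have b : w ≤ τ := h2
    linarith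
  rw [hset, setIntegral_union hdisj measurableSet_Ici i1 i2, integral_Ici_eq_integral_Ioi]
  rw [integral_Iic_of_hasDerivAt_of_tendsto
      (pnc_Phi_hasDerivAt (hne _ (Or.inl (Set.mem_Iic.2 le_rfl)))).continuousAt.continuousWithinAt
      (fun τ hτ => pnc_Phi_hasDerivAt (hne τ (Or.inl (Set.mem_Iic.2 (le_of_lt hτ))))) i1
      (pnc_Phi_tendsto κ atBot tendsto_abs_atBot_atTop),
    integral_Ioi_of_hasDerivAt_of_tendsto
      (pnc_Phi_hasDerivAt (hne _ (Or.inr (Set.mem_Ici.2 le_rfl)))).continuousAt.continuousWithinAt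
      (fun τ hτ => pnc_Phi_hasDerivAt (hne τ (Or.inr (Set.mem_Ici.2 (le_of_lt hτ))))) (i2.mono_set Set.Ioi_subset_Ici_self)
      (pnc_Phi_tendsto κ atTop tendsto_abs_atTop_atTop)]
  unfold pncPhi
  have e1 : κ ^ 2 + w ^ 2 = 1 := by rw [hw2]; ring
  have e2 : κ ^ 2 + (-w) ^ 2 = 1 := by rw [neg_sq, hw2]; ring
  rw [e1, e2, neg_sq, hw2]
  ring

theorem pnc_sqrt_int : ∫ x in (-1 : ℝ)..1, Real.sqrt (1 - x ^ 2) * (1 - 4 * x ^ 2) = 0 := by
  have hc : Continuous fun x : ℝ => x * ((1 - x ^ 2) * Real.sqrt (1 - x ^ 2)) := by fun_prop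
  have hd : ∀ x ∈ Set.Ioo (-1 : ℝ) 1, HasDerivAt (fun x : ℝ => x * ((1 - x ^ 2) * Real.sqrt (1 - x ^ 2)))
      (Real.sqrt (1 - x ^ 2) * (1 - 4 * x ^ 2)) x := by
    intro x hx
    have hu : 0 < 1 - x ^ 2 := by nlinarith [hx.1, hx.2]
    have hs : 0 < Real.sqrt (1 - x ^ 2) := Real.sqrt_pos.2 hu
    have hss : Real.sqrt (1 - x ^ 2) * Real.sqrt (1 - x ^ 2) = 1 - x ^ 2 := Real.mul_self_sqrt hu.le
    have h0 : HasDerivAt (fun x : ℝ => x) 1 x := hasDerivAt_id x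
    have h1 : HasDerivAt (fun x : ℝ => 1 - x ^ 2) (-(2 * x)) x := by
      have := (hasDerivAt_pow 2 x).const_sub (1 : ℝ)
      simpa using this
    have h2 := h1.sqrt hu.ne'
    have h12 : HasDerivAt (fun x : ℝ => (1 - x ^ 2) * Real.sqrt (1 - x ^ 2))
        (-(2 * x) * Real.sqrt (1 - x ^ 2) + (1 - x ^ 2) * (-(2 * x) / (2 * Real.sqrt (1 - x ^ 2)))) x := h1.mul h2
    have h3 : HasDerivAt (fun x : ℝ => x * ((1 - x ^ 2) * Real.sqrt (1 - x ^ 2)))
        (1 * ((1 - x ^ 2) * Real.sqrt (1 - x ^ 2)) + x * (-(2 * x) * Real.sqrt (1 - x ^ 2)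
          + (1 - x ^ 2) * (-(2 * x) / (2 * Real.sqrt (1 - x ^ 2))))) x := h0.mul h12
    refine h3.congr_deriv ?_
    have e : (1 - x ^ 2) * (-(2 * x) / (2 * Real.sqrt (1 - x ^ 2))) = -x * Real.sqrt (1 - x ^ 2) := by
      generalize Real.sqrt (1 - x ^ 2) = r at hs hss
      rw [← hss]
      field_simp
    rw [e]
    ring
  have hi : IntervalIntegrable (fun x : ℝ => Real.sqrt (1 - x ^ 2) * (1 - 4 * x ^ 2)) volume (-1) 1 :=
    Continuous.intervalIntegrable (by fun_prop) _ _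
  rw [intervalIntegral.integral_eq_sub_of_hasDerivAt_of_le (by norm_num) hc.continuousOn hd hi]
  norm_num

theorem pnc_sqrt_int2 : ∫ x in (-1 : ℝ)..1, 2 * (Real.sqrt (1 - x ^ 2) * (1 - 2 * x ^ 2)) = π / 2 := by
  have e : ∀ x : ℝ, 2 * (Real.sqrt (1 - x ^ 2) * (1 - 2 * x ^ 2))
      = Real.sqrt (1 - x ^ 2) + Real.sqrt (1 - x ^ 2) * (1 - 4 * x ^ 2) := fun x => by ring
  simp only [e]
  rw [intervalIntegral.integral_add (Continuous.intervalIntegrable (by fun_prop) _ _)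
    (Continuous.intervalIntegrable (by fun_prop) _ _), integral_sqrt_one_sub_sq, pnc_sqrt_int, add_zero]


/-! ### `J(h)` has a full limit -/

/-- the radial half of `J` vanishes -/
theorem pnc_J_rad {h : ℝ} (hh : 0 < h) : ∫ p, pncChi p * (pncq0 (pncN p / h) - 1) ∂I.C0 = 0 := by
  refine pnc_chi_rad I (ρ := fun r => pncq0 (r / h) - 1) ?_ (M := 1) (ε := h / 2) (by positivity) ?_ ?_
  · exact ((pnc_q0_continuous.comp (continuous_id.div_const h)).sub continuous_const).measurable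
  · intro r
    rw [abs_le]
    constructor <;> linarith [pnc_q0_nonneg (r / h), pnc_q0_le_one (r / h)]
  · intro r h0 h1
    rw [pnc_q0_one, sub_self]
    rw [abs_div, abs_of_nonneg h0, abs_of_pos hh, div_le_iff₀ hh]
    linarith

theorem pnc_q0_meas_fst (h : ℝ) : Measurable fun x : ℝ × ℝ => 1 - pncq0 (x.1 / h) :=
  (continuous_const.sub (pnc_q0_continuous.comp (continuous_fst.div_const h))).measurable

theorem pnc_q0_one_sub_abs (x : ℝ) : |1 - pncq0 x| ≤ 1 := by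
  rw [abs_le]
  constructor <;> linarith [pnc_q0_nonneg x, pnc_q0_le_one x]

theorem pnc_q0_fst_zero {h : ℝ} (hh : 0 < h) {x : ℝ × ℝ} (hx : |x.1| < h / 2) : 1 - pncq0 (x.1 / h) = 0 := by
  rw [pnc_q0_one, sub_self]
  rw [abs_div, abs_of_pos hh, div_le_iff₀ hh]
  linarith

/-- the exact formula for the tangential half of `J` -/
theorem pnc_J_split {h : ℝ} (hh : 0 < h) :
    pncJ I h = ∫ x, pncD x * (1 - pncq0 (x.1 / h)) ∂I.nu - ∫ x, pncChi x * (1 - pncq0 (x.1 / h)) ∂I.E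
      - ∫ p, (pncChi (pncCh p) - pncChi p) * (1 - pncq0 (p.1 / h)) ∂I.C0 := by
  have hh2 : 0 < h / 2 := by positivity
  -- the test function
  have hGm : Measurable fun x : ℝ × ℝ => (1 - pncq0 (x.1 / h)) * pncChi x := (pnc_q0_meas_fst h).mul pnc_chi_measurable
  have hGb : ∀ x : ℝ × ℝ, |(1 - pncq0 (x.1 / h)) * pncChi x| ≤ 1 := by
    intro x
    rw [abs_mul]
    exact mul_le_one₀ (pnc_q0_one_sub_abs _) (abs_nonneg _) (pnc_chi_abs_le x)
  have hG0 : ∀ x : ℝ × ℝ, |x.1| < h / 2 → (1 - pncq0 (x.1 / h)) * pncChi x = 0 := by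
    intro x hx
    rw [pnc_q0_fst_zero hh hx, zero_mul]
  obtain ⟨_, i2, e⟩ := pnc_mix_real I hGm hh2 hGb hG0
  have i3 : Integrable (fun p : ℝ × ℝ => (1 - pncq0 (p.1 / h)) * pncChi p) I.C0 :=
    pnc_int_far I hGm hh2 hGb fun p hp => hG0 p ((pnc_abs_fst_le p).trans_lt hp)
  have i1 : Integrable (fun p : ℝ × ℝ => pncChi p * (pncq0 (pncN p / h) - 1)) I.C0 := by
    refine pnc_int_far I (M := 1) ?_ hh2 ?_ ?_
    · exact pnc_chi_measurable.mul
        ((pnc_q0_continuous.comp (pnc_N_continuous.div_const h)).sub continuous_const).measurable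
    · intro p
      rw [abs_mul, ← abs_neg (pncq0 (pncN p / h) - 1), neg_sub]
      exact mul_le_one₀ (pnc_chi_abs_le p) (abs_nonneg _) (pnc_q0_one_sub_abs _)
    · intro p hp
      rw [pnc_q0_one, sub_self, mul_zero]
      rw [abs_div, abs_of_nonneg (pnc_N_nonneg p), abs_of_pos hh, div_le_iff₀ hh]
      linarith
  have e1 : ∫ x, pncPr (fun x : ℝ × ℝ => (1 - pncq0 (x.1 / h)) * pncChi x) x ∂I.nu = ∫ x, pncD x * (1 - pncq0 (x.1 / h)) ∂I.nu := by
    refine integral_congr_ae ?_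
    filter_upwards [pnc_ae_nu I] with x hx
    rw [pnc_Pr_fst_mul (fun k => 1 - pncq0 (k / h)) pncChi x, pnc_ang hx.1 hx.2, mul_comm]
  have e2 : ∫ x, (1 - pncq0 (x.1 / h)) * pncChi x ∂I.E = ∫ x, pncChi x * (1 - pncq0 (x.1 / h)) ∂I.E := by
    simp only [mul_comm]
  have e3 : pncJ I h = ∫ p, pncChi p * (pncq0 (pncN p / h) - 1) ∂I.C0 + ∫ p : ℝ × ℝ, (1 - pncq0 (p.1 / h)) * pncChi p ∂I.C0 := by
    rw [← integral_add i1 i3]
    unfold pncJ
    refine integral_congr_ae (Eventually.of_forall fun p => ?_)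
    simp only
    ring
  have e4 : ∫ p, (pncChi (pncCh p) - pncChi p) * (1 - pncq0 (p.1 / h)) ∂I.C0
      = ∫ p, (1 - pncq0 ((pncCh p).1 / h)) * pncChi (pncCh p) ∂I.C0 - ∫ p : ℝ × ℝ, (1 - pncq0 (p.1 / h)) * pncChi p ∂I.C0 := by
    rw [← integral_sub i2 i3]
    refine integral_congr_ae (Eventually.of_forall fun p => ?_)
    simp only [pncCh]
    ring
  rw [e3, pnc_J_rad I hh, e4, ← e1, ← e2, e]
  ring

theorem pnc_J_lim1 : Tendsto (fun h : ℝ => ∫ x, pncD x * (1 - pncq0 (x.1 / h)) ∂I.nu) (𝓝[>] 0) (𝓝 (∫ x, pncD x ∂I.nu)) := by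
  refine tendsto_integral_filter_of_dominated_convergence (fun x => pncD x) ?_ ?_ (pnc_D_integrable I) ?_
  · exact Eventually.of_forall fun h => (pnc_D_measurable.mul (pnc_q0_meas_fst h)).aestronglyMeasurable
  · refine Eventually.of_forall fun h => Eventually.of_forall fun x => ?_
    rw [Real.norm_eq_abs, abs_mul, abs_of_nonneg (pnc_D_nonneg x)]
    exact mul_le_of_le_one_right (pnc_D_nonneg x) (pnc_q0_one_sub_abs _)
  · filter_upwards [pnc_ae_nu I] with x hx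
    have := ((pnc_q0_tendsto hx.1).const_sub 1).const_mul (pncD x)
    simpa using this

theorem pnc_J_lim2 : Tendsto (fun h : ℝ => ∫ x, pncChi x * (1 - pncq0 (x.1 / h)) ∂I.E) (𝓝[>] 0) (𝓝 (∫ x, pncChi x ∂I.E)) := by
  have := I.Efin
  refine tendsto_integral_filter_of_dominated_convergence (fun _ => (1 : ℝ)) ?_ ?_ (integrable_const _) ?_
  · exact Eventually.of_forall fun h => (pnc_chi_measurable.mul (pnc_q0_meas_fst h)).aestronglyMeasurable
  · refine Eventually.of_forall fun h => Eventually.of_forall fun x => ?_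
    rw [Real.norm_eq_abs, abs_mul]
    exact mul_le_one₀ (pnc_chi_abs_le x) (abs_nonneg _) (pnc_q0_one_sub_abs _)
  · filter_upwards [pnc_ae_E I] with x hx
    have := ((pnc_q0_tendsto hx).const_sub 1).const_mul (pncChi x)
    simpa using this

theorem pnc_J_lim3 : Tendsto (fun h : ℝ => ∫ p, (pncChi (pncCh p) - pncChi p) * (1 - pncq0 (p.1 / h)) ∂I.C0) (𝓝[>] 0)
    (𝓝 (∫ p in {p : ℝ × ℝ | p.1 ≠ 0}, (pncChi (pncCh p) - pncChi p) ∂I.C0)) := by
  have hS : MeasurableSet {p : ℝ × ℝ | p.1 ≠ 0} := (measurableSet_eq_fun measurable_fst measurable_const).compl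
  rw [← integral_indicator hS]
  have hm : Measurable fun p : ℝ × ℝ => pncChi (pncCh p) - pncChi p :=
    (pnc_chi_measurable.comp pnc_ch_measurable).sub pnc_chi_measurable
  refine tendsto_integral_filter_of_dominated_convergence (fun p => 12 * pncQ p) ?_ ?_ ((pnc_Q_integrable I).const_mul 12) ?_
  · exact Eventually.of_forall fun h => (hm.mul (pnc_q0_meas_fst h)).aestronglyMeasurable
  · refine Eventually.of_forall fun h => ?_
    filter_upwards [pnq_ae_half I] with p hp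
    rw [Real.norm_eq_abs, abs_mul]
    calc |pncChi (pncCh p) - pncChi p| * |1 - pncq0 (p.1 / h)| ≤ |pncChi (pncCh p) - pncChi p| * 1 :=
          mul_le_mul_of_nonneg_left (pnc_q0_one_sub_abs _) (abs_nonneg _)
      _ ≤ 12 * pncQ p := by rw [mul_one]; exact pnc_chi_dist hp
  · refine Eventually.of_forall fun p => ?_
    by_cases hp : p.1 = 0
    · have h1 : Set.indicator {p : ℝ × ℝ | p.1 ≠ 0} (fun p => pncChi (pncCh p) - pncChi p) p = 0 :=
        Set.indicator_of_notMem (by simpa using hp) _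
      rw [h1]
      refine tendsto_const_nhds.congr fun h => ?_
      rw [hp, zero_div, pnc_q0_one (by norm_num), sub_self, mul_zero]
    · have h1 : Set.indicator {p : ℝ × ℝ | p.1 ≠ 0} (fun p => pncChi (pncCh p) - pncChi p) p = pncChi (pncCh p) - pncChi p :=
        Set.indicator_of_mem (by simpa using hp) _
      rw [h1]
      have := ((pnc_q0_tendsto hp).const_sub 1).const_mul (pncChi (pncCh p) - pncChi p)
      simpa using this

/-- **the cutoff functional has a full limit**.      TEX[04-plane (4.23) `plane:eq:cutoff-full-limit`] -/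
theorem pnc_J_lim : ∃ L : ℝ, Tendsto (pncJ I) (𝓝[>] 0) (𝓝 L) := by
  refine ⟨_, (((pnc_J_lim1 I).sub (pnc_J_lim2 I)).sub (pnc_J_lim3 I)).congr' ?_⟩
  filter_upwards [self_mem_nhdsWithin] with h hh
  exact (pnc_J_split I hh).symm

/-! ### `J(h)` against the running coefficient -/

/-- `Ξ` is continuous (it vanishes on `|ζ| ≤ 1/2`) -/
theorem pnc_Xi_zero' {z : ℝ × ℝ} (h : pncN z ≤ 1 / 2 ∨ 1 ≤ |z.1|) : pncXi z = 0 := by
  unfold pncXi
  rcases h with h | h
  · rw [pnc_q0_one (by rwa [abs_of_nonneg (pnc_N_nonneg z)]), pnc_q0_one ((pnc_abs_fst_le z).trans h)]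
    simp
  · rw [pnc_q0_zero (by rw [abs_of_nonneg (pnc_N_nonneg z)]; exact h.trans (pnc_abs_fst_le z)), pnc_q0_zero h]
    simp

theorem pnc_Q_ne_zero {z : ℝ × ℝ} (hz : z ≠ 0) : pncQ z ≠ 0 := by
  intro h
  apply hz
  unfold pncQ at h
  have h1 : z.1 = 0 := by nlinarith [sq_nonneg z.1, sq_nonneg z.2]
  have h2 : z.2 = 0 := by nlinarith [sq_nonneg z.1, sq_nonneg z.2]
  exact Prod.ext h1 h2

theorem pnc_Xi_continuous : Continuous pncXi := by
  rw [continuous_iff_continuousAt]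
  intro z
  by_cases hz : z = 0
  · have hU : {w : ℝ × ℝ | pncN w < 1 / 2} ∈ 𝓝 z := by
      refine (isOpen_lt pnc_N_continuous continuous_const).mem_nhds ?_
      rw [hz]
      show pncN 0 < 1 / 2
      unfold pncN pncQ
      simp
    have he : pncXi =ᶠ[𝓝 z] fun _ => 0 := by
      filter_upwards [hU] with w hw
      exact pnc_Xi_zero' (Or.inl (le_of_lt hw))
    exact continuousAt_const.congr he.symm
  · have h1 : ContinuousAt pncChi z := pnc_chi_continuousOn.continuousAt (isOpen_compl_singleton.mem_nhds hz)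
    unfold pncXi
    exact (h1.mul (((pnc_q0_continuous.comp pnc_N_continuous).sub (pnc_q0_continuous.comp continuous_fst)).continuousAt)).div
      pnc_Q_continuous.continuousAt (pnc_Q_ne_zero hz)

/-- `Ξ` lives in `{|ζ| ≤ 1} ∪ {|ζ₁| ≤ 1}`, off `|ζ| < 1/2`, and `|Ξ| ≤ 1/|ζ|²` -/
theorem pnc_Xi_zero {z : ℝ × ℝ} (h : pncN z ≤ 1 / 2 ∨ 1 ≤ |z.1|) : pncXi z = 0 := pnc_Xi_zero' h

theorem pnc_Xi_abs_le (z : ℝ × ℝ) : |pncXi z| ≤ 1 / pncQ z := by
  unfold pncXi
  rw [abs_div, abs_of_nonneg (pnc_Q_nonneg z), abs_mul]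
  refine div_le_div_of_nonneg_right ?_ (pnc_Q_nonneg z)
  have h1 : |pncq0 (pncN z) - pncq0 z.1| ≤ 1 := by
    rw [abs_le]
    constructor <;> linarith [pnc_q0_nonneg (pncN z), pnc_q0_le_one (pncN z), pnc_q0_nonneg z.1, pnc_q0_le_one z.1]
  calc |pncChi z| * |pncq0 (pncN z) - pncq0 z.1| ≤ 1 * 1 := mul_le_mul (pnc_chi_abs_le z) h1 (abs_nonneg _) zero_le_one
    _ = 1 := one_mul 1

theorem pnc_quarter_le_Q {z : ℝ × ℝ} (h : 1 / 2 ≤ pncN z) : 1 / 4 ≤ pncQ z := by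
  rw [← pnc_N_sq]
  nlinarith

theorem pnc_Xi_integrable : Integrable pncXi := by
  refine pnc_int_of_maj (c := 1 / 4) (by norm_num) pnc_Xi_continuous.measurable pnc_Xi_abs_le fun z hz => ?_
  by_cases h1 : |z.1| ≤ 1
  · refine pnc_Xi_zero (Or.inl ?_)
    by_contra h2
    exact hz ⟨h1, pnc_quarter_le_Q (le_of_lt (not_le.1 h2))⟩
  · exact pnc_Xi_zero (Or.inr (le_of_lt (not_le.1 h1)))

/-- `Ξ |ζ|²` is the integrand of `J` -/
theorem pnc_Xi_mul_Q (z : ℝ × ℝ) : pncXi z * pncQ z = pncChi z * (pncq0 (pncN z) - pncq0 z.1) := by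
  unfold pncXi
  by_cases hQ : pncQ z = 0
  · have h1 : z.1 = 0 := by
      unfold pncQ at hQ
      nlinarith [sq_nonneg z.1, sq_nonneg z.2]
    have h2 : pncN z = 0 := by unfold pncN; rw [hQ, Real.sqrt_zero]
    rw [hQ, h1, h2]
    simp
  · field_simp

theorem pnc_Xi_sc_mul_Q {h : ℝ} (hh : 0 < h) (p : ℝ × ℝ) :
    pncXi (pncSc h p) * pncQ (pncSc h p) = pncChi p * (pncq0 (pncN p / h) - pncq0 (p.1 / h)) := by
  rw [pnc_Xi_mul_Q, pnc_chi_sc hh.ne', pnc_N_sc hh]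
  rfl

/-- `J(h) = Λ_h(Ξ)` -/
theorem pnc_J_eq_Lam {h : ℝ} (hh : 0 < h) : pncJ I h = pncLam I h pncXi := by
  unfold pncJ pncLam
  simp only [pnc_Xi_sc_mul_Q hh]

/-- truncation of `Ξ` at `|ζ| ~ R` -/
noncomputable def pncXiR (R : ℝ) (z : ℝ × ℝ) : ℝ := pncXi z * pncq0 (pncN z / (2 * R))

theorem pnc_XiR_cont {R : ℝ} (hR : 0 < R) : Continuous (pncXiR R) ∧ HasCompactSupport (pncXiR R) := by
  refine ⟨pnc_Xi_continuous.mul (pnc_q0_continuous.comp (pnc_N_continuous.div_const _)), ?_⟩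
  refine HasCompactSupport.intro (K := Set.Icc (-(2 * R)) (2 * R) ×ˢ Set.Icc (-(2 * R)) (2 * R)) (isCompact_Icc.prod isCompact_Icc)
    fun z hz => ?_
  unfold pncXiR
  have h1 : 2 * R ≤ pncN z := by
    by_contra h
    rw [not_le] at h
    exact hz ⟨Set.mem_Icc.2 (abs_le.1 ((pnc_abs_fst_le z).trans h.le)), Set.mem_Icc.2 (abs_le.1 ((pnc_abs_snd_le z).trans h.le))⟩
  rw [pnc_q0_zero (by rw [abs_of_nonneg (div_nonneg (pnc_N_nonneg z) (by positivity)), le_div_iff₀ (by positivity)]; linarith), mul_zero]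

/-- the tail of `Λ_h(Ξ)` is `O(1/R)` uniformly in `h` (`pnc_cap_tail`) -/
theorem pnc_XiR_Lam : ∃ M : ℝ, ∀ R h : ℝ, 20 < R → 0 < h → |pncLam I h pncXi - pncLam I h (pncXiR R)| ≤ M / R := by
  obtain ⟨K5, hK5⟩ := pnc_cap_tail I
  refine ⟨max K5 0, fun R h hR hh => ?_⟩
  have hR0 : 0 < R := by linarith
  have hh2 : 0 < h / 2 := by positivity
  set S : Set (ℝ × ℝ) := {p | R * h ≤ pncN p ∧ |p.1| ≤ h} with hS
  have hSm : MeasurableSet S :=
    (measurableSet_le measurable_const pnc_N_continuous.measurable).inter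
      (measurableSet_le (continuous_fst.abs).measurable measurable_const)
  have hSle := hK5 R h hR hh
  have hSfin : I.C0 S < ∞ := hSle.trans_lt ENNReal.ofReal_lt_top
  have hFm : Measurable fun p : ℝ × ℝ => pncChi p * (pncq0 (pncN p / h) - pncq0 (p.1 / h)) :=
    pnc_chi_measurable.mul ((pnc_q0_continuous.comp (pnc_N_continuous.div_const h)).sub
      (pnc_q0_continuous.comp (continuous_fst.div_const h))).measurable
  have hFb : ∀ p : ℝ × ℝ, |pncChi p * (pncq0 (pncN p / h) - pncq0 (p.1 / h))| ≤ 1 := by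
    intro p
    rw [abs_mul]
    refine mul_le_one₀ (pnc_chi_abs_le p) (abs_nonneg _) ?_
    rw [abs_le]
    constructor <;>
      linarith [pnc_q0_nonneg (pncN p / h), pnc_q0_le_one (pncN p / h), pnc_q0_nonneg (p.1 / h), pnc_q0_le_one (p.1 / h)]
  have hF0 : ∀ p : ℝ × ℝ, pncN p < h / 2 → pncChi p * (pncq0 (pncN p / h) - pncq0 (p.1 / h)) = 0 := by
    intro p hp
    rw [pnc_q0_one, pnc_q0_one, sub_self, mul_zero]
    · rw [abs_div, abs_of_pos hh, div_le_iff₀ hh]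
      linarith [pnc_abs_fst_le p]
    · rw [abs_div, abs_of_nonneg (pnc_N_nonneg p), abs_of_pos hh, div_le_iff₀ hh]
      linarith
  have hqm : Measurable fun p : ℝ × ℝ => pncq0 (pncN p / h / (2 * R)) :=
    (pnc_q0_continuous.comp ((pnc_N_continuous.div_const h).div_const (2 * R))).measurable
  have i1 : Integrable (fun p : ℝ × ℝ => pncChi p * (pncq0 (pncN p / h) - pncq0 (p.1 / h))) I.C0 :=
    pnc_int_far I hFm hh2 hFb hF0
  have i2 : Integrable (fun p : ℝ × ℝ => pncChi p * (pncq0 (pncN p / h) - pncq0 (p.1 / h)) * pncq0 (pncN p / h / (2 * R))) I.C0 := by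
    refine pnc_int_far I (hFm.mul hqm) hh2 (M := 1) ?_ ?_
    · intro p
      rw [abs_mul]
      refine mul_le_one₀ (hFb p) (abs_nonneg _) ?_
      rw [abs_of_nonneg (pnc_q0_nonneg _)]
      exact pnc_q0_le_one _
    · intro p hp
      rw [hF0 p hp, zero_mul]
  have e1 : pncLam I h pncXi = ∫ p, pncChi p * (pncq0 (pncN p / h) - pncq0 (p.1 / h)) ∂I.C0 := by
    unfold pncLam
    simp only [pnc_Xi_sc_mul_Q hh]
  have e2 : pncLam I h (pncXiR R)
      = ∫ p, pncChi p * (pncq0 (pncN p / h) - pncq0 (p.1 / h)) * pncq0 (pncN p / h / (2 * R)) ∂I.C0 := by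
    unfold pncLam pncXiR
    refine integral_congr_ae (Eventually.of_forall fun p => ?_)
    simp only
    rw [mul_right_comm, pnc_Xi_sc_mul_Q hh, pnc_N_sc hh]
  rw [e1, e2, ← integral_sub i1 i2, ← Real.norm_eq_abs]
  have ig : Integrable (S.indicator fun _ => (1 : ℝ)) I.C0 :=
    (integrable_indicator_iff hSm).2 (integrableOn_const hSfin.ne)
  refine (norm_integral_le_of_norm_le ig (Eventually.of_forall fun p => ?_)).trans ?_
  · by_cases hp : p ∈ S
    · rw [Set.indicator_of_mem hp, ← mul_one_sub, Real.norm_eq_abs, abs_mul]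
      exact mul_le_one₀ (hFb p) (abs_nonneg _) (pnc_q0_one_sub_abs _)
    · rw [Set.indicator_of_notMem hp, ← mul_one_sub]
      refine le_of_eq (norm_eq_zero.2 ?_)
      rw [hS, Set.mem_ofPred_eq, not_and_or, not_le, not_le] at hp
      rcases hp with hp | hp
      · rw [pnc_q0_one (x := pncN p / h / (2 * R)), sub_self, mul_zero]
        rw [abs_div, abs_div, abs_of_nonneg (pnc_N_nonneg p), abs_of_pos hh, abs_of_pos (by positivity : 0 < 2 * R),
          div_div, div_le_iff₀ (by positivity)]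
        nlinarith
      · rw [pnc_q0_zero, pnc_q0_zero, sub_self, mul_zero, zero_mul]
        · rw [abs_div, abs_of_pos hh, le_div_iff₀ hh]
          linarith
        · rw [abs_div, abs_of_nonneg (pnc_N_nonneg p), abs_of_pos hh, le_div_iff₀ hh]
          linarith [pnc_abs_fst_le p]
  · rw [integral_indicator_const _ hSm, smul_eq_mul, mul_one]
    refine ENNReal.toReal_le_of_le_ofReal (by positivity) (hSle.trans (ENNReal.ofReal_le_ofReal ?_))
    exact div_le_div_of_nonneg_right (le_max_left _ _) hR0.le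

/-- the tail of `∫ Ξ` is `O(1/R)` -/
theorem pnc_XiR_vol : ∃ M : ℝ, ∀ R : ℝ, 20 < R → |(∫ z, pncXi z) - ∫ z, pncXiR R z| ≤ M / R := by
  refine ⟨8 * π, fun R hR => ?_⟩
  have hR0 : 0 < R := by linarith
  have ha : 0 < R / 2 := by positivity
  have hpi := Real.pi_pos
  have hiR : Integrable (pncXiR R) := (pnc_XiR_cont hR0).1.integrable_of_hasCompactSupport (pnc_XiR_cont hR0).2
  rw [← integral_sub pnc_Xi_integrable hiR]
  set g : ℝ × ℝ → ℝ := fun z => (Set.Icc (-1 : ℝ) 1).indicator (fun _ => (1 : ℝ)) z.1 * (2 * (π / (R / 2)) * pncCd (R / 2) z.2) with hg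
  have hi1 : Integrable ((Set.Icc (-1 : ℝ) 1).indicator (fun _ => (1 : ℝ))) := by
    rw [integrable_indicator_iff measurableSet_Icc]
    exact integrableOn_const (by simp) (by simp)
  have hgi : Integrable g := by
    rw [Measure.volume_eq_prod]
    exact Integrable.mul_prod hi1 ((pnc_cd_integrable ha).const_mul _)
  have hgI : ∫ z, g z = 8 * π / R := by
    rw [hg, Measure.volume_eq_prod]
    refine (integral_prod_mul ((Set.Icc (-1 : ℝ) 1).indicator (fun _ => (1 : ℝ))) (fun y => 2 * (π / (R / 2)) * pncCd (R / 2) y)).trans ?_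
    rw [integral_const_mul, pnc_cd_integral ha, integral_indicator measurableSet_Icc]
    simp
    field_simp
    ring
  have hb : ∀ z, ‖pncXi z - pncXiR R z‖ ≤ g z := by
    intro z
    have hg0 : 0 ≤ g z := mul_nonneg (Set.indicator_nonneg (fun _ _ => zero_le_one) _)
      (mul_nonneg (by positivity) (pnc_cd_nonneg ha.le _))
    rw [Real.norm_eq_abs]
    unfold pncXiR
    by_cases h1 : pncN z ≤ R
    · rw [pnc_q0_one (by
        rw [abs_of_nonneg (div_nonneg (pnc_N_nonneg z) (by positivity)), div_le_iff₀ (by positivity)]; linarith)]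
      simpa using hg0
    by_cases h2 : 1 ≤ |z.1|
    · rw [pnc_Xi_zero (Or.inr h2)]
      simpa using hg0
    rw [not_le] at h1 h2
    have e : pncXi z - pncXi z * pncq0 (pncN z / (2 * R)) = pncXi z * (1 - pncq0 (pncN z / (2 * R))) := by ring
    have h3 : |1 - pncq0 (pncN z / (2 * R))| ≤ 1 := by
      rw [abs_le]; constructor <;> linarith [pnc_q0_nonneg (pncN z / (2 * R)), pnc_q0_le_one (pncN z / (2 * R))]
    have hQ : R ^ 2 < pncQ z := by rw [← pnc_N_sq]; nlinarith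
    have hz1 : z.1 ^ 2 < 1 := by rw [← sq_abs]; nlinarith [abs_nonneg z.1]
    have hz2 : (R / 2) ^ 2 ≤ z.2 ^ 2 := by
      unfold pncQ at hQ
      nlinarith
    rw [e, abs_mul]
    refine (mul_le_of_le_one_right (abs_nonneg _) h3).trans ((pnc_Xi_abs_le z).trans ?_)
    rw [hg]
    simp only
    rw [Set.indicator_of_mem (Set.mem_Icc.2 (abs_le.1 h2.le)), one_mul]
    unfold pncCd
    have hq0 : 0 < pncQ z := lt_of_le_of_lt (by positivity) hQ
    have h5 : 0 < (R / 2) ^ 2 + z.2 ^ 2 := by positivity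
    have e2 : 2 * (π / (R / 2)) * (R / 2 / (π * ((R / 2) ^ 2 + z.2 ^ 2))) = 2 / ((R / 2) ^ 2 + z.2 ^ 2) := by
      field_simp
    rw [e2, div_le_div_iff₀ hq0 h5]
    unfold pncQ
    nlinarith [sq_nonneg z.1]
  have := norm_integral_le_of_norm_le hgi (Eventually.of_forall hb)
  rwa [hgI, Real.norm_eq_abs] at this

/-- `J(h) - c_h ∫ Ξ → 0`.      TEX[04-plane l.636-652] -/
theorem pnc_J_asymp : Tendsto (fun h : ℝ => pncJ I h - pncc I h * ∫ z, pncXi z) (𝓝[>] 0) (𝓝 0) := by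
  obtain ⟨M1, hM1⟩ := pnc_XiR_Lam I
  obtain ⟨M2, hM2⟩ := pnc_XiR_vol
  obtain ⟨Mc, hMc⟩ := pnc_c_bdd I
  rw [Metric.tendsto_nhds]
  intro η hη
  set B : ℝ := |M1| + |Mc| * |M2| + 1 with hB
  have hBpos : 0 < B := by positivity
  set R : ℝ := max 21 (2 * B / η) with hR
  have hR20 : 20 < R := lt_of_lt_of_le (by norm_num) (le_max_left _ _)
  have hR0 : 0 < R := by linarith
  have hR2 : B / R ≤ η / 2 := by
    have : 2 * B / η ≤ R := le_max_right _ _
    rw [div_le_iff₀ hR0]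
    rw [div_le_iff₀ hη] at this
    linarith
  obtain ⟨hc, hs⟩ := pnc_XiR_cont hR0
  have h3 := pnc_lam I hc hs
  rw [Metric.tendsto_nhds] at h3
  filter_upwards [h3 (η / 2) (by positivity), self_mem_nhdsWithin] with δ hδ hδ0
  have hδ0 : 0 < δ := hδ0
  rw [Real.dist_eq, sub_zero] at hδ ⊢
  have a1 := hM1 R δ hR20 hδ0
  have a2 := hM2 R hR20
  have a3 := hMc δ hδ0
  rw [pnc_J_eq_Lam I hδ0]
  have e : pncLam I δ pncXi - pncc I δ * ∫ z, pncXi z
      = (pncLam I δ pncXi - pncLam I δ (pncXiR R)) + (pncLam I δ (pncXiR R) - pncc I δ * ∫ z, pncXiR R z)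
        - pncc I δ * ((∫ z, pncXi z) - ∫ z, pncXiR R z) := by ring
  rw [e]
  have b1 : |pncc I δ * ((∫ z, pncXi z) - ∫ z, pncXiR R z)| ≤ |Mc| * |M2| / R := by
    rw [abs_mul]
    calc |pncc I δ| * |(∫ z, pncXi z) - ∫ z, pncXiR R z| ≤ |Mc| * (|M2| / R) := by
          refine mul_le_mul (a3.trans (le_abs_self _)) (a2.trans ?_) (abs_nonneg _) (abs_nonneg _)
          exact div_le_div_of_nonneg_right (le_abs_self _) hR0.le
      _ = |Mc| * |M2| / R := by ring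
  have b2 : |pncLam I δ pncXi - pncLam I δ (pncXiR R)| ≤ |M1| / R :=
    a1.trans (div_le_div_of_nonneg_right (le_abs_self _) hR0.le)
  have b3 : |M1| / R + |Mc| * |M2| / R ≤ B / R := by
    rw [← add_div]
    exact div_le_div_of_nonneg_right (by rw [hB]; linarith) hR0.le
  calc _ ≤ |pncLam I δ pncXi - pncLam I δ (pncXiR R)| + |pncLam I δ (pncXiR R) - pncc I δ * ∫ z, pncXiR R z|
        + |pncc I δ * ((∫ z, pncXi z) - ∫ z, pncXiR R z)| := by
        refine (abs_sub _ _).trans ?_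
        gcongr
        exact abs_add_le _ _
    _ < η := by linarith

/-! ### the number -/

theorem pnc_cap_meas : MeasurableSet {z : ℝ × ℝ | |z.1| < 1 ∧ 1 ≤ pncN z} :=
  (measurableSet_lt measurable_fst.abs measurable_const).inter (measurableSet_le measurable_const pnc_N_continuous.measurable)

theorem pnc_cap_ind_integrable : Integrable ({z : ℝ × ℝ | |z.1| < 1 ∧ 1 ≤ pncN z}.indicator fun z => pncChi z / pncQ z) := by
  refine pnc_int_of_maj (c := 1) one_pos (pnc_f_measurable.indicator pnc_cap_meas) (fun z => ?_) fun z hz => ?_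
  · by_cases h : z ∈ {z : ℝ × ℝ | |z.1| < 1 ∧ 1 ≤ pncN z}
    · rw [Set.indicator_of_mem h]; exact pnc_f_abs_le z
    · rw [Set.indicator_of_notMem h, abs_zero]; exact div_nonneg zero_le_one (pnc_Q_nonneg z)
  · exact Set.indicator_of_notMem (fun h => hz ⟨h.1.le, (pnc_one_le_N_iff z).1 h.2⟩) _

/-- the sharp cap integral: `∫_{|κ| < 1 ≤ |ζ|} χ/|ζ|² = π/2`.      Cartesian: `∂_τ [τ(κ²-τ²)/(κ²+τ²)²] = χ/(κ²+τ²)`, so the inner integral over `|τ| ≥ √(1-κ²)` is `2√(1-κ²)(1-2κ²)`;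
`∫_{-1}^{1} √(1-κ²)(1-4κ²) = 0` (derivative of `κ(1-κ²)^{3/2}`), `∫_{-1}^1 √(1-κ²) = π/2`. -/
theorem pnc_cap_integral : ∫ z in {z : ℝ × ℝ | |z.1| < 1 ∧ 1 ≤ pncN z}, pncChi z / pncQ z = π / 2 := by
  rw [← integral_indicator pnc_cap_meas, Measure.volume_eq_prod,
    integral_prod _ (by rw [← Measure.volume_eq_prod]; exact pnc_cap_ind_integrable)]
  have e : ∀ κ : ℝ, ∫ τ, {z : ℝ × ℝ | |z.1| < 1 ∧ 1 ≤ pncN z}.indicator (fun z => pncChi z / pncQ z) (κ, τ)
      = (Set.Ioc (-1 : ℝ) 1).indicator (fun κ => 2 * (Real.sqrt (1 - κ ^ 2) * (1 - 2 * κ ^ 2))) κ := by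
    intro κ
    by_cases hκ : |κ| < 1
    · have h1 : κ ∈ Set.Ioc (-1 : ℝ) 1 := ⟨(abs_lt.1 hκ).1, (abs_lt.1 hκ).2.le⟩
      have hms : MeasurableSet {τ : ℝ | 1 ≤ pncN (κ, τ)} :=
        measurableSet_le measurable_const (pnc_N_continuous.measurable.comp (measurable_const.prodMk measurable_id))
      rw [Set.indicator_of_mem h1, ← pnc_cap_inner hκ, ← integral_indicator hms]
      refine integral_congr_ae (Eventually.of_forall fun τ => ?_)
      beta_reduce
      by_cases h2 : 1 ≤ pncN (κ, τ)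
      · rw [Set.indicator_of_mem (show (κ, τ) ∈ {z : ℝ × ℝ | |z.1| < 1 ∧ 1 ≤ pncN z} from ⟨hκ, h2⟩),
          Set.indicator_of_mem (show τ ∈ {τ : ℝ | 1 ≤ pncN (κ, τ)} from h2)]
      · rw [Set.indicator_of_notMem (show (κ, τ) ∉ {z : ℝ × ℝ | |z.1| < 1 ∧ 1 ≤ pncN z} from fun h => h2 h.2),
          Set.indicator_of_notMem (show τ ∉ {τ : ℝ | 1 ≤ pncN (κ, τ)} from h2)]
    · have h0 : ∀ τ : ℝ, {z : ℝ × ℝ | |z.1| < 1 ∧ 1 ≤ pncN z}.indicator (fun z => pncChi z / pncQ z) (κ, τ) = 0 :=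
        fun τ => Set.indicator_of_notMem (fun h => hκ h.1) _
      simp only [h0, integral_zero]
      by_cases h1 : κ ∈ Set.Ioc (-1 : ℝ) 1
      · have h2 : κ = 1 := by
          refine le_antisymm h1.2 ?_
          by_contra h3
          exact hκ (abs_lt.2 ⟨h1.1, not_le.1 h3⟩)
        rw [Set.indicator_of_mem h1, h2]
        norm_num
      · rw [Set.indicator_of_notMem h1]
  simp only [e]
  rw [integral_indicator measurableSet_Ioc, ← intervalIntegral.integral_of_le (by norm_num), pnc_sqrt_int2]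

/-- the radial weight `q0(r) - 1_{r < 1}` -/
noncomputable def pncW1 (r : ℝ) : ℝ := pncq0 r - (Set.Iio (1 : ℝ)).indicator (fun _ => (1 : ℝ)) r

/-- the tangential weight `1_{|κ| < 1} - q0(κ)` -/
noncomputable def pncW3 (κ : ℝ) : ℝ := (Set.Ioo (-1 : ℝ) 1).indicator (fun _ => (1 : ℝ)) κ - pncq0 κ

theorem pnc_W1_measurable : Measurable pncW1 :=
  pnc_q0_continuous.measurable.sub (measurable_const.indicator measurableSet_Iio)

theorem pnc_W3_measurable : Measurable pncW3 :=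
  (measurable_const.indicator measurableSet_Ioo).sub pnc_q0_continuous.measurable

theorem pnc_W1_abs_le (r : ℝ) : |pncW1 r| ≤ 1 := by
  unfold pncW1
  have h1 := pnc_q0_nonneg r
  have h2 := pnc_q0_le_one r
  by_cases h : r ∈ Set.Iio (1 : ℝ)
  · rw [Set.indicator_of_mem h, abs_le]; constructor <;> linarith
  · rw [Set.indicator_of_notMem h, abs_le]; constructor <;> linarith

theorem pnc_W3_abs_le (r : ℝ) : |pncW3 r| ≤ 1 := by
  unfold pncW3
  have h1 := pnc_q0_nonneg r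
  have h2 := pnc_q0_le_one r
  by_cases h : r ∈ Set.Ioo (-1 : ℝ) 1
  · rw [Set.indicator_of_mem h, abs_le]; constructor <;> linarith
  · rw [Set.indicator_of_notMem h, abs_le]; constructor <;> linarith

theorem pnc_W1_zero {r : ℝ} (h : |r| ≤ 1 / 2 ∨ 1 ≤ r) : pncW1 r = 0 := by
  unfold pncW1
  rcases h with h | h
  · rw [pnc_q0_one h, Set.indicator_of_mem (Set.mem_Iio.2 (by linarith [(abs_le.1 h).2])), sub_self]
  · rw [pnc_q0_zero (h.trans (le_abs_self r)), Set.indicator_of_notMem (by simpa using h), sub_self]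

theorem pnc_W3_zero {r : ℝ} (h : |r| ≤ 1 / 2 ∨ 1 ≤ |r|) : pncW3 r = 0 := by
  unfold pncW3
  rcases h with h | h
  · rw [pnc_q0_one h, Set.indicator_of_mem (show r ∈ Set.Ioo (-1 : ℝ) 1 from
      ⟨by linarith [(abs_le.1 h).1], by linarith [(abs_le.1 h).2]⟩), sub_self]
  · rw [pnc_q0_zero h, Set.indicator_of_notMem (show r ∉ Set.Ioo (-1 : ℝ) 1 from
      fun h2 => absurd (abs_lt.2 h2) (not_lt.2 h)), sub_self]

theorem pnc_fW_integrable {W : ℝ × ℝ → ℝ} (hm : Measurable W) (hb : ∀ z, |W z| ≤ 1) {c : ℝ} (hc : 0 < c)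
    (h0 : ∀ z, ¬ (|z.1| ≤ 1 ∧ c ≤ pncQ z) → W z = 0) : Integrable fun z => pncChi z / pncQ z * W z := by
  refine pnc_int_of_maj hc (pnc_f_measurable.mul hm) (fun z => ?_) fun z hz => by rw [h0 z hz, mul_zero]
  rw [abs_mul]
  exact (mul_le_of_le_one_right (abs_nonneg _) (hb z)).trans (pnc_f_abs_le z)

theorem pnc_T1_integrable : Integrable fun z : ℝ × ℝ => pncChi z / pncQ z * pncW1 (pncN z) := by
  refine pnc_fW_integrable (W := fun z => pncW1 (pncN z)) (pnc_W1_measurable.comp pnc_N_continuous.measurable)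
    (fun z => pnc_W1_abs_le _) (c := 1 / 4) (by norm_num) fun z hz => ?_
  by_cases h1 : 1 ≤ pncN z
  · exact pnc_W1_zero (Or.inr h1)
  · refine pnc_W1_zero (Or.inl ?_)
    rw [abs_of_nonneg (pnc_N_nonneg z)]
    by_contra h2
    exact hz ⟨(pnc_abs_fst_le z).trans (not_le.1 h1).le, pnc_quarter_le_Q (not_le.1 h2).le⟩

theorem pnc_T3_integrable : Integrable fun z : ℝ × ℝ => pncChi z / pncQ z * pncW3 z.1 := by
  refine pnc_fW_integrable (W := fun z => pncW3 z.1) (pnc_W3_measurable.comp measurable_fst)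
    (fun z => pnc_W3_abs_le _) (c := 1 / 4) (by norm_num) fun z hz => ?_
  by_cases h1 : 1 ≤ |z.1|
  · exact pnc_W3_zero (Or.inr h1)
  · refine pnc_W3_zero (Or.inl ?_)
    by_contra h2
    exact hz ⟨(not_le.1 h1).le, pnc_quarter_le_Q ((not_le.1 h2).le.trans (pnc_abs_fst_le z))⟩

theorem pnc_Xi_split (z : ℝ × ℝ) : pncXi z = pncChi z / pncQ z * pncW1 (pncN z)
    - {z : ℝ × ℝ | |z.1| < 1 ∧ 1 ≤ pncN z}.indicator (fun z => pncChi z / pncQ z) z + pncChi z / pncQ z * pncW3 z.1 := by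
  unfold pncXi pncW1 pncW3
  by_cases h1 : pncN z < 1
  · have h2 : |z.1| < 1 := (pnc_abs_fst_le z).trans_lt h1
    rw [Set.indicator_of_mem (Set.mem_Iio.2 h1), Set.indicator_of_mem (show z.1 ∈ Set.Ioo (-1 : ℝ) 1 from abs_lt.1 h2),
      Set.indicator_of_notMem (fun h => absurd h.2 (not_le.2 h1))]
    ring
  · by_cases h2 : |z.1| < 1
    · rw [Set.indicator_of_notMem (show pncN z ∉ Set.Iio (1 : ℝ) from h1),
        Set.indicator_of_mem (show z.1 ∈ Set.Ioo (-1 : ℝ) 1 from abs_lt.1 h2),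
        Set.indicator_of_mem (show z ∈ {z : ℝ × ℝ | |z.1| < 1 ∧ 1 ≤ pncN z} from ⟨h2, not_lt.1 h1⟩)]
      ring
    · rw [Set.indicator_of_notMem (show pncN z ∉ Set.Iio (1 : ℝ) from h1),
        Set.indicator_of_notMem (show z.1 ∉ Set.Ioo (-1 : ℝ) 1 from fun h => h2 (abs_lt.2 h)),
        Set.indicator_of_notMem (fun h => h2 h.1)]
      ring

/-- a radial weight against `χ/|ζ|²` integrates to `0` (three rotations) -/
theorem pnc_T1_integral : ∫ z : ℝ × ℝ, pncChi z / pncQ z * pncW1 (pncN z) = 0 := by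
  set F : ℝ × ℝ → ℝ := fun z => pncChi z / pncQ z * pncW1 (pncN z) with hF
  have hFm : Measurable F := pnc_f_measurable.mul (pnc_W1_measurable.comp pnc_N_continuous.measurable)
  have hFi : Integrable F := pnc_T1_integrable
  have hmp : MeasurePreserving pncRot (volume : Measure (ℝ × ℝ)) volume := ⟨pnc_rot_continuous.measurable, pnc_rot_vol⟩
  have hr : ∀ G : ℝ × ℝ → ℝ, Measurable G → ∫ z, G (pncRot z) = ∫ z, G z := by
    intro G hG
    have := integral_map (μ := (volume : Measure (ℝ × ℝ))) pnc_rot_continuous.measurable.aemeasurable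
      (f := G) hG.aestronglyMeasurable
    rw [pnc_rot_vol] at this
    exact this.symm
  have hi1 : Integrable fun z => F (pncRot z) := (hmp.integrable_comp hFm.aestronglyMeasurable).2 hFi
  have hi2 : Integrable fun z => F (pncRot (pncRot z)) :=
    (hmp.integrable_comp (hFm.comp pnc_rot_continuous.measurable).aestronglyMeasurable).2 hi1
  have h1 : ∫ z, F (pncRot z) = ∫ z, F z := hr F hFm
  have h2 : ∫ z, F (pncRot (pncRot z)) = ∫ z, F z :=
    (hr (fun z => F (pncRot z)) (hFm.comp pnc_rot_continuous.measurable)).trans h1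
  have h3 : ∫ z, (F z + F (pncRot z) + F (pncRot (pncRot z))) = 0 := by
    have : ∀ z, F z + F (pncRot z) + F (pncRot (pncRot z)) = 0 := by
      intro z
      simp only [hF, pnc_Q_rot, pnc_N_rot]
      by_cases hz : z = 0
      · have : pncQ z = 0 := by rw [hz]; simp [pncQ]
        simp [this]
      · have := pnc_chi_three z hz
        have e : pncChi z / pncQ z * pncW1 (pncN z) + pncChi (pncRot z) / pncQ z * pncW1 (pncN z)
            + pncChi (pncRot (pncRot z)) / pncQ z * pncW1 (pncN z)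
            = (pncChi z + pncChi (pncRot z) + pncChi (pncRot (pncRot z))) / pncQ z * pncW1 (pncN z) := by ring
        rw [e, this, zero_div, zero_mul]
    simp only [this, integral_zero]
  have h4 : ∫ z, (F z + F (pncRot z) + F (pncRot (pncRot z)))
      = (∫ z, F z) + (∫ z, F (pncRot z)) + ∫ z, F (pncRot (pncRot z)) := by
    have a1 : ∫ z, (F z + F (pncRot z) + F (pncRot (pncRot z)))
        = (∫ z, (F z + F (pncRot z))) + ∫ z, F (pncRot (pncRot z)) := integral_add (hFi.add hi1) hi2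
    have a2 : ∫ z, (F z + F (pncRot z)) = (∫ z, F z) + ∫ z, F (pncRot z) := integral_add hFi hi1
    rw [a1, a2]
  rw [h4, h1, h2] at h3
  linarith

/-- a tangential weight vanishing at `0` against `χ/|ζ|²` integrates to `0` (`pnc_f_line`) -/
theorem pnc_T3_integral : ∫ z : ℝ × ℝ, pncChi z / pncQ z * pncW3 z.1 = 0 := by
  rw [Measure.volume_eq_prod, integral_prod _ (by rw [← Measure.volume_eq_prod]; exact pnc_T3_integrable)]
  have e : ∀ κ : ℝ, ∫ τ, pncChi (κ, τ) / pncQ (κ, τ) * pncW3 (κ, τ).1 = 0 := by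
    intro κ
    simp only
    rw [integral_mul_const]
    by_cases hκ : κ = 0
    · rw [hκ, pnc_W3_zero (Or.inl (by norm_num)), mul_zero]
    · rw [pnc_f_line hκ, zero_mul]
  simp only [e, integral_zero]

/-- **the value of the cutoff integral**: `Ξ = f·W1(|ζ|) - 1_cap·f + f·W3(κ)`, `f = χ/|ζ|²`; the radial term dies by three rotations, the tangential one by `pnc_f_line`.      TEX[04-plane (4.24) `plane:eq:cutoff-value`] -/
theorem pnc_IXi : ∫ z, pncXi z = -(π / 2) := by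
  have e : ∀ z, pncXi z = pncChi z / pncQ z * pncW1 (pncN z)
      - {z : ℝ × ℝ | |z.1| < 1 ∧ 1 ≤ pncN z}.indicator (fun z => pncChi z / pncQ z) z + pncChi z / pncQ z * pncW3 z.1 := pnc_Xi_split
  simp only [e]
  have a1 : ∫ z : ℝ × ℝ, (pncChi z / pncQ z * pncW1 (pncN z)
      - {z : ℝ × ℝ | |z.1| < 1 ∧ 1 ≤ pncN z}.indicator (fun z => pncChi z / pncQ z) z + pncChi z / pncQ z * pncW3 z.1)
      = (∫ z : ℝ × ℝ, (pncChi z / pncQ z * pncW1 (pncN z)
        - {z : ℝ × ℝ | |z.1| < 1 ∧ 1 ≤ pncN z}.indicator (fun z => pncChi z / pncQ z) z)) + ∫ z : ℝ × ℝ, pncChi z / pncQ z * pncW3 z.1 :=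
    integral_add (pnc_T1_integrable.sub pnc_cap_ind_integrable) pnc_T3_integrable
  have a2 : ∫ z : ℝ × ℝ, (pncChi z / pncQ z * pncW1 (pncN z)
        - {z : ℝ × ℝ | |z.1| < 1 ∧ 1 ≤ pncN z}.indicator (fun z => pncChi z / pncQ z) z)
      = (∫ z : ℝ × ℝ, pncChi z / pncQ z * pncW1 (pncN z))
        - ∫ z : ℝ × ℝ, {z : ℝ × ℝ | |z.1| < 1 ∧ 1 ≤ pncN z}.indicator (fun z => pncChi z / pncQ z) z :=
    integral_sub pnc_T1_integrable pnc_cap_ind_integrable
  rw [a1, a2, pnc_T1_integral, pnc_T3_integral, integral_indicator pnc_cap_meas, pnc_cap_integral]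
  ring

/-! ### the coefficient -/

/-- **the running coefficient converges**.      TEX[04-plane Lemma 4.8] -/
theorem pnc_c_lim : ∃ c : ℝ, 0 ≤ c ∧ Tendsto (pncc I) (𝓝[>] 0) (𝓝 c) := by
  obtain ⟨L, hL⟩ := pnc_J_lim I
  have h1 := hL.sub (pnc_J_asymp I)
  simp only [sub_sub_cancel, sub_zero, pnc_IXi] at h1
  have h2 : Tendsto (pncc I) (𝓝[>] 0) (𝓝 (L * (-(π / 2))⁻¹)) := by
    refine (h1.mul_const ((-(π / 2))⁻¹)).congr fun h => ?_
    have : (-(π / 2)) ≠ 0 := by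
      have := Real.pi_pos
      intro h0
      linarith
    rw [mul_assoc, mul_inv_cancel₀ this, mul_one]
  refine ⟨_, ?_, h2⟩
  refine ge_of_tendsto h2 ?_
  filter_upwards [self_mem_nhdsWithin] with h hh
  exact pnc_c_nonneg I hh

/-- the coefficient of the contract -/
noncomputable def pncC (I : PncIn) : ℝ := (pnc_c_lim I).choose

theorem pnc_C_nonneg : 0 ≤ pncC I := (pnc_c_lim I).choose_spec.1

theorem pnc_C_tendsto : Tendsto (pncc I) (𝓝[>] 0) (𝓝 (pncC I)) := (pnc_c_lim I).choose_spec.2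

/-- **the full spectral scaling limit**: `|p|² C0` rescaled converges vaguely to `c · Lebesgue`.      TEX[04-plane Lemma 4.8] -/
theorem pnc_main {Ψ : ℝ × ℝ → ℝ} (hc : Continuous Ψ) (hs : HasCompactSupport Ψ) :
    Tendsto (fun δ : ℝ => pncLam I δ Ψ) (𝓝[>] 0) (𝓝 (pncC I * ∫ z, Ψ z)) := by
  have h := (pnc_lam I hc hs).add ((pnc_C_tendsto I).mul_const (∫ z, Ψ z))
  simpa using h

/-- uniform bound of `Λ_δ` on balls and on tails of decay `(1+|ζ|)⁻³` (dyadic sums of `I.ann`) -/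
theorem pnc_Lam_ball : ∃ M : ℝ, ∀ R δ : ℝ, 0 < R → 0 < δ →
    ∫⁻ p in {p | pncN p ≤ R * δ}, ENNReal.ofReal (pncQ (pncSc δ p)) ∂I.C0 ≤ ENNReal.ofReal (M * R ^ 2) := by
  refine ⟨2 * I.K, fun R δ hR hδ => ?_⟩
  have e : ∀ p, ENNReal.ofReal (pncQ (pncSc δ p)) = ENNReal.ofReal (1 / δ ^ 2) * ENNReal.ofReal (pncQ p) := by
    intro p
    rw [pnc_Q_sc, ← ENNReal.ofReal_mul (by positivity)]
    congr 1
    ring
  simp_rw [e]
  rw [lintegral_const_mul' _ _ ENNReal.ofReal_ne_top]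
  calc _ ≤ ENNReal.ofReal (1 / δ ^ 2) * ENNReal.ofReal (2 * I.K * (R * δ) ^ 2) := by
        gcongr
        exact pnc_ball_Q I (by positivity)
    _ = _ := by
        rw [← ENNReal.ofReal_mul (by positivity)]
        congr 1
        field_simp

theorem pnc_Lam_tail : ∃ M : ℝ, ∀ R δ : ℝ, 1 ≤ R → 0 < δ →
    ∫⁻ p in {p | R * δ ≤ pncN p}, ENNReal.ofReal (pncQ (pncSc δ p) / (1 + pncN (pncSc δ p)) ^ 3) ∂I.C0 ≤ ENNReal.ofReal (M / R) := by
  refine ⟨2 * I.K, fun R δ hR hδ => ?_⟩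
  have hR0 : 0 < R := by linarith
  refine (pnc_dyadic_up I _ (mul_pos hR0 hδ) (fun j => ENNReal.ofReal (1 / R) * (1 / 2 : ℝ≥0∞) ^ j) fun j p h1 _ => ?_).trans ?_
  · have e : (1 / 2 : ℝ≥0∞) ^ j = ENNReal.ofReal ((1 / 2) ^ j) := by
      rw [ENNReal.ofReal_pow (by norm_num)]
      congr 1
      rw [ENNReal.ofReal_div_of_pos (by norm_num)]
      simp
    rw [e, ← ENNReal.ofReal_mul (by positivity)]
    refine ENNReal.ofReal_le_ofReal ?_
    rw [← pnc_N_sq, pnc_N_sc hδ]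
    set n : ℝ := pncN p / δ with hn
    have hj : (0 : ℝ) < 2 ^ j := by positivity
    have hn1 : R * 2 ^ j ≤ n := by
      rw [hn, le_div_iff₀ hδ]
      linarith
    have hn0 : 0 < n := lt_of_lt_of_le (by positivity) hn1
    calc n ^ 2 / (1 + n) ^ 3 ≤ n ^ 2 / n ^ 3 := by
          refine div_le_div_of_nonneg_left (by positivity) (by positivity) ?_
          exact pow_le_pow_left₀ hn0.le (by linarith) 3
      _ = 1 / n := by field_simp
      _ ≤ 1 / (R * 2 ^ j) := one_div_le_one_div_of_le (by positivity) hn1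
      _ = 1 / R * (1 / 2) ^ j := by
          rw [one_div_pow, one_div_mul_one_div]
  · have e0 : ∀ j : ℕ, ENNReal.ofReal (1 / R) * (1 / 2 : ℝ≥0∞) ^ j * ENNReal.ofReal I.K
        = ENNReal.ofReal (1 / R) * (ENNReal.ofReal I.K * (1 / 2 : ℝ≥0∞) ^ j) := fun j => by ring
    simp_rw [e0]
    rw [ENNReal.tsum_mul_left, ENNReal.tsum_mul_left, ENNReal.tsum_geometric]
    have e : (1 - 1 / 2 : ℝ≥0∞)⁻¹ = 2 := by
      rw [one_div, ENNReal.one_sub_inv_two, inv_inv]
    rw [e, show 2 * I.K / R = 1 / R * (2 * I.K) by ring, ENNReal.ofReal_mul (by positivity), ENNReal.ofReal_mul (by norm_num)]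
    simp [mul_comm]

/-- three-region bound for `Λ_δ` : ball, annulus, tail -/
theorem pnc_fam_err : ∃ B : ℝ, 0 ≤ B ∧ ∀ (F : ℝ × ℝ → ℝ) (M η ε R δ : ℝ), 0 ≤ M → 0 ≤ η → 0 < ε → 1 ≤ R → 0 < δ →
    (∀ z, pncN z ≤ ε → |F z| ≤ M) → (∀ z, ε ≤ pncN z → pncN z ≤ R → |F z| ≤ η) →
    (∀ z, R ≤ pncN z → |F z| ≤ M / (1 + pncN z) ^ 3) →
    |pncLam I δ F| ≤ B * (M * ε ^ 2 + η * R ^ 2 + M / R) := by
  obtain ⟨Mb, hMb⟩ := pnc_Lam_ball I
  obtain ⟨Mt, hMt⟩ := pnc_Lam_tail I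
  refine ⟨max Mb 0 + max Mt 0, by positivity, fun F M η ε R δ hM hη hε hR hδ h1 h2 h3 => ?_⟩
  have hR0 : 0 < R := by linarith
  unfold pncLam
  rw [← Real.norm_eq_abs]
  refine (norm_integral_le_lintegral_norm _).trans ?_
  have hQm : Measurable fun p : ℝ × ℝ => ENNReal.ofReal (pncQ (pncSc δ p)) :=
    (pnc_Q_continuous.comp (pnc_sc_continuous δ)).measurable.ennreal_ofReal
  have hTm : Measurable fun p : ℝ × ℝ => ENNReal.ofReal (pncQ (pncSc δ p) / (1 + pncN (pncSc δ p)) ^ 3) :=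
    ((pnc_Q_continuous.comp (pnc_sc_continuous δ)).measurable.div
      ((continuous_const.add (pnc_N_continuous.comp (pnc_sc_continuous δ))).pow 3).measurable).ennreal_ofReal
  have mA : ∀ r : ℝ, MeasurableSet {p : ℝ × ℝ | pncN p ≤ r} := fun r =>
    measurableSet_le pnc_N_continuous.measurable measurable_const
  have mC : MeasurableSet {p : ℝ × ℝ | R * δ ≤ pncN p} := measurableSet_le measurable_const pnc_N_continuous.measurable
  have key : ∀ p, ENNReal.ofReal ‖F (pncSc δ p) * pncQ (pncSc δ p)‖ ≤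
      Set.indicator {p : ℝ × ℝ | pncN p ≤ ε * δ} (fun p => ENNReal.ofReal M * ENNReal.ofReal (pncQ (pncSc δ p))) p
      + (Set.indicator {p : ℝ × ℝ | pncN p ≤ R * δ} (fun p => ENNReal.ofReal η * ENNReal.ofReal (pncQ (pncSc δ p))) p
      + Set.indicator {p : ℝ × ℝ | R * δ ≤ pncN p}
          (fun p => ENNReal.ofReal M * ENNReal.ofReal (pncQ (pncSc δ p) / (1 + pncN (pncSc δ p)) ^ 3)) p) := by
    intro p
    have hN : pncN (pncSc δ p) = pncN p / δ := pnc_N_sc hδ p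
    have hQ0 := pnc_Q_nonneg (pncSc δ p)
    rw [Real.norm_eq_abs, abs_mul, abs_of_nonneg hQ0]
    by_cases c1 : pncN p ≤ ε * δ
    · refine le_trans ?_ le_self_add
      rw [Set.indicator_of_mem (show p ∈ {p : ℝ × ℝ | pncN p ≤ ε * δ} from c1), ← ENNReal.ofReal_mul hM]
      refine ENNReal.ofReal_le_ofReal (mul_le_mul_of_nonneg_right (h1 _ ?_) hQ0)
      rw [hN, div_le_iff₀ hδ]
      exact c1
    · rw [not_le] at c1
      refine le_trans ?_ le_add_self
      by_cases c2 : pncN p ≤ R * δ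
      · refine le_trans ?_ le_self_add
        rw [Set.indicator_of_mem (show p ∈ {p : ℝ × ℝ | pncN p ≤ R * δ} from c2), ← ENNReal.ofReal_mul hη]
        refine ENNReal.ofReal_le_ofReal (mul_le_mul_of_nonneg_right (h2 _ ?_ ?_) hQ0)
        · rw [hN, le_div_iff₀ hδ]
          exact c1.le
        · rw [hN, div_le_iff₀ hδ]
          exact c2
      · rw [not_le] at c2
        refine le_trans ?_ le_add_self
        rw [Set.indicator_of_mem (show p ∈ {p : ℝ × ℝ | R * δ ≤ pncN p} from c2.le), ← ENNReal.ofReal_mul hM]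
        refine ENNReal.ofReal_le_ofReal ?_
        have h4 := h3 (pncSc δ p) (by rw [hN, le_div_iff₀ hδ]; exact c2.le)
        calc |F (pncSc δ p)| * pncQ (pncSc δ p) ≤ M / (1 + pncN (pncSc δ p)) ^ 3 * pncQ (pncSc δ p) :=
              mul_le_mul_of_nonneg_right h4 hQ0
          _ = M * (pncQ (pncSc δ p) / (1 + pncN (pncSc δ p)) ^ 3) := by ring
  refine ENNReal.toReal_le_of_le_ofReal (by positivity) ((lintegral_mono key).trans ?_)
  rw [lintegral_add_left ((hQm.const_mul _).indicator (mA _)), lintegral_add_left ((hQm.const_mul _).indicator (mA _)),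
    lintegral_indicator (mA _), lintegral_indicator (mA _), lintegral_indicator mC,
    lintegral_const_mul' _ _ ENNReal.ofReal_ne_top, lintegral_const_mul' _ _ ENNReal.ofReal_ne_top,
    lintegral_const_mul' _ _ ENNReal.ofReal_ne_top]
  have a1 : ENNReal.ofReal M * ∫⁻ p in {p | pncN p ≤ ε * δ}, ENNReal.ofReal (pncQ (pncSc δ p)) ∂I.C0
      ≤ ENNReal.ofReal (M * (max Mb 0 * ε ^ 2)) := by
    rw [ENNReal.ofReal_mul hM]
    gcongr
    refine (hMb ε δ hε hδ).trans (ENNReal.ofReal_le_ofReal ?_)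
    gcongr
    exact le_max_left _ _
  have a2 : ENNReal.ofReal η * ∫⁻ p in {p | pncN p ≤ R * δ}, ENNReal.ofReal (pncQ (pncSc δ p)) ∂I.C0
      ≤ ENNReal.ofReal (η * (max Mb 0 * R ^ 2)) := by
    rw [ENNReal.ofReal_mul hη]
    gcongr
    refine (hMb R δ hR0 hδ).trans (ENNReal.ofReal_le_ofReal ?_)
    gcongr
    exact le_max_left _ _
  have a3 : ENNReal.ofReal M * ∫⁻ p in {p | R * δ ≤ pncN p}, ENNReal.ofReal (pncQ (pncSc δ p) / (1 + pncN (pncSc δ p)) ^ 3) ∂I.C0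
      ≤ ENNReal.ofReal (M * (max Mt 0 / R)) := by
    rw [ENNReal.ofReal_mul hM]
    gcongr
    refine (hMt R δ hR hδ).trans (ENNReal.ofReal_le_ofReal ?_)
    gcongr
    exact le_max_left _ _
  refine (add_le_add a1 (add_le_add a2 a3)).trans ?_
  rw [← ENNReal.ofReal_add (by positivity) (by positivity), ← ENNReal.ofReal_add (by positivity) (by positivity)]
  refine ENNReal.ofReal_le_ofReal ?_
  have p1 : 0 ≤ max Mt 0 * (M * ε ^ 2 + η * R ^ 2) := by positivity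
  have p2 : 0 ≤ max Mb 0 * (M / R) := by positivity
  have e : (max Mb 0 + max Mt 0) * (M * ε ^ 2 + η * R ^ 2 + M / R)
      = M * (max Mb 0 * ε ^ 2) + (η * (max Mb 0 * R ^ 2) + M * (max Mt 0 / R))
        + max Mt 0 * (M * ε ^ 2 + η * R ^ 2) + max Mb 0 * (M / R) := by ring
  rw [e]
  linarith

theorem pnc_fam_cut_abs (ε R : ℝ) (z : ℝ × ℝ) : |(1 - pncq0 (pncN z / ε)) * pncq0 (pncN z / (2 * R))| ≤ 1 := by
  rw [abs_mul]
  refine mul_le_one₀ (pnc_q0_one_sub_abs _) (abs_nonneg _) ?_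
  rw [abs_of_nonneg (pnc_q0_nonneg _)]
  exact pnc_q0_le_one _

theorem pnc_fam_cut_one {ε R : ℝ} (hε : 0 < ε) (hR : 0 < R) {z : ℝ × ℝ} (h1 : ε ≤ pncN z) (h2 : pncN z ≤ R) :
    (1 - pncq0 (pncN z / ε)) * pncq0 (pncN z / (2 * R)) = 1 := by
  rw [pnc_q0_zero, pnc_q0_one]
  · norm_num
  · rw [abs_div, abs_of_nonneg (pnc_N_nonneg z), abs_of_pos (by positivity : 0 < 2 * R), div_le_iff₀ (by positivity)]
    linarith
  · rw [abs_div, abs_of_nonneg (pnc_N_nonneg z), abs_of_pos hε, le_div_iff₀ hε]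
    linarith

theorem pnc_norm_le_N (z : ℝ × ℝ) : ‖z‖ ≤ pncN z := by
  rw [Prod.norm_def]
  exact max_le (pnc_abs_fst_le z) (pnc_abs_snd_le z)

theorem pnc_fam_cut {Ψ0 : ℝ × ℝ → ℝ} (h0c : ContinuousOn Ψ0 {0}ᶜ) {ε R : ℝ} (hε : 0 < ε) (hR : 0 < R) :
    Continuous (fun z => Ψ0 z * ((1 - pncq0 (pncN z / ε)) * pncq0 (pncN z / (2 * R)))) ∧
      HasCompactSupport (fun z => Ψ0 z * ((1 - pncq0 (pncN z / ε)) * pncq0 (pncN z / (2 * R)))) := by
  have hθ : Continuous fun z : ℝ × ℝ => (1 - pncq0 (pncN z / ε)) * pncq0 (pncN z / (2 * R)) :=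
    (continuous_const.sub (pnc_q0_continuous.comp (pnc_N_continuous.div_const ε))).mul
      (pnc_q0_continuous.comp (pnc_N_continuous.div_const (2 * R)))
  constructor
  · rw [continuous_iff_continuousAt]
    intro z
    by_cases hz : z = 0
    · have hU : {w : ℝ × ℝ | pncN w < ε / 2} ∈ 𝓝 z := by
        refine (isOpen_lt pnc_N_continuous continuous_const).mem_nhds ?_
        rw [hz]
        show pncN 0 < ε / 2
        have : pncN (0 : ℝ × ℝ) = 0 := by simp [pncN, pncQ]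
        rw [this]
        positivity
      refine (continuousAt_const (y := (0 : ℝ))).congr ?_
      filter_upwards [hU] with w hw
      have hw : pncN w < ε / 2 := hw
      rw [pnc_q0_one (x := pncN w / ε), sub_self, zero_mul, mul_zero]
      rw [abs_div, abs_of_nonneg (pnc_N_nonneg w), abs_of_pos hε, div_le_iff₀ hε]
      linarith
    · exact (h0c.continuousAt (isOpen_compl_singleton.mem_nhds hz)).mul hθ.continuousAt
  · refine HasCompactSupport.intro (isCompact_closedBall (0 : ℝ × ℝ) (2 * R)) fun z hz => ?_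
    rw [Metric.mem_closedBall, dist_zero_right, not_le] at hz
    rw [pnc_q0_zero (x := pncN z / (2 * R)), mul_zero, mul_zero]
    rw [abs_div, abs_of_nonneg (pnc_N_nonneg z), abs_of_pos (by positivity : 0 < 2 * R), le_div_iff₀ (by positivity)]
    linarith [pnc_norm_le_N z]

theorem pnc_fam_bound_integrable (M : ℝ) : Integrable fun z : ℝ × ℝ => M / (1 + pncN z) ^ 3 := by
  have h1 : Integrable fun z : ℝ × ℝ => (1 + ‖z‖) ^ (-(3 : ℝ)) :=
    integrable_one_add_norm (by simp; norm_num)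
  have h2 : Integrable fun z : ℝ × ℝ => ((1 + pncN z) ^ 3)⁻¹ := by
    refine h1.mono' ?_ (Eventually.of_forall fun z => ?_)
    · exact ((continuous_const.add pnc_N_continuous).pow 3).measurable.inv.aestronglyMeasurable
    · have hn := pnc_N_nonneg z
      have hz := norm_nonneg z
      rw [Real.norm_eq_abs, abs_of_nonneg (by positivity), Real.rpow_neg (by positivity)]
      rw [show (3 : ℝ) = ((3 : ℕ) : ℝ) by norm_num, Real.rpow_natCast]
      refine inv_anti₀ (by positivity) ?_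
      exact pow_le_pow_left₀ (by positivity) (by linarith [pnc_norm_le_N z]) 3
  simpa [div_eq_mul_inv] using h2.const_mul M

theorem pnc_fam_vol {Ψ0 : ℝ × ℝ → ℝ} {M : ℝ} (h0c : ContinuousOn Ψ0 {0}ᶜ) (h0b : ∀ z, |Ψ0 z| ≤ M / (1 + pncN z) ^ 3) :
    Tendsto (fun n : ℕ => ∫ z, Ψ0 z * ((1 - pncq0 (pncN z / (1 / ((n : ℝ) + 1)))) * pncq0 (pncN z / (2 * ((n : ℝ) + 1)))))
      atTop (𝓝 (∫ z, Ψ0 z)) := by
  refine tendsto_integral_of_dominated_convergence (fun z => M / (1 + pncN z) ^ 3) ?_ (pnc_fam_bound_integrable M) ?_ ?_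
  · intro n
    exact (pnc_fam_cut h0c (by positivity) (by positivity)).1.aestronglyMeasurable
  · intro n
    refine Eventually.of_forall fun z => ?_
    rw [Real.norm_eq_abs, abs_mul]
    exact (mul_le_of_le_one_right (abs_nonneg _) (pnc_fam_cut_abs _ _ z)).trans (h0b z)
  · have h0 : ∀ᵐ z : ℝ × ℝ, z ≠ 0 := by
      rw [ae_iff]
      simp
    filter_upwards [h0] with z hz
    have hN : 0 < pncN z := by
      refine lt_of_le_of_ne (pnc_N_nonneg z) fun h => hz ?_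
      have := pnc_norm_le_N z
      rw [← h] at this
      exact norm_le_zero_iff.1 this
    refine tendsto_const_nhds.congr' ?_
    filter_upwards [tendsto_one_div_add_atTop_nhds_zero_nat.eventually_lt_const hN,
      tendsto_natCast_atTop_atTop.eventually_ge_atTop (pncN z)] with n h1 h2
    rw [pnc_fam_cut_one (by positivity) (by positivity) h1.le (by linarith), mul_one]

/-- **the limit for `δ`-dependent families**: `Ψ δ → Ψ0` uniformly on `ε ≤ |ζ| ≤ R`, common decay `M (1+|ζ|)⁻³`, `Ψ0` continuous off the origin.      TEX[04-plane l.735-748] -/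
theorem pnc_fam {Ψ : ℝ → ℝ × ℝ → ℝ} {Ψ0 : ℝ × ℝ → ℝ} {M : ℝ} (hm : ∀ δ, Measurable (Ψ δ)) (hb : ∀ δ z, |Ψ δ z| ≤ M / (1 + pncN z) ^ 3)
    (h0c : ContinuousOn Ψ0 {0}ᶜ) (h0b : ∀ z, |Ψ0 z| ≤ M / (1 + pncN z) ^ 3)
    (hu : ∀ ε R η : ℝ, 0 < ε → 0 < η → ∀ᶠ δ in 𝓝[>] (0 : ℝ), ∀ z, ε ≤ pncN z → pncN z ≤ R → |Ψ δ z - Ψ0 z| ≤ η) :
    Tendsto (fun δ : ℝ => pncLam I δ (Ψ δ)) (𝓝[>] 0) (𝓝 (pncC I * ∫ z, Ψ0 z)) := by
  obtain ⟨B, hB0, hB⟩ := pnc_fam_err I
  have hM : 0 ≤ M := by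
    have h := (abs_nonneg _).trans (h0b 0)
    have hpos : 0 < (1 + pncN (0 : ℝ × ℝ)) ^ 3 := by
      have := pnc_N_nonneg (0 : ℝ × ℝ)
      positivity
    rw [le_div_iff₀ hpos, zero_mul] at h
    exact h
  -- the truncation error tends to zero
  have hT := pnc_fam_vol h0c h0b
  have hε : Tendsto (fun n : ℕ => 1 / ((n : ℝ) + 1)) atTop (𝓝 0) := tendsto_one_div_add_atTop_nhds_zero_nat
  have he : Tendsto (fun n : ℕ => B * (2 * M * (1 / ((n : ℝ) + 1)) ^ 2 + 2 * M * (1 / ((n : ℝ) + 1)))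
      + |pncC I| * |(∫ z, Ψ0 z * ((1 - pncq0 (pncN z / (1 / ((n : ℝ) + 1)))) * pncq0 (pncN z / (2 * ((n : ℝ) + 1))))) - ∫ z, Ψ0 z|)
      atTop (𝓝 0) := by
    have h1 := ((((hε.pow 2).const_mul (2 * M)).add (hε.const_mul (2 * M))).const_mul B).add
      (((hT.sub_const (∫ z, Ψ0 z)).abs).const_mul |pncC I|)
    simpa using h1
  rw [Metric.tendsto_nhds]
  intro η0 hη0
  obtain ⟨n, hn⟩ := (he.eventually_lt_const (show (0 : ℝ) < η0 / 3 by positivity)).exists
  set ε : ℝ := 1 / ((n : ℝ) + 1) with hεd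
  set R : ℝ := (n : ℝ) + 1 with hRd
  have hε0 : 0 < ε := by positivity
  have hR1 : 1 ≤ R := by
    rw [hRd]
    have : (0 : ℝ) ≤ n := Nat.cast_nonneg n
    linarith
  have hR0 : 0 < R := by linarith
  set θ : ℝ × ℝ → ℝ := fun z => (1 - pncq0 (pncN z / ε)) * pncq0 (pncN z / (2 * R)) with hθ
  obtain ⟨hc, hs⟩ := pnc_fam_cut h0c hε0 hR0
  have h3 := pnc_main I hc hs
  rw [Metric.tendsto_nhds] at h3
  set η' : ℝ := η0 / (3 * (B + 1) * R ^ 2) with hη'
  have hη'0 : 0 < η' := by positivity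
  have hBη : B * (η' * R ^ 2) ≤ η0 / 3 := by
    have e : B * (η' * R ^ 2) = η0 / 3 * (B / (B + 1)) := by
      rw [hη']
      field_simp
    rw [e]
    refine mul_le_of_le_one_right (by positivity) ?_
    rw [div_le_one (by positivity)]
    linarith
  filter_upwards [h3 (η0 / 3) (by positivity), hu ε R η' hε0 hη'0, self_mem_nhdsWithin] with δ hδ3 hδu hδ0
  have hδ0 : 0 < δ := hδ0
  rw [Real.dist_eq] at hδ3 ⊢
  -- linearity
  have i1 : Integrable (fun p => Ψ δ (pncSc δ p) * pncQ (pncSc δ p)) I.C0 := by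
    refine Integrable.mono' ((pnc_Q_integrable I).const_mul (M / δ ^ 2)) ?_ (Eventually.of_forall fun p => ?_)
    · exact (((hm δ).comp (pnc_sc_continuous δ).measurable).mul
        (pnc_Q_continuous.comp (pnc_sc_continuous δ)).measurable).aestronglyMeasurable
    · have hQ0 := pnc_Q_nonneg (pncSc δ p)
      have hN0 := pnc_N_nonneg (pncSc δ p)
      rw [Real.norm_eq_abs, abs_mul, abs_of_nonneg hQ0]
      have h1 : |Ψ δ (pncSc δ p)| ≤ M := by
        refine (hb δ _).trans (div_le_self hM ?_)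
        exact one_le_pow₀ (by linarith)
      calc |Ψ δ (pncSc δ p)| * pncQ (pncSc δ p) ≤ M * pncQ (pncSc δ p) := mul_le_mul_of_nonneg_right h1 hQ0
        _ = M / δ ^ 2 * pncQ p := by rw [pnc_Q_sc]; ring
  have i2 := pnc_Lam_integrable I hc hs hδ0
  have elin : pncLam I δ (Ψ δ) - pncLam I δ (fun z => Ψ0 z * θ z) = pncLam I δ (fun z => Ψ δ z - Ψ0 z * θ z) := by
    unfold pncLam
    rw [← integral_sub i1 i2]
    refine integral_congr_ae (Eventually.of_forall fun p => ?_)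
    simp only
    ring
  have hgen : ∀ z, |Ψ δ z - Ψ0 z * θ z| ≤ 2 * M / (1 + pncN z) ^ 3 := by
    intro z
    have a1 : |Ψ0 z * θ z| ≤ M / (1 + pncN z) ^ 3 := by
      rw [abs_mul]
      exact (mul_le_of_le_one_right (abs_nonneg _) (pnc_fam_cut_abs _ _ z)).trans (h0b z)
    calc |Ψ δ z - Ψ0 z * θ z| ≤ |Ψ δ z| + |Ψ0 z * θ z| := abs_sub _ _
      _ ≤ M / (1 + pncN z) ^ 3 + M / (1 + pncN z) ^ 3 := add_le_add (hb δ z) a1
      _ = 2 * M / (1 + pncN z) ^ 3 := by ring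
  have herr := hB (fun z => Ψ δ z - Ψ0 z * θ z) (2 * M) η' ε R δ (by positivity) hη'0.le hε0 hR1 hδ0
    (fun z _ => (hgen z).trans (div_le_self (by positivity) (one_le_pow₀ (by linarith [pnc_N_nonneg z]))))
    (fun z h1 h2 => by
      simp only [hθ]
      rw [pnc_fam_cut_one hε0 hR0 h1 h2, mul_one]
      exact hδu z h1 h2)
    (fun z _ => hgen z)
  rw [← elin] at herr
  have e : pncLam I δ (Ψ δ) - pncC I * ∫ z, Ψ0 z
      = (pncLam I δ (Ψ δ) - pncLam I δ (fun z => Ψ0 z * θ z)) + (pncLam I δ (fun z => Ψ0 z * θ z) - pncC I * ∫ z, Ψ0 z * θ z)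
        + pncC I * ((∫ z, Ψ0 z * θ z) - ∫ z, Ψ0 z) := by ring
  rw [e]
  have e2 : B * (2 * M * ε ^ 2 + η' * R ^ 2 + 2 * M / R) = B * (2 * M * ε ^ 2 + 2 * M * ε) + B * (η' * R ^ 2) := by
    rw [hεd]
    ring
  rw [e2] at herr
  calc _ ≤ |pncLam I δ (Ψ δ) - pncLam I δ (fun z => Ψ0 z * θ z)| + |pncLam I δ (fun z => Ψ0 z * θ z) - pncC I * ∫ z, Ψ0 z * θ z|
        + |pncC I * ((∫ z, Ψ0 z * θ z) - ∫ z, Ψ0 z)| := abs_add_three _ _ _
    _ < η0 := by
        rw [abs_mul (pncC I)]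
        linarith

theorem pnc_coef_eqns_cite : True := by
  have := @pncXiR.eq_1
  have := @pncPhi.eq_1
  have := @pncMaj.eq_1
  have := @pncW1.eq_1
  have := @pncW3.eq_1
  have := @pncC.eq_1
  trivial

end Claimed.Agent.R291
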