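import Claimed.Agent.R291.Pln.PcvB

/-!
# Row 291 (S0539), Sec. 4, unit PLN, box B3-II, part C : continuum transform, `c > 0`, Laplacian form, reflection-null      (owner helper90; prefix `pcv`)

See the header of `Pln/PcvA.lean`.      TEX[04-plane.tex l.700-766]
-/

set_option autoImplicit false

namespace Claimed.Agent.R291

open Claims Claims.C0467 MeasureTheory Filter Topology
open scoped ENNReal ComplexConjugate FourierTransform RealInnerProductSpace SchwartzMap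

/-! ## G. the continuum transform -/

theorem pcv_hg_cos2 (a c x : ℝ) :
    deriv (fun s => deriv (fun t => Real.cos (a * t + c)) s) x = -a ^ 2 * Real.cos (a * x + c) := by
  have h1 : ∀ s, HasDerivAt (fun t => Real.cos (a * t + c)) (-Real.sin (a * s + c) * a) s := by
    intro s
    have : HasDerivAt (fun t => a * t + c) a s := by simpa using ((hasDerivAt_id s).const_mul a).add_const c
    exact (Real.hasDerivAt_cos _).comp s this
  have h2 : (fun s => deriv (fun t => Real.cos (a * t + c)) s) = fun s => -Real.sin (a * s + c) * a :=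
    funext fun s => (h1 s).deriv
  rw [h2]
  have h3 : HasDerivAt (fun s => -Real.sin (a * s + c) * a) (-(Real.cos (a * x + c) * a) * a) x := by
    have : HasDerivAt (fun t => a * t + c) a x := by simpa using ((hasDerivAt_id x).const_mul a).add_const c
    exact (((Real.hasDerivAt_sin _).comp x this).neg).mul_const a
  rw [h3.deriv]; ring

theorem pcv_hg_sin2 (a c x : ℝ) :
    deriv (fun s => deriv (fun t => Real.sin (a * t + c)) s) x = -a ^ 2 * Real.sin (a * x + c) := by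
  have h1 : ∀ s, HasDerivAt (fun t => Real.sin (a * t + c)) (Real.cos (a * s + c) * a) s := by
    intro s
    have : HasDerivAt (fun t => a * t + c) a s := by simpa using ((hasDerivAt_id s).const_mul a).add_const c
    exact (Real.hasDerivAt_sin _).comp s this
  have h2 : (fun s => deriv (fun t => Real.sin (a * t + c)) s) = fun s => Real.cos (a * s + c) * a :=
    funext fun s => (h1 s).deriv
  rw [h2]
  have h3 : HasDerivAt (fun s => Real.cos (a * s + c) * a) (-Real.sin (a * x + c) * a * a) x := by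
    have : HasDerivAt (fun t => a * t + c) a x := by simpa using ((hasDerivAt_id x).const_mul a).add_const c
    exact ((Real.hasDerivAt_cos _).comp x this).mul_const a
  rw [h3.deriv]; ring

theorem pcv_hg_lap_cos (ζ z : ℝ × ℝ) :
    lap2 (fun w => Real.cos (ζ.1 * w.1 + ζ.2 * w.2)) z = -plnSq ζ * Real.cos (ζ.1 * z.1 + ζ.2 * z.2) := by
  simp only [lap2, plnSq]
  have e : (fun s => deriv (fun t => Real.cos (ζ.1 * z.1 + ζ.2 * t)) s) =
      fun s => deriv (fun t => Real.cos (ζ.2 * t + ζ.1 * z.1)) s := by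
    funext s; congr 1; funext t; rw [add_comm]
  rw [e, pcv_hg_cos2, pcv_hg_cos2, add_comm (ζ.2 * z.2)]; ring

theorem pcv_hg_lap_sin (ζ z : ℝ × ℝ) :
    lap2 (fun w => Real.sin (ζ.1 * w.1 + ζ.2 * w.2)) z = -plnSq ζ * Real.sin (ζ.1 * z.1 + ζ.2 * z.2) := by
  simp only [lap2, plnSq]
  have e : (fun s => deriv (fun t => Real.sin (ζ.1 * z.1 + ζ.2 * t)) s) =
      fun s => deriv (fun t => Real.sin (ζ.2 * t + ζ.1 * z.1)) s := by
    funext s; congr 1; funext t; rw [add_comm]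
  rw [e, pcv_hg_sin2, pcv_hg_sin2, add_comm (ζ.2 * z.2)]; ring

/-- real and imaginary parts of the continuum transform -/
theorem pcv_hg_F_split {f : ℝ × ℝ → ℝ} (hf : PcvT f) (ζ : ℝ × ℝ) :
    pcvF f ζ = ((∫ z, Real.cos (ζ.1 * z.1 + ζ.2 * z.2) * f z : ℝ) : ℂ)
      + Complex.I * ((∫ z, Real.sin (ζ.1 * z.1 + ζ.2 * z.2) * f z : ℝ) : ℂ) := by
  have i1 : Integrable fun z : ℝ × ℝ => Real.cos (ζ.1 * z.1 + ζ.2 * z.2) * f z :=
    (Continuous.mul (by fun_prop) hf.cont).integrable_of_hasCompactSupport hf.comp.mul_left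
  have i2 : Integrable fun z : ℝ × ℝ => Real.sin (ζ.1 * z.1 + ζ.2 * z.2) * f z :=
    (Continuous.mul (by fun_prop) hf.cont).integrable_of_hasCompactSupport hf.comp.mul_left
  unfold pcvF
  rw [← integral_complex_ofReal, ← integral_complex_ofReal, ← integral_const_mul,
    ← integral_add i1.ofReal (i2.ofReal.const_mul _)]
  refine integral_congr_ae (Eventually.of_forall fun z => ?_)
  simp only
  rw [mul_comm Complex.I, Complex.exp_mul_I, ← Complex.ofReal_cos, ← Complex.ofReal_sin]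
  push_cast
  ring

/-- Green's identity against `cos (ζ·z)`, `sin (ζ·z)` (`wkg_green` with `D = univ`) -/
theorem pcv_F_lap {η : ℝ × ℝ → ℝ} (hη : ContDiff ℝ 2 η) (hc : HasCompactSupport η) (ζ : ℝ × ℝ) :
    pcvF (lap2 η) ζ = -(plnSq ζ : ℂ) * pcvF η ζ := by
  have t1 : PcvT η := ⟨hη.continuous, hc⟩
  have t2 : PcvT (lap2 η) := ⟨wkg_lap_continuous hη, wkg_lap_compact hc⟩
  have g1 := wkg_green (D := Set.univ) isOpen_univ (u := fun w : ℝ × ℝ => Real.cos (ζ.1 * w.1 + ζ.2 * w.2))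
    (ContDiff.contDiffOn (by fun_prop)) hη hc (Set.subset_univ _)
  have g2 := wkg_green (D := Set.univ) isOpen_univ (u := fun w : ℝ × ℝ => Real.sin (ζ.1 * w.1 + ζ.2 * w.2))
    (ContDiff.contDiffOn (by fun_prop)) hη hc (Set.subset_univ _)
  simp only [pcv_hg_lap_cos, pcv_hg_lap_sin] at g1 g2
  have e1 : ∫ z, η z * (-plnSq ζ * Real.cos (ζ.1 * z.1 + ζ.2 * z.2)) =
      -plnSq ζ * ∫ z, Real.cos (ζ.1 * z.1 + ζ.2 * z.2) * η z := by
    rw [← integral_const_mul]; congr 1; funext z; ring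
  have e2 : ∫ z, η z * (-plnSq ζ * Real.sin (ζ.1 * z.1 + ζ.2 * z.2)) =
      -plnSq ζ * ∫ z, Real.sin (ζ.1 * z.1 + ζ.2 * z.2) * η z := by
    rw [← integral_const_mul]; congr 1; funext z; ring
  rw [pcv_hg_F_split t2, pcv_hg_F_split t1, g1, g2, e1, e2]
  push_cast
  ring

/-- a smooth compactly supported function on `ℝ × ℝ` as a Schwartz function on the Euclidean plane -/
theorem pcv_hp_schwartz {f : ℝ × ℝ → ℝ} (hf : ContDiff ℝ ((⊤ : ℕ∞) : WithTop ℕ∞) f) (hc : HasCompactSupport f) :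
    ∃ S : 𝓢(WithLp 2 (ℝ × ℝ), ℂ), ∀ v, S v = (f (WithLp.ofLp v) : ℂ) := by
  have h1 : HasCompactSupport fun v : WithLp 2 (ℝ × ℝ) => (f (WithLp.ofLp v) : ℂ) := by
    have h2 : HasCompactSupport fun z : ℝ × ℝ => (f z : ℂ) := hc.comp_left (g := fun t : ℝ => (t : ℂ)) (by simp)
    exact h2.comp_homeomorph (WithLp.prodContinuousLinearEquiv 2 ℝ ℝ ℝ).toHomeomorph
  have h3 : ContDiff ℝ ((⊤ : ℕ∞) : WithTop ℕ∞) fun v : WithLp 2 (ℝ × ℝ) => (f (WithLp.ofLp v) : ℂ) :=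
    Complex.ofRealCLM.contDiff.comp (hf.comp (WithLp.prodContinuousLinearEquiv 2 ℝ ℝ ℝ).contDiff)
  exact ⟨h1.toSchwartzMap h3, fun v => rfl⟩

theorem pcv_hp_emb : MeasurableEmbedding (@WithLp.ofLp 2 (ℝ × ℝ)) :=
  (MeasurableEquiv.toLp 2 (ℝ × ℝ)).symm.measurableEmbedding

/-- the Fourier transform of Mathlib in terms of `pcvF` -/
theorem pcv_hp_fourier {f : ℝ × ℝ → ℝ} {S : 𝓢(WithLp 2 (ℝ × ℝ), ℂ)} (hS : ∀ v, S v = (f (WithLp.ofLp v) : ℂ))
    (w : WithLp 2 (ℝ × ℝ)) : (𝓕 S) w = pcvF f ((-(2 * Real.pi)) • WithLp.ofLp w) := by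
  rw [SchwartzMap.fourier_coe, Real.fourier_eq]
  unfold pcvF
  rw [← (WithLp.volume_preserving_ofLp ℝ ℝ).integral_comp pcv_hp_emb]
  refine integral_congr_ae (Eventually.of_forall fun v => ?_)
  simp only [hS, Circle.smul_def, Real.fourierChar_apply, WithLp.prod_inner_apply, smul_eq_mul, Prod.smul_fst,
    Prod.smul_snd]
  rw [mul_comm]
  congr 2
  simp only [RCLike.inner_apply, conj_trivial, WithLp.ofLp_fst, WithLp.ofLp_snd]
  push_cast
  ring

/-- **Plancherel** (Mathlib: `SchwartzMap.integral_inner_fourier_fourier` on `EuclideanSpace ℝ (Fin 2)`, `HasCompactSupport.toSchwartzMap`,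
`pcvF f ζ = 𝓕 f (-ζ / 2π)`) -/
theorem pcv_plancherel {η g : ℝ × ℝ → ℝ} (hη : ContDiff ℝ ((⊤ : ℕ∞) : WithTop ℕ∞) η) (hηc : HasCompactSupport η)
    (hg : ContDiff ℝ ((⊤ : ℕ∞) : WithTop ℕ∞) g) (hgc : HasCompactSupport g) :
    Integrable (pcvPhi0 η g) ∧ ∫ ζ, pcvPhi0 η g ζ = (2 * Real.pi) ^ 2 * ∫ z, η z * g z := by
  obtain ⟨A, hA⟩ := pcv_hp_schwartz hη hηc
  obtain ⟨B, hB⟩ := pcv_hp_schwartz hg hgc
  have hpi : (-(2 * Real.pi)) ≠ 0 := by
    have := Real.pi_pos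
    intro h; linarith
  set H : ℝ × ℝ → ℂ := fun ζ => conj (pcvF η ζ) * pcvF g ζ with hH
  -- integrability on the Euclidean plane
  have i0 : Integrable fun ξ : WithLp 2 (ℝ × ℝ) => conj ((𝓕 A) ξ) * (𝓕 B) ξ := by
    have hb : ∀ ξ, ‖(𝓕 B) ξ‖ ≤ ‖(𝓕 B).toBoundedContinuousFunction‖ := fun ξ =>
      (𝓕 B).toBoundedContinuousFunction.norm_coe_le_norm ξ
    refine ((𝓕 A).integrable.norm.mul_const ‖(𝓕 B).toBoundedContinuousFunction‖).mono'
      ((Complex.continuous_conj.comp (𝓕 A).continuous).mul (𝓕 B).continuous).aestronglyMeasurable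
      (Eventually.of_forall fun ξ => ?_)
    rw [norm_mul, RCLike.norm_conj]
    exact mul_le_mul_of_nonneg_left (hb ξ) (norm_nonneg _)
  have i1 : Integrable fun w : ℝ × ℝ => H ((-(2 * Real.pi)) • w) := by
    rw [← (WithLp.volume_preserving_ofLp ℝ ℝ).integrable_comp_emb pcv_hp_emb]
    refine i0.congr (Eventually.of_forall fun ξ => ?_)
    simp only [Function.comp, hH, pcv_hp_fourier hA, pcv_hp_fourier hB]
  have i2 : Integrable H := (integrable_comp_smul_iff volume H hpi).1 i1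
  -- Plancherel
  have P := SchwartzMap.integral_inner_fourier_fourier A B
  simp only [RCLike.inner_apply] at P
  have e1 : ∫ ξ : WithLp 2 (ℝ × ℝ), (𝓕 B) ξ * conj ((𝓕 A) ξ) = ∫ w : ℝ × ℝ, H ((-(2 * Real.pi)) • w) := by
    rw [← (WithLp.volume_preserving_ofLp ℝ ℝ).integral_comp pcv_hp_emb]
    refine integral_congr_ae (Eventually.of_forall fun ξ => ?_)
    simp only [hH, pcv_hp_fourier hA, pcv_hp_fourier hB]
    ring
  have e2 : ∫ x : WithLp 2 (ℝ × ℝ), B x * conj (A x) = ((∫ z, η z * g z : ℝ) : ℂ) := by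
    rw [← integral_complex_ofReal, ← (WithLp.volume_preserving_ofLp ℝ ℝ).integral_comp pcv_hp_emb]
    refine integral_congr_ae (Eventually.of_forall fun ξ => ?_)
    simp only [hA, hB, Complex.conj_ofReal]
    push_cast
    ring
  rw [e1, e2, Measure.integral_comp_smul] at P
  have hfr : Module.finrank ℝ (ℝ × ℝ) = 2 := by simp
  rw [hfr] at P
  have hsc : |((-(2 * Real.pi)) ^ 2)⁻¹| = ((2 * Real.pi) ^ 2)⁻¹ := by
    rw [neg_sq, abs_of_pos (by positivity)]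
  rw [hsc] at P
  have hre : ∀ ζ, pcvPhi0 η g ζ = (H ζ).re := fun ζ => rfl
  refine ⟨i2.re.congr (Eventually.of_forall fun ζ => (hre ζ).symm), ?_⟩
  have e3 : ∫ ζ, pcvPhi0 η g ζ = (∫ ζ, H ζ).re := by
    have := integral_re i2
    exact this
  have hP : ∫ ζ, H ζ = (((2 * Real.pi) ^ 2 * ∫ z, η z * g z : ℝ) : ℂ) := by
    have h0 : ((2 * Real.pi) ^ 2 : ℝ) ≠ 0 := by positivity
    have := congrArg (fun t : ℂ => ((2 * Real.pi) ^ 2 : ℝ) • t) P
    simp only [smul_smul, mul_inv_cancel₀ h0, one_smul] at this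
    rw [this]
    simp
  rw [e3, hP, Complex.ofReal_re]

theorem pcv_hq_phi0_lap {η : ℝ × ℝ → ℝ} (hη : ContDiff ℝ 2 η) (hc : HasCompactSupport η) (g : ℝ × ℝ → ℝ) (ζ : ℝ × ℝ) :
    pcvPhi0 (lap2 η) g ζ = -plnSq ζ * pcvPhi0 η g ζ := by
  unfold pcvPhi0
  rw [pcv_F_lap hη hc, map_mul, map_neg, Complex.conj_ofReal, mul_assoc, ← Complex.ofReal_neg, Complex.re_ofReal_mul]

theorem pcv_hq_psi_lap {η : ℝ × ℝ → ℝ} (hη : ContDiff ℝ 2 η) (hc : HasCompactSupport η) (g : ℝ × ℝ → ℝ) {n : ℕ}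
    (hn : 1 ≤ n) (ζ : ℝ × ℝ) : pcvPsi (lap2 η) g n ζ = -(pcvPhi0 η g ζ * pcvTh n ζ) := by
  unfold pcvPsi
  by_cases h : plnSq ζ ≤ 1 / (n : ℝ) ^ 2
  · rw [pcv_th_low hn h]; simp
  · rw [not_le] at h
    have hpos : 0 < plnSq ζ := lt_of_le_of_lt (by positivity) h
    rw [max_eq_left h.le, pcv_hq_phi0_lap hη hc]
    field_simp

/-- dominated convergence: `Ψ_n = - Re (conj (F η) F g) θ_n` -/
theorem pcv_psi_lim {η g : ℝ × ℝ → ℝ} (hη : ContDiff ℝ ((⊤ : ℕ∞) : WithTop ℕ∞) η) (hηc : HasCompactSupport η)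
    (hg : ContDiff ℝ ((⊤ : ℕ∞) : WithTop ℕ∞) g) (hgc : HasCompactSupport g) :
    Tendsto (fun n : ℕ => ∫ ζ, pcvPsi (lap2 η) g n ζ) atTop (𝓝 (-((2 * Real.pi) ^ 2 * ∫ z, η z * g z))) := by
  have h2 : ContDiff ℝ 2 η := hη.of_le (WithTop.coe_le_coe.2 le_top)
  obtain ⟨hi, hval⟩ := pcv_plancherel hη hηc hg hgc
  rw [← tendsto_add_atTop_iff_nat 1, ← hval, ← integral_neg]
  refine tendsto_integral_of_dominated_convergence (fun ζ => |pcvPhi0 η g ζ|) (fun n => ?_) hi.abs (fun n => ?_) ?_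
  · have e : pcvPsi (lap2 η) g (n + 1) = fun ζ => -(pcvPhi0 η g ζ * pcvTh (n + 1) ζ) :=
      funext fun ζ => pcv_hq_psi_lap h2 hηc g (by omega) ζ
    rw [e]
    exact (hi.aestronglyMeasurable.mul (pcv_th_continuous (n + 1)).aestronglyMeasurable).neg
  · refine Eventually.of_forall fun ζ => ?_
    rw [pcv_hq_psi_lap h2 hηc g (by omega), norm_neg, norm_mul, Real.norm_eq_abs, Real.norm_eq_abs,
      abs_of_nonneg (pcv_th_nonneg _ _)]
    exact mul_le_of_le_one_right (abs_nonneg _) (pcv_th_le_one _ _)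
  · have hne : ∀ᵐ ζ : ℝ × ℝ, ζ ≠ 0 := by
      rw [ae_iff]
      simp
    filter_upwards [hne] with ζ hζ
    have hpos : 0 < plnSq ζ := by
      unfold plnSq
      rcases ne_or_eq ζ.1 0 with h | h
      · have := sq_nonneg ζ.2
        positivity
      · have h' : ζ.2 ≠ 0 := fun h'' => hζ (Prod.ext h h'')
        have := sq_nonneg ζ.1
        positivity
    refine tendsto_const_nhds.congr' ?_
    obtain ⟨N, hN⟩ := exists_nat_ge (max (plnSq ζ) (2 / plnSq ζ) + 1)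
    filter_upwards [eventually_ge_atTop N] with n hn
    have hnN : max (plnSq ζ) (2 / plnSq ζ) + 1 ≤ ((n + 1 : ℕ) : ℝ) := by
      have : (N : ℝ) ≤ ((n + 1 : ℕ) : ℝ) := by exact_mod_cast (by omega : N ≤ n + 1)
      linarith
    set m : ℝ := ((n + 1 : ℕ) : ℝ) with hm
    have hm1 : 1 ≤ m := by
      have := le_max_left (plnSq ζ) (2 / plnSq ζ)
      linarith
    have hmm : m ≤ m ^ 2 := by nlinarith
    have a1 : plnSq ζ ≤ m ^ 2 := by
      have := le_max_left (plnSq ζ) (2 / plnSq ζ)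
      linarith
    have a2 : 2 / m ^ 2 ≤ plnSq ζ := by
      have h3 : 2 / plnSq ζ ≤ m ^ 2 := by
        have := le_max_right (plnSq ζ) (2 / plnSq ζ)
        linarith
      rw [div_le_iff₀ hpos] at h3
      rw [div_le_iff₀ (by positivity)]
      linarith
    rw [pcv_hq_psi_lap h2 hηc g (by omega), pcv_th_mid (by omega) a2 a1, mul_one]

/-! ## H. the three conclusions -/

/-- the Laplacian of a test function -/
theorem pcv_lap_test {η : ℝ × ℝ → ℝ} (h : ContDiff ℝ ((⊤ : ℕ∞) : WithTop ℕ∞) η) (hc : HasCompactSupport η) :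
    ContDiff ℝ ((⊤ : ℕ∞) : WithTop ℕ∞) (lap2 η) ∧ HasCompactSupport (lap2 η) ∧ ∫ z, lap2 η z = 0 := by
  have h2 : ContDiff ℝ 2 η := h.of_le (WithTop.coe_le_coe.2 le_top)
  refine ⟨wkg_lap_smooth h, wkg_lap_compact hc, ?_⟩
  have := wkg_green (D := Set.univ) isOpen_univ (u := fun _ => (1 : ℝ)) contDiffOn_const h2 hc (Set.subset_univ _)
  have e : lap2 (fun _ : ℝ × ℝ => (1 : ℝ)) = fun _ => 0 := by
    funext z
    simp [lap2]
  simpa [e] using this

/-- `c > 0` : TEX[lem:nondegeneracy] against `pcv_core` at `c = 0` -/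
theorem pcv_pos {a : TV → ℝ} {Cf : Measure (ℝ × ℝ)} {K c : ℝ} (h : PlnIn a) (hs : PlnSpec a Cf K) (hc : 0 ≤ c)
    (hp : PlnPS Cf c) : 0 < c := by
  rcases hc.lt_or_eq with hpos | h0
  · exact hpos
  exfalso
  obtain ⟨f, hf, hfc, hf0, c0, hc0, hev⟩ := h.nd
  have h2 : ContDiff ℝ 2 f := hf.of_le (WithTop.coe_le_coe.2 le_top)
  obtain ⟨M, hM⟩ := pcv_core h hs hp h2 hfc ⟨hf.continuous, hfc⟩ hf0 hf0
  obtain ⟨n, hn⟩ := exists_nat_gt (max (M / c0) 1)
  have hn1 : 1 ≤ n := by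
    have : (1 : ℝ) < n := lt_of_le_of_lt (le_max_right _ _) hn
    exact_mod_cast this.le
  have hnpos : (0 : ℝ) < n := by exact_mod_cast hn1
  have hlt : M / (n : ℝ) < c0 := by
    have : M / c0 < n := lt_of_le_of_lt (le_max_left _ _) hn
    rw [div_lt_iff₀ hc0] at this
    rw [div_lt_iff₀ hnpos]
    linarith
  obtain ⟨δ, h1, h2'⟩ := ((hM n hn1).and hev).exists
  rw [← h0, zero_mul, sub_zero] at h1
  have := le_abs_self (plnGam a (plnW δ f) (plnW δ f))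
  linarith

/-- TEX[prop:plane-covariance], Laplacian form -/
theorem pcv_PC {a : TV → ℝ} {Cf : Measure (ℝ × ℝ)} {K c : ℝ} (h : PlnIn a) (hs : PlnSpec a Cf K) (hp : PlnPS Cf c) :
    PlnPC (plnGam a) ((2 * Real.pi) ^ 2 * c) := by
  intro η g hη hηc hg hgc hg0
  obtain ⟨l1, l2, l3⟩ := pcv_lap_test hη hηc
  have h2 : ContDiff ℝ 2 (lap2 η) := l1.of_le (WithTop.coe_le_coe.2 le_top)
  obtain ⟨M, hM⟩ := pcv_core h hs hp h2 l2 ⟨hg.continuous, hgc⟩ l3 hg0
  have hlim := (pcv_psi_lim hη hηc hg hgc).const_mul c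
  rw [Metric.tendsto_nhds]
  intro ε hε
  have e1 : ∀ᶠ n : ℕ in atTop, dist (c * ∫ ζ, pcvPsi (lap2 η) g n ζ)
      (c * -((2 * Real.pi) ^ 2 * ∫ z, η z * g z)) < ε / 2 := (Metric.tendsto_nhds.1 hlim) (ε / 2) (by positivity)
  obtain ⟨N, hN⟩ := exists_nat_gt (max (M / (ε / 2)) 1)
  obtain ⟨n, hn1, hn2⟩ := (e1.and (eventually_ge_atTop N)).exists
  have hnN : max (M / (ε / 2)) 1 < (n : ℝ) := lt_of_lt_of_le hN (by exact_mod_cast hn2)
  have hn1' : 1 ≤ n := by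
    have : (1 : ℝ) < n := lt_of_le_of_lt (le_max_right _ _) hnN
    exact_mod_cast this.le
  have hnpos : (0 : ℝ) < n := by exact_mod_cast hn1'
  have hlt : M / (n : ℝ) < ε / 2 := by
    have : M / (ε / 2) < n := lt_of_le_of_lt (le_max_left _ _) hnN
    rw [div_lt_iff₀ (by positivity)] at this
    rw [div_lt_iff₀ hnpos]
    linarith
  filter_upwards [hM n hn1'] with δ hδ
  have e2 : -((2 * Real.pi) ^ 2 * c) * ∫ z, η z * g z = c * -((2 * Real.pi) ^ 2 * ∫ z, η z * g z) := by ring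
  rw [e2]
  calc dist (plnGam a (plnW δ (lap2 η)) (plnW δ g)) (c * -((2 * Real.pi) ^ 2 * ∫ z, η z * g z))
      ≤ dist (plnGam a (plnW δ (lap2 η)) (plnW δ g)) (c * ∫ ζ, pcvPsi (lap2 η) g n ζ)
        + dist (c * ∫ ζ, pcvPsi (lap2 η) g n ζ) (c * -((2 * Real.pi) ^ 2 * ∫ z, η z * g z)) := dist_triangle _ _ _
    _ < ε / 2 + ε / 2 := by
        refine add_lt_add ?_ hn1
        rw [Real.dist_eq]
        exact lt_of_le_of_lt hδ hlt
    _ = ε := by ring

/-- a face which meets the square of half side `r - δ` has its centre at lattice distance `≤ 2 r / δ` of the origin -/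
theorem pcv_hs_latN {δ r : ℝ} (hδ : 0 < δ) {u : TV} (h1 : |(triPos δ u).1| ≤ r) (h2 : |(triPos δ u).2| ≤ r) {N : ℕ}
    (hN : 2 * r / δ ≤ N) : latN u ≤ N := by
  have hs3 : (1 : ℝ) ≤ Real.sqrt 3 := by
    rw [show (1 : ℝ) = Real.sqrt 1 by simp]
    exact Real.sqrt_le_sqrt (by norm_num)
  simp only [triPos] at h1 h2
  rw [abs_mul, abs_of_pos hδ] at h1 h2
  have hr : 0 ≤ r := le_trans (by positivity) h1
  have e1 : |(u.1 : ℝ) + (u.2 : ℝ) / 2| ≤ r / δ := by rw [le_div_iff₀ hδ]; linarith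
  have e2 : |(u.2 : ℝ)| ≤ 2 * (r / δ) := by
    have h3 : |(u.2 : ℝ) * Real.sqrt 3 / 2| = |(u.2 : ℝ)| * Real.sqrt 3 / 2 := by
      rw [abs_div, abs_mul, abs_of_pos (by positivity : (0 : ℝ) < Real.sqrt 3), abs_of_pos (by norm_num : (0 : ℝ) < 2)]
    rw [h3] at h2
    have h4 : |(u.2 : ℝ)| ≤ |(u.2 : ℝ)| * Real.sqrt 3 := le_mul_of_one_le_right (abs_nonneg _) hs3
    have h5 : δ * |(u.2 : ℝ)| ≤ 2 * r := by nlinarith
    rw [← mul_div_assoc, le_div_iff₀ hδ]; linarith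
  have hN' : 2 * (r / δ) ≤ N := by rw [← mul_div_assoc]; exact hN
  have a1 := abs_le.1 e1
  have a2 := abs_le.1 e2
  have b1 : |(u.1 : ℝ)| ≤ N := by
    rw [abs_le]; constructor <;> linarith [a1.1, a1.2, a2.1, a2.2]
  have b2 : |(u.2 : ℝ)| ≤ N := e2.trans hN'
  have b3 : |((u.1 + u.2 : ℤ) : ℝ)| ≤ N := by
    push_cast
    rw [abs_le]; constructor <;> linarith [a1.1, a1.2, a2.1, a2.2]
  have cv : ∀ k : ℤ, |(k : ℝ)| ≤ N → k.natAbs ≤ N := by
    intro k hk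
    have : ((k.natAbs : ℕ) : ℝ) = |(k : ℝ)| := by
      rw [Nat.cast_natAbs, Int.cast_abs]
    rw [← this] at hk
    exact_mod_cast hk
  unfold latN
  exact max_le (max_le (cv _ b1) (cv _ b2)) (cv _ b3)

/-- TEX[prop:plane-moments] at `p = 2` for face weights: uniform in the mesh, quadratic in the sup norm -/
theorem pcv_sm {a : TV → ℝ} (h : PlnIn a) (ρ : ℝ) : ∃ K' : ℝ, 0 ≤ K' ∧ ∀ δ : ℝ, 0 < δ → δ ≤ 1 → ∀ (f : ℝ × ℝ → ℝ) (M : ℝ),
    PcvT f → (∀ z, f z ≠ 0 → |z.1| ≤ ρ ∧ |z.2| ≤ ρ) → ∫ z, f z = 0 → (∀ z, |f z| ≤ M) →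
    plnGam a (plnW δ f) (plnW δ f) ≤ K' * M ^ 2 := by
  obtain ⟨K, hK⟩ := h.sm
  set r : ℝ := |ρ| + 1 with hr
  have hr1 : 1 ≤ r := by have := abs_nonneg ρ; linarith
  refine ⟨10000 * max K 0 * r ^ 4, by positivity, fun δ hδ hδ1 f M hf hsupp h0 hM => ?_⟩
  have hM0 : 0 ≤ M := (abs_nonneg _).trans (hM 0)
  rcases hM0.eq_or_lt with hMz | hMpos
  · -- `f = 0`
    have hW : plnW δ f = 0 := by
      ext u
      rw [pcv_W_apply hδ hf]
      have := pcv_latW_abs_le hδ hM u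
      rw [← hMz, mul_zero] at this
      simpa using abs_nonpos_iff.1 this
    rw [hW, ← hMz]
    simp [plnGam]
  set N : ℕ := ⌈4 * r / δ⌉₊ with hN
  have hq : 1 ≤ r / δ := by rw [le_div_iff₀ hδ]; linarith
  have hN1 : 4 * r / δ ≤ N := Nat.le_ceil _
  have hN2 : (N : ℝ) ≤ 5 * (r / δ) := by
    have h3 : (N : ℝ) ≤ 4 * r / δ + 1 := (Nat.ceil_lt_add_one (by positivity : 0 ≤ 4 * r / δ)).le
    rw [mul_div_assoc] at h3
    linarith
  have hNpos : (0 : ℝ) < N := lt_of_lt_of_le (by positivity) hN1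
  have hN1' : 1 ≤ N := by exact_mod_cast hNpos
  set t : ℝ := 1 / (100 * r ^ 2 * M) with ht
  have htpos : 0 < t := by positivity
  have key := hK N hN1' (t • plnW δ f) (by rw [pcv_tot_smul, pcv_W_tot hδ hf, h0, mul_zero]) (fun u hu => ?_)
    (fun u => ?_)
  · rw [pcv_gam_smul_left, pcv_gam_smul_right] at key
    have h1 : plnGam a (plnW δ f) (plnW δ f) ≤ K / t ^ 2 := by
      rw [le_div_iff₀ (by positivity)]
      nlinarith
    have h2 : K / t ^ 2 = 10000 * K * r ^ 4 * M ^ 2 := by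
      rw [ht]; field_simp
      ring
    rw [h2] at h1
    refine h1.trans ?_
    have : K ≤ max K 0 := le_max_left _ _
    have hp : 0 ≤ r ^ 4 * M ^ 2 := by positivity
    nlinarith
  · -- support
    have hu' : plnW δ f u ≠ 0 := by
      intro hz
      rw [Finsupp.mem_support_iff, Finsupp.smul_apply, hz] at hu
      simp at hu
    rw [pcv_W_apply hδ hf] at hu'
    obtain ⟨z, hz, hfz⟩ := pcv_latW_supp hu'
    obtain ⟨s1, s2⟩ := hsupp z hfz
    have hd := hg_hexFace_subset_closedBall hδ u hz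
    rw [Metric.mem_closedBall, Prod.dist_eq, max_le_iff, Real.dist_eq, Real.dist_eq] at hd
    have hρ : ρ ≤ |ρ| := le_abs_self ρ
    refine pcv_hs_latN (r := r) hδ ?_ ?_ ?_
    · have := abs_sub_abs_le_abs_sub (triPos δ u).1 z.1
      rw [abs_sub_comm] at this
      linarith [hd.1]
    · have := abs_sub_abs_le_abs_sub (triPos δ u).2 z.2
      rw [abs_sub_comm] at this
      linarith [hd.2]
    · refine le_trans ?_ hN1
      rw [div_le_div_iff_of_pos_right hδ]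
      linarith
  · rw [Finsupp.smul_apply, smul_eq_mul, abs_mul, abs_of_pos htpos, pcv_W_apply hδ hf]
    have h1 := pcv_latW_abs_le hδ hM u
    have h2 : t * |latW δ f u| ≤ t * (4 * δ ^ 2 * M) := mul_le_mul_of_nonneg_left h1 htpos.le
    have h3 : t * (4 * δ ^ 2 * M) = δ ^ 2 / (25 * r ^ 2) := by
      rw [ht]; field_simp
      ring
    have h4 : δ ^ 2 / (25 * r ^ 2) ≤ 1 / (N : ℝ) ^ 2 := by
      rw [div_le_div_iff₀ (by positivity) (by positivity), one_mul]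
      have h5 : (N : ℝ) * δ ≤ 5 * r := by
        have := mul_le_mul_of_nonneg_right hN2 hδ.le
        have e : 5 * (r / δ) * δ = 5 * r := by field_simp
        linarith
      have h6 : ((N : ℝ) * δ) ^ 2 ≤ (5 * r) ^ 2 := pow_le_pow_left₀ (by positivity) h5 2
      nlinarith
    linarith

theorem pcv_hr_row_invol (j : ℤ) (u : TV) : plnRow j (plnRow j u) = u := by
  simp only [plnRow, Prod.ext_iff]
  constructor <;> ring

theorem pcv_hr_rf_invol (y0 : ℝ) (z : ℝ × ℝ) : pcvRf y0 (pcvRf y0 z) = z :=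
  Prod.ext rfl (by simp [pcvRf])

theorem pcv_hr_rf_sq (y0 : ℝ) (z w : ℝ × ℝ) : sqDist (pcvRf y0 z) (pcvRf y0 w) = sqDist z w := by
  simp only [pcvRf, sqDist]; ring

theorem pcv_hr_rf_tri (δ : ℝ) (j : ℤ) (u : TV) :
    triPos δ (plnRow j u) = pcvRf (Real.sqrt 3 / 2 * δ * (j : ℝ)) (triPos δ u) := by
  simp only [pcvRf, triPos, plnRow, Prod.ext_iff]
  push_cast
  constructor <;> ring

/-- reflection in a site row permutes the faces -/
theorem pcv_face_refl (δ : ℝ) (j : ℤ) (u : TV) (z : ℝ × ℝ) :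
    pcvRf (Real.sqrt 3 / 2 * δ * (j : ℝ)) z ∈ hexFace δ (plnRow j u) ↔ z ∈ hexFace δ u := by
  constructor
  · intro h v
    have := h (plnRow j v)
    rwa [pcv_hr_rf_tri, pcv_hr_rf_tri, pcv_hr_rf_sq, pcv_hr_rf_sq] at this
  · intro h v
    have := h (plnRow j v)
    rw [← pcv_hr_rf_sq (Real.sqrt 3 / 2 * δ * (j : ℝ)), ← pcv_hr_rf_sq (Real.sqrt 3 / 2 * δ * (j : ℝ)) z,
      ← pcv_hr_rf_tri, ← pcv_hr_rf_tri, pcv_hr_row_invol] at this
    exact this

/-- the reflection as a homeomorphism -/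
theorem pcv_hr_homeo (y0 : ℝ) : ∃ e : ℝ × ℝ ≃ₜ ℝ × ℝ, ∀ z, e z = pcvRf y0 z := by
  have hc : Continuous (pcvRf y0) := by unfold pcvRf; fun_prop
  exact ⟨⟨⟨pcvRf y0, pcvRf y0, pcv_hr_rf_invol y0, pcv_hr_rf_invol y0⟩, hc, hc⟩, fun z => rfl⟩

theorem pcv_hr_mp (y0 : ℝ) : MeasurePreserving (pcvRf y0) volume volume := by
  have h1 : MeasurePreserving (fun t : ℝ => 2 * y0 - t) volume volume := Measure.measurePreserving_sub_left volume (2 * y0)
  exact (MeasurePreserving.id (volume : Measure ℝ)).prod h1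

theorem pcv_hr_emb (y0 : ℝ) : MeasurableEmbedding (pcvRf y0) := by
  obtain ⟨e, he⟩ := pcv_hr_homeo y0
  have : pcvRf y0 = e := funext fun z => (he z).symm
  rw [this]
  exact e.measurableEmbedding

theorem pcv_hr_test {f : ℝ × ℝ → ℝ} (hf : PcvT f) (y0 : ℝ) : PcvT (fun z => f (pcvRf y0 z)) := by
  obtain ⟨e, he⟩ := pcv_hr_homeo y0
  have := hf.comp_homeo e
  simpa only [he] using this

theorem pcv_hr_latW (δ : ℝ) (f : ℝ × ℝ → ℝ) (j : ℤ) (u : TV) :
    latW δ (fun z => f (pcvRf (Real.sqrt 3 / 2 * δ * (j : ℝ)) z)) u = latW δ f (plnRow j u) := by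
  unfold latW
  rw [← (pcv_hr_mp (Real.sqrt 3 / 2 * δ * (j : ℝ))).setIntegral_preimage_emb (pcv_hr_emb _) f
    (hexFace δ (plnRow j u))]
  congr 2
  ext z
  exact (pcv_face_refl δ j u z).symm

theorem pcv_W_refl {δ : ℝ} (hδ : 0 < δ) {f : ℝ × ℝ → ℝ} (hf : PcvT f) (j : ℤ) :
    plnMap (plnRow j) (plnW δ f) = plnW δ (fun z => f (pcvRf (Real.sqrt 3 / 2 * δ * (j : ℝ)) z)) := by
  ext u
  have hinj : Function.Injective (plnRow j) := (Function.LeftInverse.injective (pcv_hr_row_invol j))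
  have h1 : plnMap (plnRow j) (plnW δ f) (plnRow j (plnRow j u)) = plnW δ f (plnRow j u) :=
    Finsupp.mapDomain_apply hinj _ _
  rw [pcv_hr_row_invol] at h1
  rw [h1, pcv_W_apply hδ hf, pcv_W_apply hδ (pcv_hr_test hf _), pcv_hr_latW]

theorem pcv_lap_refl (y0 : ℝ) (φ : ℝ × ℝ → ℝ) (z : ℝ × ℝ) :
    lap2 (fun w => φ (pcvRf y0 w)) z = lap2 φ (pcvRf y0 z) := by
  simp only [lap2, pcvRf]
  congr 1
  have h1 : ∀ s : ℝ, deriv (fun t => φ (z.1, 2 * y0 - t)) s = - deriv (fun t => φ (z.1, t)) (2 * y0 - s) := by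
    intro s
    exact deriv_comp_const_sub (fun t => φ (z.1, t)) (2 * y0) s
  have h2 : (fun s => deriv (fun t => φ (z.1, 2 * y0 - t)) s) =
      fun s => - deriv (fun t => φ (z.1, t)) (2 * y0 - s) := funext h1
  rw [h2]
  have h3 := deriv_comp_const_sub (fun s => - deriv (fun t => φ (z.1, t)) s) (2 * y0) z.2
  rw [h3]
  simp [deriv.fun_neg]

theorem pcv_rf_rf (y : ℝ) (z : ℝ × ℝ) : pcvRf y (pcvRf y z) = z := by
  unfold pcvRf
  ext <;> simp

theorem pcv_rf_contDiff (y : ℝ) : ContDiff ℝ ((⊤ : ℕ∞) : WithTop ℕ∞) (pcvRf y) := by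
  unfold pcvRf
  exact contDiff_fst.prodMk (contDiff_const.sub contDiff_snd)

/-- the reflection as a homeomorphism -/
def pcvRfH (y : ℝ) : ℝ × ℝ ≃ₜ ℝ × ℝ where
  toFun := pcvRf y
  invFun := pcvRf y
  left_inv := pcv_rf_rf y
  right_inv := pcv_rf_rf y
  continuous_toFun := (pcv_rf_contDiff y).continuous
  continuous_invFun := (pcv_rf_contDiff y).continuous

theorem pcv_rf_smooth {φ : ℝ × ℝ → ℝ} (h : ContDiff ℝ ((⊤ : ℕ∞) : WithTop ℕ∞) φ) (y : ℝ) :
    ContDiff ℝ ((⊤ : ℕ∞) : WithTop ℕ∞) (fun z => φ (pcvRf y z)) := h.comp (pcv_rf_contDiff y)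

theorem pcv_rf_compact {φ : ℝ × ℝ → ℝ} (h : HasCompactSupport φ) (y : ℝ) :
    HasCompactSupport (fun z => φ (pcvRf y z)) := h.comp_homeomorph (pcvRfH y)

/-- the reflected Laplacian is a Laplacian: continuous, compactly supported, of integral zero -/
theorem pcv_rf_lap {φ : ℝ × ℝ → ℝ} (h : ContDiff ℝ ((⊤ : ℕ∞) : WithTop ℕ∞) φ) (hc : HasCompactSupport φ) (y : ℝ) :
    PcvT (fun z => lap2 φ (pcvRf y z)) ∧ ∫ z, lap2 φ (pcvRf y z) = 0 := by
  have e : (fun z => lap2 φ (pcvRf y z)) = lap2 (fun w => φ (pcvRf y w)) := by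
    funext z
    exact (pcv_lap_refl y φ z).symm
  obtain ⟨a1, a2, a3⟩ := pcv_lap_test (pcv_rf_smooth h y) (pcv_rf_compact hc y)
  rw [e]
  exact ⟨⟨a1.continuous, a2⟩, a3⟩

/-- the error term of `pcv_RN` -/
theorem pcv_RN_err {a : TV → ℝ} (h : PlnIn a) {φ : ℝ × ℝ → ℝ} (hφ : ContDiff ℝ ((⊤ : ℕ∞) : WithTop ℕ∞) φ)
    (hc : HasCompactSupport φ) (y0 : ℝ) :
    ∃ C : ℝ, 0 ≤ C ∧ ∀ δ : ℝ, 0 < δ → δ ≤ 1 → ∀ y : ℝ, |y - y0| ≤ 1 →
      |plnGam a (plnW δ (fun z => lap2 φ (pcvRf y z) - lap2 φ (pcvRf y0 z))) (plnW δ (lap2 φ))| ≤ C * |y - y0| := by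
  obtain ⟨s1, s2, s3⟩ := pcv_lap_test hφ hc
  have tF : PcvT (lap2 φ) := ⟨s1.continuous, s2⟩
  obtain ⟨ρ, hρ0, hρ⟩ := tF.box
  obtain ⟨MF, hMF⟩ := tF.cont.bounded_above_of_compact_support tF.comp
  obtain ⟨L, hL⟩ := (s1.of_le (by exact_mod_cast le_top : (1 : WithTop ℕ∞) ≤ _)).lipschitzWith_of_hasCompactSupport s2 one_ne_zero
  obtain ⟨K', hK0, hK⟩ := pcv_sm h (ρ + 2 * |y0| + 2)
  have hMF0 : 0 ≤ MF := (norm_nonneg _).trans (hMF 0)
  refine ⟨K' * (2 * L) * MF, by positivity, fun δ hδ hδ1 y hy => ?_⟩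
  set D : ℝ × ℝ → ℝ := fun z => lap2 φ (pcvRf y z) - lap2 φ (pcvRf y0 z) with hD
  have t1 := pcv_rf_lap hφ hc y
  have t0 := pcv_rf_lap hφ hc y0
  have tD : PcvT D := PcvT.sub t1.1 t0.1
  have iD : ∫ z, D z = 0 := by
    rw [hD, integral_sub t1.1.integrable t0.1.integrable, t1.2, t0.2, sub_zero]
  have bD : ∀ z, |D z| ≤ 2 * L * |y - y0| := by
    intro z
    have := hL.dist_le_mul (pcvRf y z) (pcvRf y0 z)
    rw [Real.dist_eq] at this
    refine this.trans (le_of_eq ?_)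
    rw [Prod.dist_eq]
    simp only [pcvRf, dist_self, Real.dist_eq]
    rw [max_eq_right (abs_nonneg _)]
    have : 2 * y - z.2 - (2 * y0 - z.2) = 2 * (y - y0) := by ring
    rw [this, abs_mul, abs_two]
    ring
  have sD : ∀ z, D z ≠ 0 → |z.1| ≤ ρ + 2 * |y0| + 2 ∧ |z.2| ≤ ρ + 2 * |y0| + 2 := by
    intro z hz
    have hy' : |y| ≤ |y0| + 1 := by
      have := abs_sub_abs_le_abs_sub y y0
      linarith
    have key : ∀ t : ℝ, |t| ≤ |y0| + 1 → lap2 φ (pcvRf t z) ≠ 0 → |z.1| ≤ ρ + 2 * |y0| + 2 ∧ |z.2| ≤ ρ + 2 * |y0| + 2 := by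
      intro t ht h0
      obtain ⟨b1, b2⟩ := hρ _ h0
      simp only [pcvRf] at b1 b2
      refine ⟨by linarith [abs_nonneg y0], ?_⟩
      have : |z.2| ≤ |2 * t - z.2| + 2 * |t| := by
        have e : z.2 = -(2 * t - z.2) + 2 * t := by ring
        calc |z.2| = |-(2 * t - z.2) + 2 * t| := by rw [← e]
          _ ≤ |-(2 * t - z.2)| + |2 * t| := abs_add_le _ _
          _ = |2 * t - z.2| + 2 * |t| := by rw [abs_neg, abs_mul, abs_two]
      linarith
    by_cases h1 : lap2 φ (pcvRf y z) = 0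
    · have h2 : lap2 φ (pcvRf y0 z) ≠ 0 := by
        intro h2
        apply hz
        simp only [hD, h1, h2, sub_zero]
      exact key y0 (by linarith) h2
    · exact key y hy' h1
  have sF : ∀ z, lap2 φ z ≠ 0 → |z.1| ≤ ρ + 2 * |y0| + 2 ∧ |z.2| ≤ ρ + 2 * |y0| + 2 := by
    intro z hz
    obtain ⟨b1, b2⟩ := hρ z hz
    exact ⟨by linarith [abs_nonneg y0], by linarith [abs_nonneg y0]⟩
  have g1 := hK δ hδ hδ1 D (2 * L * |y - y0|) tD sD iD bD
  have g2 := hK δ hδ hδ1 (lap2 φ) MF tF sF s3 (fun z => by simpa using hMF z)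
  have z1 : latTot (plnW δ D) = 0 := by rw [pcv_W_tot hδ tD, iD]
  have z2 : latTot (plnW δ (lap2 φ)) = 0 := by rw [pcv_W_tot hδ tF, s3]
  have cs := pcv_gam_cs h z1 z2
  have p2 := h.psd _ z2
  have hh : plnGam a (plnW δ D) (plnW δ (lap2 φ)) ^ 2 ≤ (K' * (2 * L) * MF * |y - y0|) ^ 2 := by
    calc plnGam a (plnW δ D) (plnW δ (lap2 φ)) ^ 2
        ≤ plnGam a (plnW δ D) (plnW δ D) * plnGam a (plnW δ (lap2 φ)) (plnW δ (lap2 φ)) := cs
      _ ≤ (K' * (2 * L * |y - y0|) ^ 2) * (K' * MF ^ 2) := mul_le_mul g1 g2 p2 (by positivity)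
      _ = (K' * (2 * L) * MF * |y - y0|) ^ 2 := by ring
  exact abs_le_of_sq_le_sq hh (by positivity)

/-- TEX[prop:reflection-null] -/
theorem pcv_RN {a : TV → ℝ} {v : ℝ} (h : PlnIn a) (hv : PlnPC (plnGam a) v) : PlnRN (plnGam a) := by
  intro φ y0 m j hφ hc hm hsup hj
  obtain ⟨s1, s2, s3⟩ := pcv_lap_test hφ hc
  have tF : PcvT (lap2 φ) := ⟨s1.continuous, s2⟩
  obtain ⟨C, hC0, hC⟩ := pcv_RN_err h hφ hc y0
  -- the main term
  have T1 := hv (fun z => φ (pcvRf y0 z)) (lap2 φ) (pcv_rf_smooth hφ y0) (pcv_rf_compact hc y0) s1 s2 s3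
  have e0 : ∫ z, φ (pcvRf y0 z) * lap2 φ z = 0 := by
    have : ∀ z, φ (pcvRf y0 z) * lap2 φ z = 0 := by
      intro z
      by_contra hne
      have h1 : φ (pcvRf y0 z) ≠ 0 := left_ne_zero_of_mul hne
      have h2 : lap2 φ z ≠ 0 := right_ne_zero_of_mul hne
      have a1 := hsup _ (subset_tsupport _ h1)
      have a2 := hsup _ (wkg_lap_tsupport φ (subset_tsupport _ h2))
      simp only [pcvRf] at a1
      linarith
    simp only [this, integral_zero]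
  rw [e0, mul_zero] at T1
  have e1 : lap2 (fun w => φ (pcvRf y0 w)) = fun z => lap2 φ (pcvRf y0 z) := funext fun z => pcv_lap_refl y0 φ z
  rw [e1] at T1
  -- the error term
  have T2 : Tendsto (fun δ : ℝ => plnGam a (plnW δ (fun z => lap2 φ (pcvRf (Real.sqrt 3 / 2 * δ * (j δ : ℝ)) z)
      - lap2 φ (pcvRf y0 z))) (plnW δ (lap2 φ))) (𝓝[>] 0) (𝓝 0) := by
    have hz : Tendsto (fun δ : ℝ => C * |Real.sqrt 3 / 2 * δ * (j δ : ℝ) - y0|) (𝓝[>] 0) (𝓝 0) := by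
      have := ((hj.sub_const y0).abs).const_mul C
      simpa using this
    refine squeeze_zero_norm' ?_ hz
    have c1 : ∀ᶠ δ : ℝ in 𝓝[>] 0, |Real.sqrt 3 / 2 * δ * (j δ : ℝ) - y0| ≤ 1 := by
      have := (hj.sub_const y0).abs
      rw [sub_self, abs_zero] at this
      exact (this.eventually (Iio_mem_nhds one_pos)).mono fun δ hδ => le_of_lt hδ
    have c2 : ∀ᶠ δ : ℝ in 𝓝[>] 0, δ ≤ 1 := by
      filter_upwards [Ioo_mem_nhdsGT (one_pos : (0 : ℝ) < 1)] with δ hδ using hδ.2.le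
    filter_upwards [c1, c2, self_mem_nhdsWithin] with δ h1 h2 h3
    rw [Real.norm_eq_abs]
    exact hC δ h3 h2 _ h1
  have T := T1.add T2
  rw [add_zero] at T
  refine T.congr' ?_
  filter_upwards [self_mem_nhdsWithin] with δ hδ
  have hδ' : 0 < δ := hδ
  rw [pcv_W_refl hδ' tF, pcv_W_sub hδ' (pcv_rf_lap hφ hc _).1 (pcv_rf_lap hφ hc y0).1, sub_eq_add_neg, pcv_gam_add_left,
    ← neg_one_smul ℝ (plnW δ fun z => lap2 φ (pcvRf y0 z)), pcv_gam_smul_left]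
  ring

/-- **B3-II** -/
theorem pcv_main {a : TV → ℝ} {Cf : Measure (ℝ × ℝ)} {K c : ℝ} (h : PlnIn a) (hs : PlnSpec a Cf K) (hc : 0 ≤ c)
    (hp : PlnPS Cf c) : 0 < c ∧ PlnPC (plnGam a) ((2 * Real.pi) ^ 2 * c) ∧ PlnRN (plnGam a) :=
  ⟨pcv_pos h hs hc hp, pcv_PC h hs hp, pcv_RN h (pcv_PC h hs hp)⟩

end Claimed.Agent.R291
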