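import Claimed.Agent.R291.Defs.Pln
import Claimed.Agent.R291.Spec.Pois

/-!
# Row 291 (S0539), Pln/Mix : B2 = TEX[plane:lem:mixture], MODEL FREE      (owner helper94; prefix `pln`)

`pln_mix_main : PlnIn a → PlnSpec a Cf K → ∃ ν, PlnMix Cf ν`.

1. kit: `plnGamL` (the covariance form as a bilinear map), `pln_gam_map`, `pln_gam_symm`, `pln_gam_GG` (`plnF a w` = second difference of the variogram
   = covariance of two horizontal gradients at distance `w`).
2. `pln_rp_sum` (reflection positivity on combinations of translated horizontal gradients) ⇒ `pln_phi_P0`, `pln_phi_P1` (row `n = 1` = row `n = 0` shifted by `(-1, 1)`),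
   `pln_phi_sym`, `pln_F_even_j`, `pln_F_bdd` ⇒ `gsp_bh1` (92/179) gives `γ` on `(-π, π] × [0, 1]`.
3. `plnMu Cf` = image of `|e^{ik} - 1|² Cf` on the rectangular torus (box chart); `pln_mu_coeff`: its Fourier coefficients are `plnF a (m e₁ + j (0,√3))`.
4. `pln_pois_box` (= `gsp_pois_box` of 92, Spec/Pois): equal coefficients ⇒ Poisson mixture, Cayley form.   5. division by `|e^{ik} - 1|²` on `k ≠ 0`, change of variable `λ ↦ s`.
-/

set_option autoImplicit false

namespace Claimed.Agent.R291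

open Claims Claims.C0467 MeasureTheory Filter Topology Set
open scoped ENNReal ComplexConjugate

/-- the covariance form as a bilinear map -/
noncomputable def plnGamL (a : TV → ℝ) : (TV →₀ ℝ) →ₗ[ℝ] (TV →₀ ℝ) →ₗ[ℝ] ℝ :=
  Finsupp.lsum ℝ fun u => (LinearMap.lsmul ℝ ((TV →₀ ℝ) →ₗ[ℝ] ℝ)).flip
    (Finsupp.lsum ℝ fun v => (LinearMap.lsmul ℝ ℝ).flip (-(1 / 2) * a (u - v)))

theorem pln_gam_eq (a : TV → ℝ) (b b' : TV →₀ ℝ) : plnGam a b b' = plnGamL a b b' := by
  unfold plnGam plnGamL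
  simp only [Finsupp.lsum_apply, LinearMap.flip_apply, LinearMap.lsmul_apply, Finsupp.sum,
    LinearMap.sum_apply, LinearMap.smul_apply, smul_eq_mul, Finset.mul_sum]
  refine Finset.sum_congr rfl fun u _ => Finset.sum_congr rfl fun v _ => ?_
  ring

theorem pln_gamL_single (a : TV → ℝ) (u v : TV) (x y : ℝ) :
    plnGamL a (Finsupp.single u x) (Finsupp.single v y) = -(1 / 2) * (x * y * a (u - v)) := by
  rw [← pln_gam_eq]
  unfold plnGam
  rw [Finsupp.sum_single_index (by simp)]
  rw [Finsupp.sum_single_index (by simp)]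

/-- two bilinear forms which agree on the basis agree -/
theorem pln_bil_ext {B B' : (TV →₀ ℝ) →ₗ[ℝ] (TV →₀ ℝ) →ₗ[ℝ] ℝ}
    (h : ∀ u v, B (Finsupp.single u 1) (Finsupp.single v 1) = B' (Finsupp.single u 1) (Finsupp.single v 1)) : B = B' := by
  apply Finsupp.lhom_ext'
  intro u
  apply LinearMap.ext_ring
  apply Finsupp.lhom_ext'
  intro v
  apply LinearMap.ext_ring
  simpa using h u v

/-- transport by an additive injective-or-not map `σ` with `a (σ u - σ v) = a (u - v)` -/
theorem pln_gam_map (a : TV → ℝ) (σ : TV → TV) (hσ : ∀ u v, a (σ u - σ v) = a (u - v)) (b b' : TV →₀ ℝ) :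
    plnGam a (plnMap σ b) (plnMap σ b') = plnGam a b b' := by
  rw [pln_gam_eq, pln_gam_eq]
  have : ((plnGamL a).compl₁₂ (Finsupp.lmapDomain ℝ ℝ σ) (Finsupp.lmapDomain ℝ ℝ σ)) = plnGamL a := by
    apply pln_bil_ext
    intro u v
    simp only [LinearMap.compl₁₂_apply, Finsupp.lmapDomain_apply, Finsupp.mapDomain_single, pln_gamL_single, hσ]
  exact congrArg (fun B => B b b') this

theorem pln_gam_symm (a : TV → ℝ) (ha : ∀ u, a (-u) = a u) (b b' : TV →₀ ℝ) : plnGam a b b' = plnGam a b' b := by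
  rw [pln_gam_eq, pln_gam_eq]
  have : plnGamL a = (plnGamL a).flip := by
    apply pln_bil_ext
    intro u v
    simp only [LinearMap.flip_apply, pln_gamL_single]
    rw [← ha (u - v), neg_sub]
  exact congrArg (fun B => B b b') this

theorem PlnIn.even {a : TV → ℝ} (h : PlnIn a) (u : TV) : a (-u) = a u := by
  have : latRot (latRot (latRot u)) = -u := by
    simp [latRot, Prod.ext_iff]
  rw [← this, h.rot, h.rot, h.rot]

theorem pln_tr_single (w u : TV) (x : ℝ) : plnTr w (Finsupp.single u x) = Finsupp.single (u + w) x := by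
  unfold plnTr; rw [Finsupp.mapDomain_single]

theorem pln_tr_G (w u : TV) : plnTr w (plnG u) = Finsupp.single (u + w) 1 - Finsupp.single w 1 := by
  unfold plnTr plnG
  rw [sub_eq_add_neg, Finsupp.mapDomain_add, ← Finsupp.single_neg, Finsupp.mapDomain_single, Finsupp.mapDomain_single,
    Finsupp.single_neg, zero_add, ← sub_eq_add_neg]

theorem pln_tot_single (u : TV) (x : ℝ) : latTot (Finsupp.single u x) = x := by
  unfold latTot; rw [Finsupp.sum_single_index rfl]

theorem pln_tot_add (b b' : TV →₀ ℝ) : latTot (b + b') = latTot b + latTot b' := by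
  unfold latTot; exact Finsupp.sum_add_index' (fun _ => rfl) (fun _ _ _ => rfl)

theorem pln_tot_smul (c : ℝ) (b : TV →₀ ℝ) : latTot (c • b) = c * latTot b := by
  unfold latTot
  rw [Finsupp.sum_smul_index' (fun _ => rfl), Finsupp.mul_sum]
  rfl

theorem pln_tot_tr_G (w u : TV) : latTot (plnTr w (plnG u)) = 0 := by
  rw [pln_tr_G, sub_eq_add_neg, ← Finsupp.single_neg, pln_tot_add, pln_tot_single, pln_tot_single]; ring

theorem pln_tot_sum {ι : Type*} (s : Finset ι) (f : ι → TV →₀ ℝ) : latTot (∑ i ∈ s, f i) = ∑ i ∈ s, latTot (f i) := by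
  classical
  induction s using Finset.induction_on with
  | empty => simp [latTot]
  | insert i s hi ih => rw [Finset.sum_insert hi, Finset.sum_insert hi, pln_tot_add, ih]

/-- the gradient-gradient covariance: second difference of the variogram -/
noncomputable def plnF (a : TV → ℝ) (w : TV) : ℝ := 1 / 2 * (a (w + (1, 0)) + a (w - (1, 0)) - 2 * a w)

theorem pln_gam_GG {a : TV → ℝ} (ha : ∀ u, a (-u) = a u) (w w' : TV) :
    plnGam a (plnTr w (plnG (1, 0))) (plnTr w' (plnG (1, 0))) = plnF a (w' - w) := by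
  rw [pln_gam_eq, pln_tr_G, pln_tr_G]
  simp only [map_sub, LinearMap.sub_apply, pln_gamL_single]
  unfold plnF
  have e1 : (1, 0) + w - ((1, 0) + w') = -(w' - w) := by abel
  have e2 : (1, 0) + w - w' = -(w' - w - (1, 0)) := by abel
  have e3 : w - ((1, 0) + w') = -(w' - w + (1, 0)) := by abel
  have e4 : w - w' = -(w' - w) := by abel
  rw [e1, e2, e3, e4, ha, ha, ha]
  ring

/-- the lattice vector `m e₁ + j (0, √3)` -/
def plnWv (m : ℤ) (j : ℤ) : TV := (m - j, 2 * j)

theorem pln_map_tr_G (w : TV) : plnMap latRefl (plnTr w (plnG (1, 0))) = plnTr (latRefl w) (plnG (1, 0)) := by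
  rw [pln_tr_G, pln_tr_G]
  unfold plnMap
  rw [sub_eq_add_neg, Finsupp.mapDomain_add, ← Finsupp.single_neg, Finsupp.mapDomain_single, Finsupp.mapDomain_single,
    Finsupp.single_neg, ← sub_eq_add_neg, lat_refl_add]
  rfl

theorem pln_map_sum {ι : Type*} (σ : TV → TV) (s : Finset ι) (f : ι → TV →₀ ℝ) :
    plnMap σ (∑ i ∈ s, f i) = ∑ i ∈ s, plnMap σ (f i) := by
  unfold plnMap; exact Finsupp.mapDomain_finsetSum

theorem pln_map_smul (σ : TV → TV) (c : ℝ) (b : TV →₀ ℝ) : plnMap σ (c • b) = c • plnMap σ b := by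
  unfold plnMap; exact Finsupp.mapDomain_smul c b

/-- reflection positivity on combinations of translated horizontal gradients -/
theorem pln_rp_sum {a : TV → ℝ} (h : PlnIn a) {ι : Type*} (s : Finset ι) (x : ι → ℝ) (w : ι → TV) (hw : ∀ i ∈ s, 0 ≤ (w i).2) :
    0 ≤ ∑ p ∈ s, ∑ q ∈ s, x p * x q * plnF a (w q - latRefl (w p)) := by
  classical
  set b : TV →₀ ℝ := ∑ p ∈ s, x p • plnTr (w p) (plnG (1, 0)) with hb
  have h0 : latTot b = 0 := by
    rw [hb, pln_tot_sum]
    refine Finset.sum_eq_zero fun p _ => ?_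
    rw [pln_tot_smul, pln_tot_tr_G, mul_zero]
  have h1 : ∀ u ∈ b.support, 0 ≤ u.2 := by
    intro u hu
    have := Finsupp.support_finsetSum hu
    rw [Finset.mem_biUnion] at this
    obtain ⟨p, hp, hu⟩ := this
    have hu := Finsupp.support_smul hu
    rw [pln_tr_G] at hu
    have hu := Finsupp.support_sub hu
    rw [Finset.mem_union] at hu
    rcases hu with hu | hu
    · have := Finsupp.support_single_subset hu
      rw [Finset.mem_singleton] at this
      rw [this]
      simpa using hw p hp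
    · have := Finsupp.support_single_subset hu
      rw [Finset.mem_singleton] at this
      rw [this]
      exact hw p hp
  have h2 := h.rp b h0 h1
  have h3 : plnGam a (plnMap latRefl b) b = ∑ p ∈ s, ∑ q ∈ s, x p * x q * plnF a (w q - latRefl (w p)) := by
    rw [pln_gam_eq]
    conv_lhs => rw [hb]
    rw [pln_map_sum]
    simp only [map_sum, LinearMap.sum_apply, pln_map_smul, map_smul, LinearMap.smul_apply, smul_eq_mul]
    simp only [Finset.mul_sum]
    rw [Finset.sum_comm]
    refine Finset.sum_congr rfl fun p _ => Finset.sum_congr rfl fun q _ => ?_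
    rw [pln_map_tr_G, ← pln_gam_eq, pln_gam_GG h.even]
    ring
  rw [← h3]; exact h2

/-- real symmetric kernels: complex positivity from real positivity -/
theorem pln_complex_pd {ι : Type*} (s : Finset ι) (κ : ι → ι → ℝ)
    (hκ : ∀ x : ι → ℝ, 0 ≤ ∑ p ∈ s, ∑ q ∈ s, x p * x q * κ p q) (c : ι → ℂ) :
    0 ≤ (∑ p ∈ s, ∑ q ∈ s, conj (c p) * c q * (κ p q : ℂ)).re := by
  have e : (∑ p ∈ s, ∑ q ∈ s, conj (c p) * c q * (κ p q : ℂ)).re =
      (∑ p ∈ s, ∑ q ∈ s, (c p).re * (c q).re * κ p q) + ∑ p ∈ s, ∑ q ∈ s, (c p).im * (c q).im * κ p q := by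
    rw [Complex.re_sum, ← Finset.sum_add_distrib]
    refine Finset.sum_congr rfl fun p _ => ?_
    rw [Complex.re_sum, ← Finset.sum_add_distrib]
    refine Finset.sum_congr rfl fun q _ => ?_
    simp only [Complex.mul_re, Complex.conj_re, Complex.conj_im, Complex.ofReal_re, Complex.ofReal_im, Complex.mul_im]
    ring
  rw [e]
  exact add_nonneg (hκ _) (hκ _)

/-- the function to which `sp8_bh` is applied -/
noncomputable def plnPhi (a : TV → ℝ) (m : ℤ) (j : ℕ) : ℂ := ((plnF a (plnWv m j) : ℝ) : ℂ)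

theorem pln_phi_P0 {a : TV → ℝ} (h : PlnIn a) (s : Finset (ℤ × ℕ)) (c : ℤ × ℕ → ℂ) :
    0 ≤ (∑ p ∈ s, ∑ q ∈ s, conj (c p) * c q * plnPhi a (q.1 - p.1) (p.2 + q.2)).re := by
  refine pln_complex_pd s (fun p q => plnF a (plnWv (q.1 - p.1) ((p.2 + q.2 : ℕ) : ℤ))) (fun x => ?_) c
  have := pln_rp_sum h s x (fun p => plnWv p.1 p.2) (fun p _ => by simp [plnWv])
  refine this.trans_eq (Finset.sum_congr rfl fun p _ => Finset.sum_congr rfl fun q _ => ?_)
  congr 2
  simp only [plnWv, latRefl, Prod.ext_iff, Prod.fst_sub, Prod.snd_sub]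
  push_cast
  constructor <;> ring

theorem pln_phi_P1 {a : TV → ℝ} (h : PlnIn a) (s : Finset (ℤ × ℕ)) (c : ℤ × ℕ → ℂ) :
    0 ≤ (∑ p ∈ s, ∑ q ∈ s, conj (c p) * c q * plnPhi a (q.1 - p.1) (p.2 + q.2 + 1)).re := by
  refine pln_complex_pd s (fun p q => plnF a (plnWv (q.1 - p.1) ((p.2 + q.2 + 1 : ℕ) : ℤ))) (fun x => ?_) c
  have := pln_rp_sum h s x (fun p => plnWv p.1 p.2 + (-1, 1)) (fun p _ => by simp [plnWv]; positivity)
  refine this.trans_eq (Finset.sum_congr rfl fun p _ => Finset.sum_congr rfl fun q _ => ?_)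
  congr 2
  simp only [plnWv, latRefl, Prod.ext_iff, Prod.fst_sub, Prod.snd_sub, Prod.fst_add, Prod.snd_add]
  push_cast
  constructor <;> ring

theorem pln_F_refl {a : TV → ℝ} (h : PlnIn a) (w : TV) : plnF a (latRefl w) = plnF a w := by
  unfold plnF
  have e1 : latRefl w + (1, 0) = latRefl (w + (1, 0)) := by rw [lat_refl_add]; rfl
  have e2 : latRefl w - (1, 0) = latRefl (w - (1, 0)) := by
    rw [sub_eq_add_neg, sub_eq_add_neg, lat_refl_add]; rfl
  rw [e1, e2, h.refl, h.refl, h.refl]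

theorem pln_F_neg {a : TV → ℝ} (h : PlnIn a) (w : TV) : plnF a (-w) = plnF a w := by
  unfold plnF
  have e1 : -w + (1, 0) = -(w - (1, 0)) := by abel
  have e2 : -w - (1, 0) = -(w + (1, 0)) := by abel
  rw [e1, e2, h.even, h.even, h.even]
  ring

theorem pln_phi_sym {a : TV → ℝ} (h : PlnIn a) (m : ℤ) (j : ℕ) : plnPhi a (-m) j = conj (plnPhi a m j) := by
  unfold plnPhi
  rw [Complex.conj_ofReal]
  congr 1
  rw [← pln_F_neg h, ← pln_F_refl h]
  congr 1
  simp only [plnWv, latRefl, Prod.ext_iff, Prod.fst_neg, Prod.snd_neg]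
  constructor <;> ring

/-- evenness in the normal variable -/
theorem pln_F_even_j {a : TV → ℝ} (h : PlnIn a) (m j : ℤ) : plnF a (plnWv m (-j)) = plnF a (plnWv m j) := by
  rw [← pln_F_refl h]
  congr 1
  simp only [plnWv, latRefl, Prod.ext_iff]
  constructor <;> ring

theorem pln_sqrt3_pos : (0 : ℝ) < Real.sqrt 3 := by positivity

theorem pln_red_measurable : Measurable plnRed := by
  unfold plnRed
  have : (fun l : ℝ => toIocMod (show (0 : ℝ) < 2 * Real.pi / Real.sqrt 3 by positivity) (-(Real.pi / Real.sqrt 3)) l) =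
      fun l => -(Real.pi / Real.sqrt 3) + 2 * Real.pi / Real.sqrt 3 -
        Int.fract ((-(Real.pi / Real.sqrt 3) + 2 * Real.pi / Real.sqrt 3 - l) / (2 * Real.pi / Real.sqrt 3)) * (2 * Real.pi / Real.sqrt 3) := by
    funext l
    exact toIocMod_eq_sub_fract_mul _ _ _
  rw [this]
  exact measurable_const.sub ((measurable_fract.comp ((measurable_const.sub measurable_id).div_const _)).mul_const _)

theorem pln_red_mem (l : ℝ) : Real.sqrt 3 * plnRed l ∈ Ioc (-Real.pi) Real.pi := by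
  have h := toIocMod_mem_Ioc (show (0 : ℝ) < 2 * Real.pi / Real.sqrt 3 by positivity) (-(Real.pi / Real.sqrt 3)) l
  have h3 := pln_sqrt3_pos
  change plnRed l ∈ _ at h
  constructor
  · have := mul_lt_mul_of_pos_left h.1 h3
    have e : Real.sqrt 3 * -(Real.pi / Real.sqrt 3) = -Real.pi := by field_simp
    rwa [e] at this
  · have := mul_le_mul_of_nonneg_left h.2 h3.le
    have e : Real.sqrt 3 * (-(Real.pi / Real.sqrt 3) + 2 * Real.pi / Real.sqrt 3) = Real.pi := by field_simp; ring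
    rwa [e] at this

theorem pln_red_sub (l : ℝ) : ∃ n : ℤ, Real.sqrt 3 * l = Real.sqrt 3 * plnRed l + n * (2 * Real.pi) := by
  refine ⟨toIocDiv (show (0 : ℝ) < 2 * Real.pi / Real.sqrt 3 by positivity) (-(Real.pi / Real.sqrt 3)) l, ?_⟩
  have h := self_sub_toIocMod (show (0 : ℝ) < 2 * Real.pi / Real.sqrt 3 by positivity) (-(Real.pi / Real.sqrt 3)) l
  change l - plnRed l = _ at h
  have h3 := pln_sqrt3_pos
  have : l = plnRed l + (toIocDiv (show (0 : ℝ) < 2 * Real.pi / Real.sqrt 3 by positivity) (-(Real.pi / Real.sqrt 3)) l : ℝ) * (2 * Real.pi / Real.sqrt 3) := by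
    rw [zsmul_eq_mul] at h; linarith
  conv_lhs => rw [this]
  field_simp

theorem pln_red_exp (x : ℝ) (j : ℤ) (l : ℝ) :
    Complex.exp (Complex.I * ((x : ℂ) + j * ((Real.sqrt 3 * plnRed l : ℝ) : ℂ))) =
      Complex.exp (Complex.I * ((x : ℂ) + j * ((Real.sqrt 3 * l : ℝ) : ℂ))) := by
  obtain ⟨n, hn⟩ := pln_red_sub l
  rw [hn]
  push_cast
  have : Complex.I * ((x : ℂ) + j * (Real.sqrt 3 * plnRed l + n * (2 * Real.pi))) =
      Complex.I * ((x : ℂ) + j * (Real.sqrt 3 * plnRed l)) + ((j * n : ℤ) : ℂ) * (2 * Real.pi * Complex.I) := by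
    push_cast; ring
  rw [this, Complex.exp_add, Complex.exp_int_mul_two_pi_mul_I, mul_one]

theorem pln_hat_single (u : TV) (x : ℝ) (p : ℝ × ℝ) :
    plnHat (Finsupp.single u x) p = (x : ℂ) * Complex.exp (Complex.I * (plnPh p u : ℂ)) := by
  unfold plnHat; rw [Finsupp.sum_single_index (by simp)]

theorem pln_hat_sub (b b' : TV →₀ ℝ) (p : ℝ × ℝ) : plnHat (b - b') p = plnHat b p - plnHat b' p := by
  unfold plnHat
  exact Finsupp.sum_sub_index (fun u x y => by push_cast; ring)

theorem pln_hat_G1 (p : ℝ × ℝ) : plnHat (plnG (1, 0)) p = Complex.exp (Complex.I * (p.1 : ℂ)) - 1 := by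
  unfold plnG
  rw [pln_hat_sub, pln_hat_single, pln_hat_single]
  simp [plnPh]

theorem pln_tr_zero (b : TV →₀ ℝ) : plnTr 0 b = b := by
  unfold plnTr
  simp only [add_zero]
  exact Finsupp.mapDomain_id

theorem pln_tot_G (u : TV) : latTot (plnG u) = 0 := by
  have := pln_tot_tr_G 0 u
  rwa [pln_tr_zero] at this

/-- the spectral representation of the gradient-gradient covariance -/
theorem pln_F_rep {a : TV → ℝ} {Cf : Measure (ℝ × ℝ)} {K : ℝ} (h : PlnIn a) (hs : PlnSpec a Cf K) (w : TV) :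
    ((plnF a w : ℝ) : ℂ) = ∫ p, Complex.exp (Complex.I * (plnPh p w : ℂ)) *
      ((‖Complex.exp (Complex.I * (p.1 : ℂ)) - 1‖ ^ 2 : ℝ) : ℂ) ∂Cf := by
  have h1 := hs.rep (plnG (1, 0)) w (pln_tot_G _)
  have h2 := pln_gam_GG h.even 0 w
  rw [pln_tr_zero, sub_zero] at h2
  rw [h2] at h1
  rw [h1]
  simp only [pln_hat_G1]

theorem pln_F_bdd {a : TV → ℝ} {Cf : Measure (ℝ × ℝ)} {K : ℝ} (h : PlnIn a) (hs : PlnSpec a Cf K) (w : TV) :
    |plnF a w| ≤ plnF a 0 := by
  have h0 := pln_F_rep h hs 0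
  have hw := pln_F_rep h hs w
  have e0 : ((plnF a 0 : ℝ) : ℂ) = ((∫ p, ‖Complex.exp (Complex.I * (p.1 : ℂ)) - 1‖ ^ 2 ∂Cf : ℝ) : ℂ) := by
    rw [h0, ← integral_complex_ofReal]
    refine integral_congr_ae (Eventually.of_forall fun p => ?_)
    simp [plnPh]
  have e0' : plnF a 0 = ∫ p, ‖Complex.exp (Complex.I * (p.1 : ℂ)) - 1‖ ^ 2 ∂Cf := by exact_mod_cast e0
  have : ‖((plnF a w : ℝ) : ℂ)‖ ≤ ∫ p, ‖Complex.exp (Complex.I * (p.1 : ℂ)) - 1‖ ^ 2 ∂Cf := by
    rw [hw]
    refine (norm_integral_le_integral_norm _).trans (le_of_eq ?_)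
    refine integral_congr_ae (Eventually.of_forall fun p => ?_)
    simp only [norm_mul]
    rw [mul_comm Complex.I, Complex.norm_exp_ofReal_mul_I, one_mul, Complex.norm_real, Real.norm_eq_abs, abs_of_nonneg (by positivity)]
  rw [Complex.norm_real, Real.norm_eq_abs] at this
  rw [e0']; exact this

/-- (92, Spec/Pois) Poisson mixture in box + Cayley form -/
theorem pln_pois_box (γ μ : Measure (ℝ × ℝ)) [IsFiniteMeasure γ] [IsFiniteMeasure μ]
    (hg : γ (Ioc (-Real.pi) Real.pi ×ˢ Icc (0 : ℝ) 1)ᶜ = 0) (hm : μ (Ioc (-Real.pi) Real.pi ×ˢ Ioc (-Real.pi) Real.pi)ᶜ = 0)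
    (h : ∀ m j : ℤ, ∫ p, Complex.exp (Complex.I * (m * p.1 + j * p.2)) ∂μ =
      ∫ q, Complex.exp (Complex.I * (m * q.1)) * (q.2 : ℂ) ^ j.natAbs ∂γ) :
    ∀ G : ℝ × ℝ → ℝ≥0∞, Measurable G →
      ∫⁻ p, G p ∂μ = ∫⁻ q, ∫⁻ t, G (q.1, 2 * Real.arctan ((1 - q.2) / (1 + q.2) * t)) ∂plnCau ∂γ :=
  fun G hG => gsp_pois_box hg hm h G hG

/-- `|e^{ik} - 1|^2` -/
noncomputable def plnRho (k : ℝ) : ℝ := ‖Complex.exp (Complex.I * (k : ℂ)) - 1‖ ^ 2

theorem pln_rho_measurable : Measurable plnRho := by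
  unfold plnRho
  fun_prop

theorem pln_rho_pos {k : ℝ} (hk : k ∈ Ioc (-Real.pi) Real.pi) (h0 : k ≠ 0) : 0 < plnRho k := by
  unfold plnRho
  have : Complex.exp (Complex.I * (k : ℂ)) - 1 ≠ 0 := by
    intro h
    rw [sub_eq_zero, Complex.exp_eq_one_iff] at h
    obtain ⟨n, hn⟩ := h
    have h1 : (k : ℂ) = n * (2 * Real.pi) := by
      have hI : Complex.I ≠ 0 := Complex.I_ne_zero
      apply mul_left_cancel₀ hI
      rw [hn]; ring
    have h2 : k = n * (2 * Real.pi) := by exact_mod_cast h1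
    have hpi := Real.pi_pos
    have hn0 : n = 0 := by
      by_contra hne
      rcases lt_or_gt_of_ne hne with hlt | hgt
      · have : (n : ℝ) ≤ -1 := by exact_mod_cast Int.le_sub_one_of_lt hlt
        have := hk.1
        nlinarith
      · have : (1 : ℝ) ≤ n := by exact_mod_cast hgt
        have := hk.2
        nlinarith
    rw [hn0] at h2
    exact h0 (by simpa using h2)
  positivity

/-- the projection to the rectangular torus, box chart -/
noncomputable def plnT (p : ℝ × ℝ) : ℝ × ℝ := (p.1, Real.sqrt 3 * plnRed p.2)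

theorem pln_T_measurable : Measurable plnT :=
  measurable_fst.prodMk ((pln_red_measurable.comp measurable_snd).const_mul _)

/-- the spectral measure of the horizontal gradient, projected -/
noncomputable def plnMu (Cf : Measure (ℝ × ℝ)) : Measure (ℝ × ℝ) :=
  (Cf.withDensity fun p => ENNReal.ofReal (plnRho p.1)).map plnT

theorem pln_rho_int {a : TV → ℝ} {Cf : Measure (ℝ × ℝ)} {K : ℝ} (hs : PlnSpec a Cf K) :
    Integrable (fun p : ℝ × ℝ => plnRho p.1) Cf := by
  have := hs.int (plnG (1, 0)) (pln_tot_G _)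
  simp only [pln_hat_G1] at this
  exact this

theorem pln_mu_fin {a : TV → ℝ} {Cf : Measure (ℝ × ℝ)} {K : ℝ} (hs : PlnSpec a Cf K) : IsFiniteMeasure (plnMu Cf) := by
  have h1 : IsFiniteMeasure (Cf.withDensity fun p => ENNReal.ofReal (plnRho p.1)) :=
    isFiniteMeasure_withDensity_ofReal (pln_rho_int hs).2
  unfold plnMu
  infer_instance

theorem pln_mu_supp {a : TV → ℝ} {Cf : Measure (ℝ × ℝ)} {K : ℝ} (hs : PlnSpec a Cf K) :
    plnMu Cf (Ioc (-Real.pi) Real.pi ×ˢ Ioc (-Real.pi) Real.pi)ᶜ = 0 := by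
  unfold plnMu
  rw [Measure.map_apply pln_T_measurable (measurableSet_Ioc.prod measurableSet_Ioc).compl]
  refine withDensity_absolutelyContinuous _ _ ?_
  refine measure_mono_null ?_ hs.box
  intro p hp
  simp only [mem_preimage, mem_compl_iff, mem_prod, not_and] at hp
  intro hb
  exact hp hb.1 (pln_red_mem _)

theorem pln_mu_coeff {a : TV → ℝ} {Cf : Measure (ℝ × ℝ)} {K : ℝ} (h : PlnIn a) (hs : PlnSpec a Cf K) (m j : ℤ) :
    ∫ p, Complex.exp (Complex.I * (m * p.1 + j * p.2)) ∂(plnMu Cf) = ((plnF a (plnWv m j) : ℝ) : ℂ) := by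
  unfold plnMu
  rw [integral_map pln_T_measurable.aemeasurable (by fun_prop)]
  rw [integral_withDensity_eq_integral_toReal_smul (by exact (pln_rho_measurable.comp measurable_fst).ennreal_ofReal)
    (Eventually.of_forall fun _ => ENNReal.ofReal_lt_top)]
  rw [pln_F_rep h hs]
  refine integral_congr_ae (Eventually.of_forall fun p => ?_)
  simp only [plnT]
  rw [ENNReal.toReal_ofReal (by unfold plnRho; positivity)]
  have e1 := pln_red_exp (m * p.1) j p.2
  have e2 : (plnPh p (plnWv m j) : ℂ) = ((m * p.1 : ℝ) : ℂ) + j * ((Real.sqrt 3 * p.2 : ℝ) : ℂ) := by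
    unfold plnPh plnWv
    push_cast
    ring
  rw [e2, ← e1]
  unfold plnRho
  rw [Complex.real_smul, mul_comm]
  push_cast
  rfl

/-- the weight `1_{k ≠ 0} / |e^{ik} - 1|^2` -/
noncomputable def plnWt (k : ℝ) : ℝ≥0∞ := if k = 0 then 0 else ENNReal.ofReal (1 / plnRho k)

theorem pln_wt_measurable : Measurable plnWt := by
  unfold plnWt
  refine Measurable.ite (measurableSet_singleton 0) measurable_const ?_
  exact (measurable_const.div pln_rho_measurable).ennreal_ofReal

theorem pln_wt_mul {k : ℝ} (hk : k ∈ Ioc (-Real.pi) Real.pi) (h0 : k ≠ 0) : ENNReal.ofReal (plnRho k) * plnWt k = 1 := by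
  unfold plnWt
  rw [if_neg h0, ← ENNReal.ofReal_mul (pln_rho_pos hk h0).le, mul_one_div_cancel (pln_rho_pos hk h0).ne', ENNReal.ofReal_one]

/-- the change of the mixing variable `(k, λ) ↦ (k, (2/√3)(1-λ)/(1+λ))` -/
noncomputable def plnS (q : ℝ × ℝ) : ℝ × ℝ := (q.1, 2 / Real.sqrt 3 * ((1 - q.2) / (1 + q.2)))

theorem pln_S_measurable : Measurable plnS := by
  unfold plnS
  exact measurable_fst.prodMk (((measurable_const.sub measurable_snd).div (measurable_const.add measurable_snd)).const_mul _)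

/-- the mixing measure -/
noncomputable def plnNu (γ : Measure (ℝ × ℝ)) : Measure (ℝ × ℝ) := (γ.withDensity fun q => plnWt q.1).map plnS

theorem pln_ell_S (lam t : ℝ) :
    plnEll (2 / Real.sqrt 3 * ((1 - lam) / (1 + lam)) * t) = 2 * Real.arctan ((1 - lam) / (1 + lam) * t) / Real.sqrt 3 := by
  unfold plnEll
  have h3 := pln_sqrt3_pos
  have : Real.sqrt 3 / 2 * (2 / Real.sqrt 3 * ((1 - lam) / (1 + lam)) * t) = (1 - lam) / (1 + lam) * t := by
    field_simp
  rw [this]; ring

theorem pln_ell_measurable : Measurable plnEll := by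
  unfold plnEll
  exact (Real.measurable_arctan.comp (measurable_id.const_mul _)).const_mul _

instance pln_cau_sfinite : SFinite plnCau := by unfold plnCau; infer_instance

theorem pln_mix_main {a : TV → ℝ} {Cf : Measure (ℝ × ℝ)} {K : ℝ} (h : PlnIn a) (hs : PlnSpec a Cf K) :
    ∃ ν : Measure (ℝ × ℝ), PlnMix Cf ν := by
  obtain ⟨γ, hγf, hγs, hγ⟩ := gsp_bh1 (plnPhi a) (pln_phi_sym h) (pln_phi_P0 h) (pln_phi_P1 h) (K := plnF a 0)
    (fun j => by
      unfold plnPhi
      rw [Complex.norm_real, Real.norm_eq_abs]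
      exact pln_F_bdd h hs _)
  have := hγf
  have := pln_mu_fin hs
  have hP := pln_pois_box γ (plnMu Cf) hγs (pln_mu_supp hs) (fun m j => by
    rw [pln_mu_coeff h hs, hγ]
    unfold plnPhi
    have : plnF a (plnWv m j) = plnF a (plnWv m (j.natAbs : ℤ)) := by
      rcases Int.natAbs_eq j with hj | hj
      · rw [← hj]
      · conv_lhs => rw [hj]
        exact pln_F_even_j h m _
    rw [this])
  refine ⟨plnNu γ, ?_, ?_, ?_⟩
  · unfold plnNu; infer_instance
  · have hms : MeasurableSet {q : ℝ × ℝ | q.1 ≠ 0 ∧ q.1 ∈ Set.Ioc (-Real.pi) Real.pi ∧ 0 ≤ q.2 ∧ q.2 ≤ 2 / Real.sqrt 3} := by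
      refine ((measurableSet_singleton (0 : ℝ)).compl.preimage measurable_fst).inter
        ((measurableSet_Ioc.preimage measurable_fst).inter ((measurableSet_Ici.preimage measurable_snd).inter
          (measurableSet_Iic.preimage measurable_snd)))
    have : ∀ᵐ q ∂(plnNu γ), q.1 ≠ 0 ∧ q.1 ∈ Set.Ioc (-Real.pi) Real.pi ∧ 0 ≤ q.2 ∧ q.2 ≤ 2 / Real.sqrt 3 := by
      unfold plnNu
      rw [ae_map_iff pln_S_measurable.aemeasurable hms]
      rw [ae_withDensity_iff (show Measurable fun q : ℝ × ℝ => plnWt q.1 from pln_wt_measurable.comp measurable_fst)]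
      have hae : ∀ᵐ q ∂γ, q ∈ Ioc (-Real.pi) Real.pi ×ˢ Icc (0 : ℝ) 1 := by
        rw [ae_iff]; exact hγs
      filter_upwards [hae] with q hq hw
      have h3 := pln_sqrt3_pos
      refine ⟨fun h0 => hw (by simp [plnWt, plnS] at h0 ⊢; simp [h0]), hq.1, ?_, ?_⟩
      · have : 0 ≤ (1 - q.2) / (1 + q.2) := div_nonneg (by linarith [hq.2.2]) (by linarith [hq.2.1])
        simp only [plnS]; positivity
      · have : (1 - q.2) / (1 + q.2) ≤ 1 := by
          rw [div_le_one (by linarith [hq.2.1])]; linarith [hq.2.1]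
        simp only [plnS]
        calc 2 / Real.sqrt 3 * ((1 - q.2) / (1 + q.2)) ≤ 2 / Real.sqrt 3 * 1 := by gcongr
          _ = 2 / Real.sqrt 3 := mul_one _
    exact this
  · intro G hG
    -- the test function on the rectangular torus
    set G' : ℝ × ℝ → ℝ≥0∞ := fun z => plnWt z.1 * G (z.1, z.2 / Real.sqrt 3) with hG'
    have hG'm : Measurable G' :=
      (pln_wt_measurable.comp measurable_fst).mul (hG.comp (measurable_fst.prodMk (measurable_snd.div_const _)))
    have h1 := hP G' hG'm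
    -- left side
    have hL : ∫⁻ p, G' p ∂(plnMu Cf) = ∫⁻ p in {p | p.1 ≠ 0}, G (p.1, plnRed p.2) ∂Cf := by
      unfold plnMu
      rw [lintegral_map hG'm pln_T_measurable]
      rw [lintegral_withDensity_eq_lintegral_mul _
        (show Measurable fun p : ℝ × ℝ => ENNReal.ofReal (plnRho p.1) from (pln_rho_measurable.comp measurable_fst).ennreal_ofReal)
        (show Measurable fun p => G' (plnT p) from hG'm.comp pln_T_measurable)]
      have hset : MeasurableSet {p : ℝ × ℝ | p.1 ≠ 0} := (measurableSet_singleton (0 : ℝ)).compl.preimage measurable_fst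
      rw [← lintegral_indicator hset]
      have hae : ∀ᵐ p ∂Cf, p ∈ plnBox := by rw [ae_iff]; exact hs.box
      refine lintegral_congr_ae ?_
      filter_upwards [hae] with p hp
      have h3 := pln_sqrt3_pos
      simp only [Pi.mul_apply, Function.comp, hG', plnT]
      rw [mul_div_cancel_left₀ _ h3.ne']
      by_cases h0 : p.1 = 0
      · rw [indicator_of_notMem (by simpa using h0)]
        simp [plnWt, h0]
      · rw [indicator_of_mem (by simpa using h0), ← mul_assoc, pln_wt_mul hp.1 h0, one_mul]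
    -- right side
    have hR : ∫⁻ q, ∫⁻ t, G (q.1, plnEll (q.2 * t)) ∂plnCau ∂(plnNu γ) =
        ∫⁻ q, ∫⁻ t, G' (q.1, 2 * Real.arctan ((1 - q.2) / (1 + q.2) * t)) ∂plnCau ∂γ := by
      have hm : Measurable fun q : ℝ × ℝ => ∫⁻ t, G (q.1, plnEll (q.2 * t)) ∂plnCau := by
        refine Measurable.lintegral_prod_right' (f := fun z : (ℝ × ℝ) × ℝ => G (z.1.1, plnEll (z.1.2 * z.2))) ?_
        exact hG.comp ((measurable_fst.comp measurable_fst).prodMk
          (pln_ell_measurable.comp ((measurable_snd.comp measurable_fst).mul measurable_snd)))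
      unfold plnNu
      rw [lintegral_map hm pln_S_measurable]
      rw [lintegral_withDensity_eq_lintegral_mul _
        (show Measurable fun q : ℝ × ℝ => plnWt q.1 from pln_wt_measurable.comp measurable_fst)
        (show Measurable fun q : ℝ × ℝ => ∫⁻ t, G ((plnS q).1, plnEll ((plnS q).2 * t)) ∂plnCau from hm.comp pln_S_measurable)]
      refine lintegral_congr fun q => ?_
      simp only [Pi.mul_apply, Function.comp, hG', plnS]
      rw [← lintegral_const_mul' _ _ (by unfold plnWt; split_ifs <;> simp)]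
      refine lintegral_congr fun t => ?_
      rw [pln_ell_S]
    rw [← hL, hR, h1]

end Claimed.Agent.R291
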