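import Claimed.Agent.R291.Defs.Pln
import Claimed.Agent.R291.Geo.Hex
import Claimed.Agent.R291.Wick.Green2

/-!
# Row 291 (S0539), Sec. 4, unit PLN, box B3-II : covariance limit, `c > 0`, reflection-null      (owner helper90; prefix `pcv`)

TEX[04-plane.tex l.639-766: proof of prop:plane-covariance, prop:reflection-null].      MODEL FREE.

Route.  `T_δ = plnGam a (W δ f) (W δ g) = ∫ Φ_δ dCf`, `Φ_δ = Re (conj A_f A_g)`, `A_f = plnHat (plnW δ f)`   (`pcv_rep`).
* (T1) `pcv_hat_lim`   : `|A_f(δ ζ) - F f ζ| ≤ δ |ζ|₁ ‖f‖₁`,  `F f ζ = pcvF f ζ = ∫ f e^{i ζ·z}`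
* (T2) `pcv_hat_small` : `|A_f(p)| ≤ (ρ+1) |p|₁ ‖f‖₁ / δ`  (zero total)
* (T3) `pcv_hat_large` : `plnDD p |A_f(p)| ≤ B δ²`          (ONE summation by parts with the lattice Laplacian)
* `pcv_low`, `pcv_high` : dyadic sums of `PlnSpec.ann`, far part by `PlnSpec.far`
* `pcv_core` : `∀ n, ∀ᶠ δ, |T_δ - c ∫ Ψ_n| ≤ M / n`,  `Ψ_n = Φ θ_n / |ζ|²`  (`θ_n` = continuous cutoff of `1/n² ≤ |ζ|² ≤ 2 n²`), by `PlnPS`
* `pcv_F_lap`, `pcv_plancherel` : `F (lap2 η) = -|ζ|² F η` (Green, `wkg_green`), Plancherel from Mathlib (Schwartz functions)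
* `pcv_pos`, `pcv_PC`, `pcv_sm`, `pcv_RN`.
-/

set_option autoImplicit false

namespace Claimed.Agent.R291

open Claims Claims.C0467 MeasureTheory Filter Topology
open scoped ENNReal ComplexConjugate

/-! ## 0. definitions -/

/-- the integrand of the polarised spectral representation -/
noncomputable def pcvPhi (b b' : TV →₀ ℝ) (p : ℝ × ℝ) : ℝ := (conj (plnHat b p) * plnHat b' p).re

/-- the continuum transform `∫ f(z) e^{i ζ·z} dz` -/
noncomputable def pcvF (f : ℝ × ℝ → ℝ) (ζ : ℝ × ℝ) : ℂ :=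
  ∫ z, (f z : ℂ) * Complex.exp (Complex.I * ((ζ.1 * z.1 + ζ.2 * z.2 : ℝ) : ℂ))

/-- `Re (conj (F f) F g)` -/
noncomputable def pcvPhi0 (f g : ℝ × ℝ → ℝ) (ζ : ℝ × ℝ) : ℝ := (conj (pcvF f ζ) * pcvF g ζ).re

/-- the ramp: `0` on `t ≤ 1`, `1` on `2 ≤ t` -/
noncomputable def pcvRamp (t : ℝ) : ℝ := max 0 (min 1 (t - 1))

/-- the cutoff: `0` on `|ζ|² ≤ 1/n²` and on `2 n² ≤ |ζ|²`, `1` on `2/n² ≤ |ζ|² ≤ n²` -/
noncomputable def pcvTh (n : ℕ) (ζ : ℝ × ℝ) : ℝ :=
  pcvRamp ((n : ℝ) ^ 2 * plnSq ζ) * (1 - pcvRamp (plnSq ζ / (n : ℝ) ^ 2))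

/-- `Ψ_n = Φ θ_n / |ζ|²` -/
noncomputable def pcvPsi (f g : ℝ × ℝ → ℝ) (n : ℕ) (ζ : ℝ × ℝ) : ℝ :=
  pcvPhi0 f g ζ * pcvTh n ζ / max (plnSq ζ) (1 / (n : ℝ) ^ 2)

/-- the lattice Laplacian at mesh `δ` acting on test functions -/
noncomputable def pcvL (δ : ℝ) (f : ℝ × ℝ → ℝ) (z : ℝ × ℝ) : ℝ :=
  ∑ e ∈ latPos, (2 * f z - f (z + triPos δ e) - f (z - triPos δ e))

/-- reflection of the plane in the horizontal line `y = y0` -/
def pcvRf (y0 : ℝ) (z : ℝ × ℝ) : ℝ × ℝ := (z.1, 2 * y0 - z.2)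

/-- tests: continuous with compact support -/
structure PcvT (f : ℝ × ℝ → ℝ) : Prop where
  cont : Continuous f
  comp : HasCompactSupport f

theorem pcv_eqns_cite : True := by
  have := @pcvPhi.eq_1
  have := @pcvF.eq_1
  have := @pcvPhi0.eq_1
  have := @pcvRamp.eq_1
  have := @pcvTh.eq_1
  have := @pcvPsi.eq_1
  have := @pcvL.eq_1
  have := @pcvRf.eq_1
  trivial

/-! ## A. algebra of the covariance form -/

theorem pcv_tot_add (b b' : TV →₀ ℝ) : latTot (b + b') = latTot b + latTot b' := by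
  unfold latTot
  exact Finsupp.sum_add_index' (fun _ => rfl) (fun _ _ _ => rfl)

theorem pcv_tot_smul (t : ℝ) (b : TV →₀ ℝ) : latTot (t • b) = t * latTot b := by
  unfold latTot
  rw [Finsupp.sum_smul_index (fun _ => rfl), Finsupp.mul_sum]

theorem pcv_gam_add_left (a : TV → ℝ) (b₁ b₂ b' : TV →₀ ℝ) :
    plnGam a (b₁ + b₂) b' = plnGam a b₁ b' + plnGam a b₂ b' := by
  unfold plnGam
  rw [Finsupp.sum_add_index' (fun u => by simp) (fun u x₁ x₂ => by
    rw [← Finsupp.sum_add]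
    exact Finsupp.sum_congr fun v _ => by ring)]
  ring

theorem pcv_gam_add_right (a : TV → ℝ) (b b₁ b₂ : TV →₀ ℝ) :
    plnGam a b (b₁ + b₂) = plnGam a b b₁ + plnGam a b b₂ := by
  unfold plnGam
  rw [← mul_add, ← Finsupp.sum_add]
  congr 1
  refine Finsupp.sum_congr fun u _ => ?_
  exact Finsupp.sum_add_index' (fun v => by simp) (fun v y₁ y₂ => by ring)

theorem pcv_gam_smul_left (a : TV → ℝ) (t : ℝ) (b b' : TV →₀ ℝ) : plnGam a (t • b) b' = t * plnGam a b b' := by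
  unfold plnGam
  rw [Finsupp.sum_smul_index (fun u => by simp)]
  have e : ∀ (u : TV) (x : ℝ), (b'.sum fun v y => t * x * y * a (u - v)) = t * b'.sum fun v y => x * y * a (u - v) := by
    intro u x
    rw [Finsupp.mul_sum]
    exact Finsupp.sum_congr fun v _ => by ring
  simp only [e]
  rw [← Finsupp.mul_sum]
  ring

theorem pcv_gam_smul_right (a : TV → ℝ) (t : ℝ) (b b' : TV →₀ ℝ) : plnGam a b (t • b') = t * plnGam a b b' := by
  unfold plnGam
  have e : ∀ (u : TV) (x : ℝ), ((t • b').sum fun v y => x * y * a (u - v)) = t * b'.sum fun v y => x * y * a (u - v) := by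
    intro u x
    rw [Finsupp.sum_smul_index (fun v => by simp), Finsupp.mul_sum]
    exact Finsupp.sum_congr fun v _ => by ring
  simp only [e]
  rw [← Finsupp.mul_sum]
  ring

/-- the variogram is even (`latRot³ = -1`) -/
theorem pcv_even {a : TV → ℝ} (h : PlnIn a) (u : TV) : a (-u) = a u := by
  have e : latRot (latRot (latRot u)) = -u := by
    ext <;> simp [latRot]
  rw [← e, h.rot, h.rot, h.rot]

theorem pcv_gam_symm {a : TV → ℝ} (h : PlnIn a) (b b' : TV →₀ ℝ) : plnGam a b b' = plnGam a b' b := by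
  unfold plnGam
  rw [Finsupp.sum_comm]
  congr 1
  refine Finsupp.sum_congr fun v _ => ?_
  refine Finsupp.sum_congr fun u _ => ?_
  rw [← pcv_even h (u - v), neg_sub]
  ring

/-- Cauchy-Schwarz on zero-total arrays -/
theorem pcv_gam_cs {a : TV → ℝ} (h : PlnIn a) {b b' : TV →₀ ℝ} (hb : latTot b = 0) (hb' : latTot b' = 0) :
    plnGam a b b' ^ 2 ≤ plnGam a b b * plnGam a b' b' := by
  have key : ∀ t : ℝ, 0 ≤ plnGam a b' b' * (t * t) + 2 * plnGam a b b' * t + plnGam a b b := by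
    intro t
    have h0 := h.psd (b + t • b') (by rw [pcv_tot_add, pcv_tot_smul, hb, hb']; ring)
    rw [pcv_gam_add_left, pcv_gam_add_right, pcv_gam_add_right, pcv_gam_smul_left, pcv_gam_smul_left, pcv_gam_smul_right,
      pcv_gam_smul_right, pcv_gam_symm h b' b] at h0
    linarith
  have := discrim_le_zero key
  unfold discrim at this
  nlinarith

/-! ## B. the polarised spectral representation -/

theorem pcv_hat_add (b b' : TV →₀ ℝ) (p : ℝ × ℝ) : plnHat (b + b') p = plnHat b p + plnHat b' p := by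
  unfold plnHat
  exact Finsupp.sum_add_index' (fun u => by simp) (fun u x y => by push_cast; ring)

theorem pcv_hat_smul (t : ℝ) (b : TV →₀ ℝ) (p : ℝ × ℝ) : plnHat (t • b) p = (t : ℂ) * plnHat b p := by
  unfold plnHat
  rw [Finsupp.sum_smul_index (fun u => by simp), Finsupp.mul_sum]
  exact Finsupp.sum_congr fun u _ => by push_cast; ring

theorem pcv_hat_continuous (b : TV →₀ ℝ) : Continuous (plnHat b) := by
  unfold plnHat Finsupp.sum plnPh
  fun_prop

/-- translation of an array multiplies the transform by a character -/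
theorem pcv_hat_tr (w : TV) (b : TV →₀ ℝ) (p : ℝ × ℝ) :
    plnHat (plnTr w b) p = Complex.exp (Complex.I * (plnPh p w : ℂ)) * plnHat b p := by
  unfold plnHat plnTr
  rw [Finsupp.sum_mapDomain_index (fun u => by simp) (fun u x y => by push_cast; ring), Finsupp.mul_sum]
  refine Finsupp.sum_congr fun u _ => ?_
  have e : plnPh p (u + w) = plnPh p u + plnPh p w := by
    simp only [plnPh, Prod.fst_add, Prod.snd_add]
    push_cast
    ring
  rw [e]
  push_cast
  rw [mul_add, Complex.exp_add]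
  ring

theorem pcv_rep_diag {a : TV → ℝ} {Cf : Measure (ℝ × ℝ)} {K : ℝ} (hs : PlnSpec a Cf K) {b : TV →₀ ℝ}
    (hb : latTot b = 0) : plnGam a b b = ∫ p, ‖plnHat b p‖ ^ 2 ∂Cf := by
  have h := hs.rep b 0 hb
  have e1 : plnTr 0 b = b := by
    unfold plnTr
    simp only [add_zero]
    exact Finsupp.mapDomain_id
  have e2 : ∀ p : ℝ × ℝ, plnPh p 0 = 0 := fun p => by simp [plnPh]
  simp only [e1, e2, Complex.ofReal_zero, mul_zero, Complex.exp_zero, one_mul] at h
  rw [integral_complex_ofReal] at h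
  exact_mod_cast h

/-- polarisation -/
theorem pcv_phi_polar (b b' : TV →₀ ℝ) (p : ℝ × ℝ) :
    pcvPhi b b' p = (‖plnHat (b + b') p‖ ^ 2 - ‖plnHat b p‖ ^ 2 - ‖plnHat b' p‖ ^ 2) / 2 := by
  rw [pcv_hat_add]
  simp only [pcvPhi, Complex.sq_norm, Complex.normSq_apply, Complex.mul_re, Complex.conj_re, Complex.conj_im, Complex.add_re, Complex.add_im]
  ring

theorem pcv_phi_integrable {a : TV → ℝ} {Cf : Measure (ℝ × ℝ)} {K : ℝ} (hs : PlnSpec a Cf K) {b b' : TV →₀ ℝ}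
    (hb : latTot b = 0) (hb' : latTot b' = 0) : Integrable (pcvPhi b b') Cf := by
  have e : pcvPhi b b' = fun p => (‖plnHat (b + b') p‖ ^ 2 - ‖plnHat b p‖ ^ 2 - ‖plnHat b' p‖ ^ 2) / 2 := funext (pcv_phi_polar b b')
  rw [e]
  exact (((hs.int (b + b') (by rw [pcv_tot_add, hb, hb', add_zero])).sub (hs.int b hb)).sub (hs.int b' hb')).div_const 2

/-- **polarised spectral representation** -/
theorem pcv_rep {a : TV → ℝ} {Cf : Measure (ℝ × ℝ)} {K : ℝ} (h : PlnIn a) (hs : PlnSpec a Cf K) {b b' : TV →₀ ℝ}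
    (hb : latTot b = 0) (hb' : latTot b' = 0) : plnGam a b b' = ∫ p, pcvPhi b b' p ∂Cf := by
  have hbb : latTot (b + b') = 0 := by rw [pcv_tot_add, hb, hb', add_zero]
  have e : pcvPhi b b' = fun p => (‖plnHat (b + b') p‖ ^ 2 - ‖plnHat b p‖ ^ 2 - ‖plnHat b' p‖ ^ 2) / 2 := funext (pcv_phi_polar b b')
  have i12 : Integrable (fun p => ‖plnHat (b + b') p‖ ^ 2 - ‖plnHat b p‖ ^ 2) Cf := (hs.int _ hbb).sub (hs.int b hb)
  rw [e, integral_div, integral_sub i12 (hs.int b' hb'), integral_sub (hs.int _ hbb) (hs.int b hb),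
    ← pcv_rep_diag hs hbb, ← pcv_rep_diag hs hb, ← pcv_rep_diag hs hb', pcv_gam_add_left, pcv_gam_add_right, pcv_gam_add_right,
    pcv_gam_symm h b' b]
  ring

/-! ## C. face weights -/

theorem PcvT.integrable {f : ℝ × ℝ → ℝ} (hf : PcvT f) : Integrable f := hf.cont.integrable_of_hasCompactSupport hf.comp

theorem PcvT.abs {f : ℝ × ℝ → ℝ} (hf : PcvT f) : PcvT (fun z => |f z|) := by
  refine ⟨hf.cont.abs, ?_⟩
  have := hf.comp.norm
  simpa [Real.norm_eq_abs] using this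

theorem PcvT.add {f g : ℝ × ℝ → ℝ} (hf : PcvT f) (hg : PcvT g) : PcvT (fun z => f z + g z) :=
  ⟨hf.cont.add hg.cont, hf.comp.add hg.comp⟩

theorem PcvT.smul {f : ℝ × ℝ → ℝ} (hf : PcvT f) (t : ℝ) : PcvT (fun z => t * f z) :=
  ⟨continuous_const.mul hf.cont, hf.comp.mul_left⟩

theorem PcvT.sub {f g : ℝ × ℝ → ℝ} (hf : PcvT f) (hg : PcvT g) : PcvT (fun z => f z - g z) := by
  refine ⟨hf.cont.sub hg.cont, ?_⟩
  have := hf.comp.sub hg.comp
  exact this

/-- composition with a homeomorphism -/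
theorem PcvT.comp_homeo {f : ℝ × ℝ → ℝ} (hf : PcvT f) (e : ℝ × ℝ ≃ₜ ℝ × ℝ) : PcvT (fun z => f (e z)) :=
  ⟨hf.cont.comp e.continuous, hf.comp.comp_homeomorph e⟩

theorem PcvT.tr {f : ℝ × ℝ → ℝ} (hf : PcvT f) (w : ℝ × ℝ) : PcvT (fun z => f (z + w)) :=
  hf.comp_homeo (Homeomorph.addRight w)

/-- a test lives in a square -/
theorem PcvT.box {f : ℝ × ℝ → ℝ} (hf : PcvT f) : ∃ ρ : ℝ, 0 ≤ ρ ∧ ∀ z, f z ≠ 0 → |z.1| ≤ ρ ∧ |z.2| ≤ ρ := by
  obtain ⟨R, hR⟩ := hf.comp.isCompact.isBounded.subset_closedBall (0 : ℝ × ℝ)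
  refine ⟨max R 0, le_max_right _ _, fun z hz => ?_⟩
  have h1 : z ∈ Metric.closedBall (0 : ℝ × ℝ) R := hR (subset_tsupport f hz)
  rw [mem_closedBall_zero_iff, Prod.norm_def] at h1
  have h2 := (le_max_left ‖z.1‖ ‖z.2‖).trans h1
  have h3 := (le_max_right ‖z.1‖ ‖z.2‖).trans h1
  rw [Real.norm_eq_abs] at h2 h3
  exact ⟨h2.trans (le_max_left _ _), h3.trans (le_max_left _ _)⟩

theorem pcv_latW_supp {δ : ℝ} {f : ℝ × ℝ → ℝ} {u : TV} (h : latW δ f u ≠ 0) : ∃ z ∈ hexFace δ u, f z ≠ 0 := by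
  by_contra hcon
  push Not at hcon
  apply h
  unfold latW
  exact setIntegral_eq_zero_of_forall_eq_zero hcon

/-- only finitely many faces meet the support (`hg_locallyFinite`) -/
theorem pcv_W_fin {δ : ℝ} (hδ : 0 < δ) {f : ℝ × ℝ → ℝ} (hf : PcvT f) : (Function.support (latW δ f)).Finite := by
  refine ((hg_locallyFinite hδ).finite_nonempty_inter_compact hf.comp.isCompact).subset ?_
  intro u hu
  obtain ⟨z, hz, hfz⟩ := pcv_latW_supp hu
  exact ⟨z, hz, subset_tsupport f hfz⟩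

theorem pcv_W_apply {δ : ℝ} (hδ : 0 < δ) {f : ℝ × ℝ → ℝ} (hf : PcvT f) (u : TV) : plnW δ f u = latW δ f u := by
  unfold plnW
  rw [dif_pos (pcv_W_fin hδ hf)]
  rfl

/-- **the faces tile the plane** (`hg_cover`, `hg_aedisjoint`, `hasSum_integral_iUnion_ae`) -/
theorem pcv_face_hasSum {δ : ℝ} (hδ : 0 < δ) {E : Type*} [NormedAddCommGroup E] [NormedSpace ℝ E] {F : ℝ × ℝ → E}
    (hF : Integrable F) : HasSum (fun u : TV => ∫ z in hexFace δ u, F z) (∫ z, F z) := by
  have hU : (⋃ u : TV, hexFace δ u) = Set.univ := by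
    ext z
    simp only [Set.mem_iUnion, Set.mem_univ, iff_true]
    exact hg_cover hδ z
  have := hasSum_integral_iUnion_ae (μ := volume) (f := F) (s := fun u : TV => hexFace δ u)
    (fun u => (hg_measurableSet_hexFace δ u).nullMeasurableSet) (hg_aedisjoint hδ) (by rw [hU]; exact hF.integrableOn)
  rwa [hU, setIntegral_univ] at this

/-- a sum over the array of face weights as a `HasSum` -/
theorem pcv_W_hasSum {δ : ℝ} (hδ : 0 < δ) {f : ℝ × ℝ → ℝ} (hf : PcvT f) {E : Type*} [AddCommMonoid E] [TopologicalSpace E]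
    (φ : TV → ℝ → E) (h0 : ∀ u, φ u 0 = 0) : HasSum (fun u : TV => φ u (latW δ f u)) ((plnW δ f).sum φ) := by
  unfold Finsupp.sum
  have h1 : ∀ u ∉ (plnW δ f).support, φ u (latW δ f u) = 0 := by
    intro u hu
    rw [Finsupp.notMem_support_iff, pcv_W_apply hδ hf] at hu
    rw [hu, h0]
  have h2 : HasSum (fun u : TV => φ u (latW δ f u)) (∑ u ∈ (plnW δ f).support, φ u (latW δ f u)) :=
    hasSum_sum_of_ne_finset_zero h1
  have h3 : ∑ u ∈ (plnW δ f).support, φ u (latW δ f u) = ∑ u ∈ (plnW δ f).support, φ u ((plnW δ f) u) :=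
    Finset.sum_congr rfl fun u _ => by rw [pcv_W_apply hδ hf]
  rwa [h3] at h2

theorem pcv_W_tot {δ : ℝ} (hδ : 0 < δ) {f : ℝ × ℝ → ℝ} (hf : PcvT f) : latTot (plnW δ f) = ∫ z, f z := by
  have h1 := pcv_W_hasSum hδ hf (fun _ c => c) (fun _ => rfl)
  have h2 := pcv_face_hasSum hδ hf.integrable
  exact h1.unique h2

/-- **comparison of a weighted sum of face weights with an integral** -/
theorem pcv_tile {δ : ℝ} (hδ : 0 < δ) {f : ℝ × ℝ → ℝ} (hf : PcvT f) (cf : TV → ℂ) {G : ℝ × ℝ → ℂ} (hG : Continuous G) {ε : ℝ}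
    (h : ∀ u z, z ∈ hexFace δ u → f z ≠ 0 → ‖cf u - G z‖ ≤ ε) :
    ‖((plnW δ f).sum fun u x => (x : ℂ) * cf u) - ∫ z, (f z : ℂ) * G z‖ ≤ ε * ∫ z, |f z| := by
  have hfc : Continuous fun z => (f z : ℂ) := Complex.continuous_ofReal.comp hf.cont
  have hfG : Integrable fun z => (f z : ℂ) * G z := by
    refine (hfc.mul hG).integrable_of_hasCompactSupport ?_
    refine HasCompactSupport.mul_right ?_
    exact hf.comp.comp_left (g := fun x : ℝ => (x : ℂ)) Complex.ofReal_zero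
  have h1 := pcv_W_hasSum hδ hf (fun u x => (x : ℂ) * cf u) (fun u => by simp)
  have h2 := pcv_face_hasSum hδ hfG
  have h3 := (pcv_face_hasSum hδ (PcvT.abs hf).integrable).mul_left ε
  refine (h1.sub h2).norm_le_of_bounded h3 fun u => ?_
  have hI : IntegrableOn (fun z => (f z : ℂ)) (hexFace δ u) :=
    (hfc.integrable_of_hasCompactSupport (hf.comp.comp_left (g := fun x : ℝ => (x : ℂ)) Complex.ofReal_zero)).integrableOn
  have e1 : ((latW δ f u : ℝ) : ℂ) * cf u - ∫ z in hexFace δ u, (f z : ℂ) * G z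
      = ∫ z in hexFace δ u, (f z : ℂ) * (cf u - G z) := by
    unfold latW
    rw [← integral_complex_ofReal, ← integral_mul_const, ← integral_sub (hI.mul_const _) hfG.integrableOn]
    refine integral_congr_ae (Eventually.of_forall fun z => ?_)
    simp only
    ring
  rw [e1, ← integral_const_mul]
  refine norm_integral_le_of_norm_le ((PcvT.abs hf).integrable.integrableOn.const_mul ε) ?_
  refine (ae_restrict_iff' (hg_measurableSet_hexFace δ u)).2 (Eventually.of_forall fun z hz => ?_)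
  rw [norm_mul, Complex.norm_real, Real.norm_eq_abs]
  by_cases hz0 : f z = 0
  · simp [hz0]
  · rw [mul_comm]
    exact mul_le_mul_of_nonneg_right (h u z hz hz0) (abs_nonneg _)

theorem pcv_W_add {δ : ℝ} (hδ : 0 < δ) {f g : ℝ × ℝ → ℝ} (hf : PcvT f) (hg : PcvT g) :
    plnW δ (fun z => f z + g z) = plnW δ f + plnW δ g := by
  ext u
  rw [Finsupp.add_apply, pcv_W_apply hδ (hf.add hg), pcv_W_apply hδ hf, pcv_W_apply hδ hg]
  unfold latW
  exact integral_add hf.integrable.integrableOn hg.integrable.integrableOn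

theorem pcv_W_smul {δ : ℝ} (hδ : 0 < δ) {f : ℝ × ℝ → ℝ} (hf : PcvT f) (t : ℝ) : plnW δ (fun z => t * f z) = t • plnW δ f := by
  ext u
  rw [Finsupp.smul_apply, pcv_W_apply hδ (hf.smul t), pcv_W_apply hδ hf]
  unfold latW
  rw [integral_const_mul, smul_eq_mul]

theorem pcv_W_sub {δ : ℝ} (hδ : 0 < δ) {f g : ℝ × ℝ → ℝ} (hf : PcvT f) (hg : PcvT g) :
    plnW δ (fun z => f z - g z) = plnW δ f - plnW δ g := by
  ext u
  rw [Finsupp.sub_apply, pcv_W_apply hδ (PcvT.sub hf hg), pcv_W_apply hδ hf, pcv_W_apply hδ hg]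
  unfold latW
  exact integral_sub hf.integrable.integrableOn hg.integrable.integrableOn

theorem pcv_triPos_add (δ : ℝ) (u v : TV) : triPos δ (u + v) = triPos δ u + triPos δ v := by
  unfold triPos
  ext
  · simp only [Prod.fst_add, Prod.snd_add, Int.cast_add]; ring
  · simp only [Prod.snd_add, Int.cast_add]; ring

/-- translation of faces -/
theorem pcv_face_tr (δ : ℝ) (u e : TV) (z : ℝ × ℝ) : z + triPos δ e ∈ hexFace δ (u + e) ↔ z ∈ hexFace δ u := by
  have key : ∀ v : TV, sqDist (z + triPos δ e) (triPos δ (v + e)) = sqDist z (triPos δ v) := by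
    intro v
    rw [pcv_triPos_add]
    unfold sqDist
    simp only [Prod.fst_add, Prod.snd_add]
    ring
  unfold hexFace
  simp only [Set.mem_ofPred_eq]
  constructor
  · intro h v
    have := h (v + e)
    rwa [key, key] at this
  · intro h v
    have := h (v - e)
    rw [← key u, ← key (v - e), sub_add_cancel] at this
    exact this

theorem pcv_latW_tr (δ : ℝ) (f : ℝ × ℝ → ℝ) (u e : TV) : latW δ (fun z => f (z + triPos δ e)) u = latW δ f (u + e) := by
  unfold latW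
  rw [← integral_indicator (hg_measurableSet_hexFace δ u), ← integral_indicator (hg_measurableSet_hexFace δ (u + e)),
    ← integral_add_right_eq_self (fun z => (hexFace δ (u + e)).indicator f z) (triPos δ e)]
  refine integral_congr_ae (Eventually.of_forall fun z => ?_)
  beta_reduce
  by_cases hz : z ∈ hexFace δ u
  · rw [Set.indicator_of_mem hz, Set.indicator_of_mem ((pcv_face_tr δ u e z).2 hz)]
  · rw [Set.indicator_of_notMem hz, Set.indicator_of_notMem (fun h => hz ((pcv_face_tr δ u e z).1 h))]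

theorem pcv_W_tr {δ : ℝ} (hδ : 0 < δ) {f : ℝ × ℝ → ℝ} (hf : PcvT f) (e : TV) :
    plnW δ (fun z => f (z + triPos δ e)) = plnTr (-e) (plnW δ f) := by
  ext u
  rw [pcv_W_apply hδ (hf.tr _), pcv_latW_tr]
  unfold plnTr
  have h1 : u = (u + e) + -e := by simp
  conv_rhs => rw [h1]
  rw [Finsupp.mapDomain_apply (add_left_injective (-e)), pcv_W_apply hδ hf]

theorem pcv_latW_abs_le {δ : ℝ} (hδ : 0 < δ) {f : ℝ × ℝ → ℝ} {M : ℝ} (hM : ∀ z, |f z| ≤ M) (u : TV) :
    |latW δ f u| ≤ 4 * δ ^ 2 * M := by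
  have hM0 : 0 ≤ M := (abs_nonneg _).trans (hM 0)
  unfold latW
  have h1 := norm_setIntegral_le_of_norm_le_const (μ := volume) (s := hexFace δ u) (f := f) (C := M)
    (hg_volume_hexFace_lt_top hδ u) (fun z _ => by rw [Real.norm_eq_abs]; exact hM z)
  rw [Real.norm_eq_abs] at h1
  refine h1.trans ?_
  rw [mul_comm]
  refine mul_le_mul_of_nonneg_right ?_ hM0
  have h2 := ENNReal.toReal_mono ENNReal.ofReal_ne_top (hg_volume_hexFace_le hδ u)
  rwa [ENNReal.toReal_ofReal (by positivity)] at h2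

/-! ## D. the lattice transform of the face weights -/

theorem pcv_ph_smul (δ : ℝ) (ζ : ℝ × ℝ) (u : TV) :
    plnPh (δ • ζ) u = ζ.1 * (triPos δ u).1 + ζ.2 * (triPos δ u).2 := by
  unfold plnPh triPos
  simp only [Prod.smul_fst, Prod.smul_snd, smul_eq_mul]
  ring

theorem pcv_ph_add (p : ℝ × ℝ) (u v : TV) : plnPh p (u + v) = plnPh p u + plnPh p v := by
  unfold plnPh
  simp only [Prod.fst_add, Prod.snd_add, Int.cast_add]
  ring

/-- points of a face are within `δ` of the centre, coordinatewise -/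
theorem pcv_face_near {δ : ℝ} (hδ : 0 < δ) {u : TV} {z : ℝ × ℝ} (hz : z ∈ hexFace δ u) :
    |z.1 - (triPos δ u).1| ≤ δ ∧ |z.2 - (triPos δ u).2| ≤ δ := by
  have h1 := hg_hexFace_subset_closedBall hδ u hz
  rw [Metric.mem_closedBall, Prod.dist_eq, Real.dist_eq, Real.dist_eq] at h1
  exact ⟨(le_max_left _ _).trans h1, (le_max_right _ _).trans h1⟩

/-- `|e^{ia} - e^{ib}| ≤ |a - b|` -/
theorem pcv_exp_sub_le (a b : ℝ) :
    ‖Complex.exp (Complex.I * (a : ℂ)) - Complex.exp (Complex.I * (b : ℂ))‖ ≤ |a - b| := by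
  have h1 : Complex.exp (Complex.I * (a : ℂ)) - Complex.exp (Complex.I * (b : ℂ))
      = Complex.exp (Complex.I * (b : ℂ)) * (Complex.exp (Complex.I * ((a - b : ℝ) : ℂ)) - 1) := by
    rw [mul_sub, ← Complex.exp_add, mul_one]
    congr 2
    push_cast
    ring
  rw [h1, norm_mul, mul_comm Complex.I, Complex.norm_exp_ofReal_mul_I, one_mul]
  have := Real.norm_exp_I_mul_ofReal_sub_one_le (x := a - b)
  rwa [Real.norm_eq_abs] at this

theorem pcv_exp_norm (a : ℝ) : ‖Complex.exp (Complex.I * (a : ℂ))‖ = 1 := by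
  rw [mul_comm, Complex.norm_exp_ofReal_mul_I]

theorem pcv_hat_le {δ : ℝ} (hδ : 0 < δ) {f : ℝ × ℝ → ℝ} (hf : PcvT f) (p : ℝ × ℝ) :
    ‖plnHat (plnW δ f) p‖ ≤ ∫ z, |f z| := by
  have h := pcv_tile hδ hf (fun u => Complex.exp (Complex.I * (plnPh p u : ℂ))) (G := fun _ => 0) continuous_const (ε := 1)
    (fun u z _ _ => by rw [sub_zero, pcv_exp_norm])
  simpa [plnHat] using h

/-- (T1) TEX[plane:eq:transform-limit] -/
theorem pcv_hat_lim {δ : ℝ} (hδ : 0 < δ) {f : ℝ × ℝ → ℝ} (hf : PcvT f) (ζ : ℝ × ℝ) :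
    ‖plnHat (plnW δ f) (δ • ζ) - pcvF f ζ‖ ≤ δ * (|ζ.1| + |ζ.2|) * ∫ z, |f z| := by
  refine pcv_tile hδ hf (fun u => Complex.exp (Complex.I * (plnPh (δ • ζ) u : ℂ)))
    (G := fun z => Complex.exp (Complex.I * ((ζ.1 * z.1 + ζ.2 * z.2 : ℝ) : ℂ))) (by fun_prop) ?_
  intro u z hz _
  refine (pcv_exp_sub_le _ _).trans ?_
  obtain ⟨h1, h2⟩ := pcv_face_near hδ hz
  rw [pcv_ph_smul]
  have e : ζ.1 * (triPos δ u).1 + ζ.2 * (triPos δ u).2 - (ζ.1 * z.1 + ζ.2 * z.2)
      = -(ζ.1 * (z.1 - (triPos δ u).1)) + -(ζ.2 * (z.2 - (triPos δ u).2)) := by ring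
  rw [e]
  refine (abs_add_le _ _).trans ?_
  rw [abs_neg, abs_neg, abs_mul, abs_mul]
  nlinarith [abs_nonneg ζ.1, abs_nonneg ζ.2]

/-- (T2) TEX[plane:eq:transform-bounds], first bound -/
theorem pcv_hat_small {δ : ℝ} (hδ : 0 < δ) (hδ1 : δ ≤ 1) {f : ℝ × ℝ → ℝ} (hf : PcvT f) (h0 : ∫ z, f z = 0) {ρ : ℝ}
    (hρ : ∀ z, f z ≠ 0 → |z.1| ≤ ρ ∧ |z.2| ≤ ρ) (p : ℝ × ℝ) :
    ‖plnHat (plnW δ f) p‖ ≤ (ρ + 1) / δ * (|p.1| + |p.2|) * ∫ z, |f z| := by
  have h := pcv_tile hδ hf (fun u => Complex.exp (Complex.I * (plnPh p u : ℂ))) (G := fun _ => 1) continuous_const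
    (ε := (ρ + 1) / δ * (|p.1| + |p.2|)) ?_
  · have e : ∫ z, (f z : ℂ) * 1 = 0 := by
      simp only [mul_one]
      rw [integral_complex_ofReal, h0, Complex.ofReal_zero]
    rw [e, sub_zero] at h
    exact h
  · intro u z hz hfz
    obtain ⟨h1, h2⟩ := pcv_face_near hδ hz
    obtain ⟨h3, h4⟩ := hρ z hfz
    have e0 : (1 : ℂ) = Complex.exp (Complex.I * ((0 : ℝ) : ℂ)) := by simp
    rw [e0]
    refine (pcv_exp_sub_le _ _).trans ?_
    rw [sub_zero]
    have e : plnPh p u = (p.1 * (triPos δ u).1 + p.2 * (triPos δ u).2) / δ := by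
      unfold plnPh triPos
      field_simp
    have a1 : |(triPos δ u).1| ≤ ρ + 1 := by
      have := abs_sub_abs_le_abs_sub (triPos δ u).1 z.1
      rw [abs_sub_comm] at this
      linarith
    have a2 : |(triPos δ u).2| ≤ ρ + 1 := by
      have := abs_sub_abs_le_abs_sub (triPos δ u).2 z.2
      rw [abs_sub_comm] at this
      linarith
    rw [e, abs_div, abs_of_pos hδ, div_mul_eq_mul_div, div_le_div_iff_of_pos_right hδ]
    refine (abs_add_le _ _).trans ?_
    rw [abs_mul, abs_mul]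
    nlinarith [abs_nonneg p.1, abs_nonneg p.2]

/-- second differences of a `C²` function with compact support (`fderiv` is Lipschitz) -/
theorem pcv_second_diff {f : ℝ × ℝ → ℝ} (hf : ContDiff ℝ 2 f) (hc : HasCompactSupport f) :
    ∃ C : ℝ, 0 ≤ C ∧ ∀ z h : ℝ × ℝ, |2 * f z - f (z + h) - f (z - h)| ≤ C * ‖h‖ ^ 2 := by
  have hd : ContDiff ℝ 1 (fderiv ℝ f) := hf.fderiv_right (m := 1) (by norm_num)
  obtain ⟨C, hC⟩ := ContDiff.lipschitzWith_of_hasCompactSupport (hc.fderiv (𝕜 := ℝ)) hd one_ne_zero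
  have hdf : Differentiable ℝ f := hf.differentiable (by norm_num)
  refine ⟨C, C.2, fun z h => ?_⟩
  -- ψ x = f (x + h) - f x
  have hψ : ∀ x, HasFDerivAt (fun x => f (x + h) - f x) (fderiv ℝ f (x + h) - fderiv ℝ f x) x := by
    intro x
    have h1 : HasFDerivAt (fun x => f (x + h)) (fderiv ℝ f (x + h)) x := by
      have := (hdf (x + h)).hasFDerivAt.comp x ((hasFDerivAt_id x).add_const h)
      rw [ContinuousLinearMap.comp_id] at this
      exact this
    exact h1.sub (hdf x).hasFDerivAt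
  have hb : ∀ x, ‖fderiv ℝ f (x + h) - fderiv ℝ f x‖ ≤ C * ‖h‖ := by
    intro x
    have := hC.dist_le_mul (x + h) x
    rw [dist_eq_norm, dist_eq_norm] at this
    simpa using this
  have key := Convex.norm_image_sub_le_of_norm_hasFDerivWithin_le (f := fun x => f (x + h) - f x)
    (s := Set.univ) (C := C * ‖h‖) (fun x _ => (hψ x).hasFDerivWithinAt) (fun x _ => hb x) convex_univ
    (Set.mem_univ (z - h)) (Set.mem_univ z)
  simp only [sub_add_cancel, sub_sub_cancel] at key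
  rw [Real.norm_eq_abs] at key
  have e : 2 * f z - f (z + h) - f (z - h) = -(f (z + h) - f z - (f z - f (z - h))) := by ring
  rw [e, abs_neg]
  calc _ ≤ C * ‖h‖ * ‖h‖ := key
    _ = C * ‖h‖ ^ 2 := by ring

theorem pcv_triPos_neg (δ : ℝ) (e : TV) : triPos δ (-e) = -triPos δ e := by
  have := pcv_triPos_add δ e (-e)
  rw [add_neg_cancel] at this
  have h0 : triPos δ 0 = 0 := by
    unfold triPos
    simp
  rw [h0] at this
  exact (neg_eq_of_add_eq_zero_right this.symm).symm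

theorem pcv_L_test (δ : ℝ) {f : ℝ × ℝ → ℝ} (hf : PcvT f) : PcvT (pcvL δ f) := by
  have h1 : ∀ e : TV, PcvT (fun z => 2 * f z - f (z + triPos δ e) - f (z - triPos δ e)) := by
    intro e
    have := PcvT.sub (PcvT.sub (hf.smul 2) (hf.tr (triPos δ e))) (hf.tr (-triPos δ e))
    simpa [sub_eq_add_neg] using this
  have h2 : pcvL δ f = fun z => (2 * f z - f (z + triPos δ (1, 0)) - f (z - triPos δ (1, 0)))
      + ((2 * f z - f (z + triPos δ (0, 1)) - f (z - triPos δ (0, 1)))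
      + (2 * f z - f (z + triPos δ (-1, 1)) - f (z - triPos δ (-1, 1)))) := by
    funext z
    unfold pcvL latPos
    rw [Finset.sum_insert (by decide), Finset.sum_insert (by decide), Finset.sum_singleton]
  rw [h2]
  exact (h1 _).add ((h1 _).add (h1 _))

theorem pcv_triPos_norm_le {δ : ℝ} (hδ : 0 < δ) {e : TV} (he : e ∈ latPos) : ‖triPos δ e‖ ≤ δ := by
  have h3 : Real.sqrt 3 ≤ 2 := by
    rw [Real.sqrt_le_left (by norm_num)]
    norm_num
  have h30 : 0 ≤ Real.sqrt 3 := Real.sqrt_nonneg 3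
  simp only [latPos, Finset.mem_insert, Finset.mem_singleton] at he
  rw [Prod.norm_def, Real.norm_eq_abs, Real.norm_eq_abs]
  rcases he with rfl | rfl | rfl <;> unfold triPos <;> simp only [Int.cast_one, Int.cast_zero, Int.cast_neg] <;>
    refine max_le ?_ ?_ <;> rw [abs_le] <;> constructor <;> nlinarith

theorem pcv_L_int {f : ℝ × ℝ → ℝ} (hf : ContDiff ℝ 2 f) (hc : HasCompactSupport f) :
    ∃ B : ℝ, 0 ≤ B ∧ ∀ δ : ℝ, 0 < δ → δ ≤ 1 → ∫ z, |pcvL δ f z| ≤ B * δ ^ 2 := by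
  obtain ⟨C, hC0, hC⟩ := pcv_second_diff hf hc
  have hT : PcvT f := ⟨hf.continuous, hc⟩
  obtain ⟨ρ, hρ0, hρ⟩ := PcvT.box hT
  refine ⟨3 * C * (2 * (ρ + 1)) ^ 2, by positivity, fun δ hδ hδ1 => ?_⟩
  set Q : Set (ℝ × ℝ) := Set.Icc (-(ρ + 1)) (ρ + 1) ×ˢ Set.Icc (-(ρ + 1)) (ρ + 1) with hQ
  have hb : ∀ z, |pcvL δ f z| ≤ 3 * C * δ ^ 2 := by
    intro z
    unfold pcvL
    refine (Finset.abs_sum_le_sum_abs _ _).trans ?_
    have : ∀ e ∈ latPos, |2 * f z - f (z + triPos δ e) - f (z - triPos δ e)| ≤ C * δ ^ 2 := by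
      intro e he
      refine (hC z _).trans ?_
      have := pcv_triPos_norm_le hδ he
      gcongr
    refine (Finset.sum_le_sum this).trans ?_
    rw [Finset.sum_const, show latPos.card = 3 by decide]
    simp only [nsmul_eq_mul, Nat.cast_ofNat]
    linarith
  have hz : ∀ z, z ∉ Q → pcvL δ f z = 0 := by
    intro z hzQ
    unfold pcvL
    refine Finset.sum_eq_zero fun e he => ?_
    have hn := pcv_triPos_norm_le hδ he
    rw [Prod.norm_def, Real.norm_eq_abs, Real.norm_eq_abs] at hn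
    have n1 := (le_max_left _ _).trans hn
    have n2 := (le_max_right _ _).trans hn
    have far : ∀ w : ℝ × ℝ, |w.1 - z.1| ≤ 1 → |w.2 - z.2| ≤ 1 → f w = 0 := by
      intro w h1 h2
      by_contra hw
      obtain ⟨a1, a2⟩ := hρ w hw
      apply hzQ
      rw [hQ, Set.mem_prod, Set.mem_Icc, Set.mem_Icc]
      rw [abs_le] at h1 h2 a1 a2
      refine ⟨⟨by linarith, by linarith⟩, ⟨by linarith, by linarith⟩⟩
    rw [far z (by simp) (by simp), far (z + triPos δ e) (by simpa using n1.trans hδ1) (by simpa using n2.trans hδ1),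
      far (z - triPos δ e) (by simpa using n1.trans hδ1) (by simpa using n2.trans hδ1)]
    ring
  have hvol : volume Q = ENNReal.ofReal ((2 * (ρ + 1)) ^ 2) := by
    rw [hQ, Measure.volume_eq_prod, Measure.prod_prod, Real.volume_Icc, ← ENNReal.ofReal_mul (by linarith)]
    congr 1
    ring
  have e1 : ∫ z, |pcvL δ f z| = ∫ z in Q, |pcvL δ f z| := by
    rw [setIntegral_eq_integral_of_forall_compl_eq_zero]
    intro z hzQ
    rw [hz z hzQ, abs_zero]
  rw [e1]
  have h2 := norm_setIntegral_le_of_norm_le_const (μ := volume) (s := Q) (f := fun z => |pcvL δ f z|) (C := 3 * C * δ ^ 2)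
    (by rw [hvol]; exact ENNReal.ofReal_lt_top) (fun z _ => by rw [Real.norm_eq_abs, abs_abs]; exact hb z)
  have h3 : volume.real Q = (2 * (ρ + 1)) ^ 2 := by
    rw [Measure.real, hvol, ENNReal.toReal_ofReal (by positivity)]
  rw [h3] at h2
  calc _ ≤ ‖∫ z in Q, |pcvL δ f z|‖ := Real.le_norm_self _
    _ ≤ _ := h2
    _ = _ := by ring

/-- summation by parts: the lattice Laplacian has the symbol `plnDD` -/
theorem pcv_hat_L {δ : ℝ} (hδ : 0 < δ) {f : ℝ × ℝ → ℝ} (hf : PcvT f) (p : ℝ × ℝ) :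
    plnHat (plnW δ (pcvL δ f)) p = (plnDD p : ℂ) * plnHat (plnW δ f) p := by
  have h1 : ∀ e : TV, PcvT (fun z => 2 * f z - f (z + triPos δ e) - f (z - triPos δ e)) := by
    intro e
    have := PcvT.sub (PcvT.sub (hf.smul 2) (hf.tr (triPos δ e))) (hf.tr (-triPos δ e))
    simpa [sub_eq_add_neg] using this
  have h2 : pcvL δ f = fun z => (2 * f z - f (z + triPos δ (1, 0)) - f (z - triPos δ (1, 0)))
      + ((2 * f z - f (z + triPos δ (0, 1)) - f (z - triPos δ (0, 1)))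
      + (2 * f z - f (z + triPos δ (-1, 1)) - f (z - triPos δ (-1, 1)))) := by
    funext z
    unfold pcvL latPos
    rw [Finset.sum_insert (by decide), Finset.sum_insert (by decide), Finset.sum_singleton]
  have h3 : ∀ e : TV, plnHat (plnW δ (fun z => 2 * f z - f (z + triPos δ e) - f (z - triPos δ e))) p
      = ((2 - 2 * Real.cos (plnPh p e) : ℝ) : ℂ) * plnHat (plnW δ f) p := by
    intro e
    have e1 : (fun z => f (z - triPos δ e)) = fun z => f (z + triPos δ (-e)) := by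
      funext z
      rw [pcv_triPos_neg, sub_eq_add_neg]
    have t1 : PcvT (fun z => f (z - triPos δ e)) := by rw [e1]; exact hf.tr _
    rw [pcv_W_sub hδ (PcvT.sub (hf.smul 2) (hf.tr _)) t1, pcv_W_sub hδ (hf.smul 2) (hf.tr _), pcv_W_smul hδ hf,
      pcv_W_tr hδ hf, e1, pcv_W_tr hδ hf, neg_neg, sub_eq_add_neg, sub_eq_add_neg, pcv_hat_add, pcv_hat_add,
      ← neg_one_smul ℝ (plnTr (-e) (plnW δ f)), ← neg_one_smul ℝ (plnTr e (plnW δ f)), pcv_hat_smul, pcv_hat_smul,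
      pcv_hat_smul, pcv_hat_tr, pcv_hat_tr]
    have hn : plnPh p (-e) = -plnPh p e := by
      have := pcv_ph_add p e (-e)
      rw [add_neg_cancel] at this
      have h0 : plnPh p 0 = 0 := by unfold plnPh; simp
      linarith
    rw [hn]
    push_cast
    rw [Complex.cos, mul_comm (plnPh p e : ℂ) Complex.I, show -(plnPh p e : ℂ) * Complex.I = Complex.I * -(plnPh p e : ℂ) by ring]
    ring
  rw [h2, pcv_W_add hδ (h1 _) ((h1 _).add (h1 _)), pcv_W_add hδ (h1 _) (h1 _), pcv_hat_add, pcv_hat_add, h3, h3, h3]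
  unfold plnDD
  push_cast
  ring

theorem pcv_DD_nonneg (p : ℝ × ℝ) : 0 ≤ plnDD p := by
  unfold plnDD
  linarith [Real.cos_le_one (plnPh p (1, 0)), Real.cos_le_one (plnPh p (0, 1)), Real.cos_le_one (plnPh p (-1, 1))]

/-- (T3) TEX[plane:eq:transform-bounds], second bound, `N = 1` with the single multiplier `plnDD` -/
theorem pcv_hat_large {f : ℝ × ℝ → ℝ} (hf : ContDiff ℝ 2 f) (hc : HasCompactSupport f) :
    ∃ B : ℝ, 0 ≤ B ∧ ∀ δ : ℝ, 0 < δ → δ ≤ 1 → ∀ p, plnDD p * ‖plnHat (plnW δ f) p‖ ≤ B * δ ^ 2 := by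
  obtain ⟨B, hB, h⟩ := pcv_L_int hf hc
  refine ⟨B, hB, fun δ hδ hδ1 p => ?_⟩
  have hT : PcvT f := ⟨hf.continuous, hc⟩
  have h1 := pcv_hat_le hδ (pcv_L_test δ hT) p
  rw [pcv_hat_L hδ hT, norm_mul, Complex.norm_real, Real.norm_of_nonneg (pcv_DD_nonneg p)] at h1
  exact h1.trans (h δ hδ hδ1)

end Claimed.Agent.R291
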