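import Mathlib
import Claimed.Agent.R291.Defs.Lat
import Claimed.Agent.R291.Spec.Form

/-!
# R291 / PLN, box B1, part A : construction of the punctured spectral measure          OWNER: helper179 (unit head: helper94)

TEX[04-plane: plane:lem:spectrum, plane:eq:spectrum]   (contract and statements for consumers: `Pln/Cov.lean`)

Input = the variogram `a u = E (H u - H 0)^2`, `u : TV = ℤ × ℤ`; `Pl4In a` = evenness, positivity of
`pl4Cov a b b = -1/2 ∑∑ b_u b_v a(v-u)` on zero-total arrays, uniform second moment of zero-total smearings (Prop 3.7).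

Route (no cross measures, no projection, no Hilbert space at this level):
A  finite measures on the torus are determined by their Fourier coefficients (`pl4_torus_ext`, `pl4_ext`);
B  characters `pl4Chi`;  C  the sesquilinear form `pl4Q` on complex arrays;  D  Bochner (`pl4_bochner`, from `sp8_core`);
E  `pl4Mu a x`, difference rule `μ_{τ_u x - x} = |χ_u - 1|² μ_x`, `pl4C a = 1_{θ ≠ 0} D⁻¹ (μ_{g₁} + μ_{g₂})`,
   `|χ_u - 1|² C = μ_{δ_u - δ_0}` off the origin;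
F  `Q(τ_u z - z) = ∫ |z^|² dμ_{δ_u - δ_0}`, hence `|∑ z|² μ{0} ≤ Var(τ_u z - z)`;
G  tents;  H  smoothed increments are smearings, NO TILT (`pl4_notilt`);
I  `a u - a 0 = ∫ |χ_u - 1|² dC`, the real spectral formula;  J  symmetry, the complex formula, `pl4_spec`.
-/

set_option autoImplicit false
set_option warn.classDefReducibility false

namespace Claimed.Agent.R291

open MeasureTheory Claims Claims.C0467
open scoped ComplexConjugate ENNReal

/-! ## 0. definitions -/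

/-- covariance of two real arrays computed from the variogram -/
noncomputable def pl4Cov (a : TV → ℝ) (b b' : TV →₀ ℝ) : ℝ :=
  -(1 / 2) * b.sum fun u r => b'.sum fun v t => r * t * a (v - u)

/-- **model free input of Lemma 4.3** -/
structure Pl4In (a : TV → ℝ) : Prop where
  even : ∀ u, a (-u) = a u
  psd : ∀ b : TV →₀ ℝ, latTot b = 0 → 0 ≤ pl4Cov a b b
  /-- Prop 3.7 on lattice boxes `|u.1|, |u.2| ≤ N` -/
  smear : ∀ A : ℝ, ∃ K : ℝ, ∀ (N : ℕ) (b : TV →₀ ℝ), 1 ≤ N → latTot b = 0 →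
    (∀ u ∈ b.support, |u.1| ≤ (N : ℤ) ∧ |u.2| ≤ (N : ℤ)) → (b.sum fun _ r => |r|) ≤ A →
    (∀ u, |b u| ≤ A / (N : ℝ) ^ 2) → pl4Cov a b b ≤ K

/-- the reciprocal torus in lattice coordinates -/
abbrev Pl4T : Type := UnitAddTorus (Fin 2)

/-- the character `θ ↦ e^{2π i (u.1 θ₀ + u.2 θ₁)}` -/
noncomputable def pl4Chi (u : TV) : C(Pl4T, ℂ) := UnitAddTorus.mFourier ![u.1, u.2]

/-- lattice transform of a real array -/
noncomputable def pl4Hat (b : TV →₀ ℝ) (θ : Pl4T) : ℂ := b.sum fun u r => (r : ℂ) * pl4Chi u θ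

/-- **the punctured spectral measure** (torus form) -/
structure Pl4Spec (a : TV → ℝ) (C : Measure Pl4T) : Prop where
  zero : C {0} = 0
  fin : ∀ u : TV, ∫⁻ θ, ‖pl4Chi u θ - 1‖ₑ ^ 2 ∂C < ⊤
  symm : C.map (fun θ => -θ) = C
  int : ∀ b b' : TV →₀ ℝ, latTot b = 0 → latTot b' = 0 → Integrable (fun θ => conj (pl4Hat b θ) * pl4Hat b' θ) C
  cov : ∀ b b' : TV →₀ ℝ, latTot b = 0 → latTot b' = 0 →
    ∫ θ, conj (pl4Hat b θ) * pl4Hat b' θ ∂C = (pl4Cov a b b' : ℂ)

/-! ## A. finite measures on the torus are determined by their Fourier coefficients -/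

theorem pl4_cont_integrable {X : Type*} [TopologicalSpace X] [CompactSpace X] [MeasurableSpace X] [BorelSpace X]
    (μ : Measure X) [IsFiniteMeasure μ] (f : C(X, ℂ)) : Integrable (fun x => f x) μ :=
  f.continuous.integrable_of_hasCompactSupport (HasCompactSupport.of_compactSpace f)

/-- the integral as a continuous linear functional on `C(X, ℂ)` -/
noncomputable def pl4Int {X : Type*} [TopologicalSpace X] [CompactSpace X] [MeasurableSpace X] [BorelSpace X]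
    (μ : Measure X) [IsFiniteMeasure μ] : C(X, ℂ) →L[ℂ] ℂ :=
  LinearMap.mkContinuous
    { toFun := fun f => ∫ x, f x ∂μ
      map_add' := fun f g => integral_add (pl4_cont_integrable μ f) (pl4_cont_integrable μ g)
      map_smul' := fun c f => integral_const_mul c _ }
    (μ.real Set.univ)
    (fun f => by
      have h := norm_integral_le_of_norm_le_const (μ := μ) (f := fun x => f x) (C := ‖f‖)
        (Filter.Eventually.of_forall fun x => f.norm_coe_le_norm x)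
      rw [mul_comm] at h
      exact h)

theorem pl4Int_apply {X : Type*} [TopologicalSpace X] [CompactSpace X] [MeasurableSpace X] [BorelSpace X]
    (μ : Measure X) [IsFiniteMeasure μ] (f : C(X, ℂ)) : pl4Int μ f = ∫ x, f x ∂μ := rfl

theorem pl4_torus_ext {ι : Type*} [Fintype ι] {μ ν : Measure (UnitAddTorus ι)} [IsFiniteMeasure μ] [IsFiniteMeasure ν]
    (h : ∀ n, ∫ θ, UnitAddTorus.mFourier n θ ∂μ = ∫ θ, UnitAddTorus.mFourier n θ ∂ν) : μ = ν := by
  have hL : pl4Int μ = pl4Int ν := by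
    have h1 : (Submodule.span ℂ (Set.range (UnitAddTorus.mFourier (d := ι)))).topologicalClosure
        ≤ LinearMap.ker ((pl4Int μ - pl4Int ν : C(UnitAddTorus ι, ℂ) →L[ℂ] ℂ) : C(UnitAddTorus ι, ℂ) →ₗ[ℂ] ℂ) := by
      apply Submodule.topologicalClosure_minimal
      · rw [Submodule.span_le]
        rintro _ ⟨n, rfl⟩
        simp only [SetLike.mem_coe, LinearMap.mem_ker, ContinuousLinearMap.coe_coe, sub_apply,
          pl4Int_apply]
        rw [h n, sub_self]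
      · exact (pl4Int μ - pl4Int ν).isClosed_ker
    rw [UnitAddTorus.span_mFourier_closure_eq_top] at h1
    ext f
    have := h1 (Submodule.mem_top (x := f))
    simp only [LinearMap.mem_ker, ContinuousLinearMap.coe_coe, sub_apply] at this
    exact sub_eq_zero.1 this
  apply ext_of_forall_integral_eq_of_IsFiniteMeasure
  intro f
  have h2 := congrArg (fun L : C(UnitAddTorus ι, ℂ) →L[ℂ] ℂ => L ⟨fun x => (f x : ℂ), by fun_prop⟩) hL
  simp only [pl4Int_apply, ContinuousMap.coe_mk] at h2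
  have e1 : ∀ m : Measure (UnitAddTorus ι), ∫ x, ((f x : ℝ) : ℂ) ∂m = ((∫ x, f x ∂m : ℝ) : ℂ) := fun m => integral_ofReal
  rw [e1, e1] at h2
  exact_mod_cast h2

/-! ## B. characters -/

theorem pl4Chi_zero : pl4Chi 0 = 1 := by
  unfold pl4Chi
  rw [← UnitAddTorus.mFourier_zero]
  congr 1
  funext i
  fin_cases i <;> rfl

theorem pl4Chi_add (u v : TV) (θ : Pl4T) : pl4Chi (u + v) θ = pl4Chi u θ * pl4Chi v θ := by
  unfold pl4Chi
  rw [← UnitAddTorus.mFourier_add]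
  congr 2
  funext i
  fin_cases i <;> rfl

theorem pl4Chi_neg (u : TV) (θ : Pl4T) : pl4Chi (-u) θ = conj (pl4Chi u θ) := by
  unfold pl4Chi
  rw [← UnitAddTorus.mFourier_neg]
  congr 2
  funext i
  fin_cases i <;> rfl

theorem pl4Chi_mul_conj (u : TV) (θ : Pl4T) : pl4Chi u θ * conj (pl4Chi u θ) = 1 := by
  rw [← pl4Chi_neg, ← pl4Chi_add, add_neg_cancel, pl4Chi_zero]
  rfl

theorem pl4Chi_norm (u : TV) (θ : Pl4T) : ‖pl4Chi u θ‖ = 1 := by
  have h := pl4Chi_mul_conj u θ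
  rw [Complex.mul_conj] at h
  have h2 : Complex.normSq (pl4Chi u θ) = 1 := by exact_mod_cast h
  rw [Complex.normSq_eq_norm_sq] at h2
  nlinarith [norm_nonneg (pl4Chi u θ)]

theorem pl4Chi_sub (u v : TV) (θ : Pl4T) : pl4Chi (u - v) θ = pl4Chi u θ * conj (pl4Chi v θ) := by
  rw [sub_eq_add_neg, pl4Chi_add, pl4Chi_neg]

theorem pl4Chi_at_zero (u : TV) : pl4Chi u 0 = 1 := by
  simp [pl4Chi, UnitAddTorus.mFourier]

theorem pl4Chi_at_neg (u : TV) (θ : Pl4T) : pl4Chi u (-θ) = conj (pl4Chi u θ) := by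
  simp [pl4Chi, UnitAddTorus.mFourier]

/-- `|χ_u - 1|² = 2 - χ_u - χ_{-u}` -/
theorem pl4Chi_sq (u : TV) (θ : Pl4T) :
    ((‖pl4Chi u θ - 1‖ ^ 2 : ℝ) : ℂ) = 2 - pl4Chi u θ - pl4Chi (-u) θ := by
  rw [← Complex.normSq_eq_norm_sq, ← Complex.mul_conj, map_sub, map_one, pl4Chi_neg]
  have := pl4Chi_mul_conj u θ
  linear_combination this

/-! ## C. the sesquilinear form of a kernel on complex arrays -/

/-- `∑∑ conj(x_u) y_v k(v-u)` -/
noncomputable def pl4Q (k : TV → ℂ) (x y : TV →₀ ℂ) : ℂ :=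
  x.sum fun u r => y.sum fun v t => conj r * t * k (v - u)

theorem pl4Q_add_left (k : TV → ℂ) (x x' y : TV →₀ ℂ) : pl4Q k (x + x') y = pl4Q k x y + pl4Q k x' y := by
  unfold pl4Q
  apply Finsupp.sum_add_index'
  · intro p; simp
  · intro p u u'
    simp only [Finsupp.sum, map_add, add_mul, Finset.sum_add_distrib]

theorem pl4Q_smul_left (k : TV → ℂ) (x y : TV →₀ ℂ) (r : ℂ) : pl4Q k (r • x) y = conj r * pl4Q k x y := by
  unfold pl4Q
  rw [Finsupp.sum_smul_index (by intro p; simp)]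
  simp only [Finsupp.sum, map_mul, Finset.mul_sum]
  refine Finset.sum_congr rfl fun p _ => Finset.sum_congr rfl fun q _ => ?_
  ring

theorem pl4Q_conj (k : TV → ℂ) (hk : ∀ w, k (-w) = conj (k w)) (x y : TV →₀ ℂ) : conj (pl4Q k y x) = pl4Q k x y := by
  unfold pl4Q
  simp only [Finsupp.sum, map_sum, map_mul, Complex.conj_conj]
  rw [Finset.sum_comm]
  refine Finset.sum_congr rfl fun p _ => Finset.sum_congr rfl fun q _ => ?_
  rw [← hk, neg_sub]
  ring

theorem pl4Q_map (k : TV → ℂ) (f g : TV → TV) (x y : TV →₀ ℂ) :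
    pl4Q k (x.mapDomain f) (y.mapDomain g) = x.sum fun u r => y.sum fun v t => conj r * t * k (g v - f u) := by
  unfold pl4Q
  rw [Finsupp.sum_mapDomain_index (by intro p; simp) (by
    intro p u u'
    simp only [Finsupp.sum, map_add, add_mul, Finset.sum_add_distrib])]
  refine Finsupp.sum_congr fun p _ => ?_
  rw [Finsupp.sum_mapDomain_index (by intro q; simp) (by intro q v v'; ring)]

theorem pl4Q_single (k : TV → ℂ) (p q : TV) (u v : ℂ) :
    pl4Q k (Finsupp.single p u) (Finsupp.single q v) = conj u * v * k (q - p) := by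
  unfold pl4Q
  rw [Finsupp.sum_single_index (by simp), Finsupp.sum_single_index (by simp)]

/-- translation of arrays -/
noncomputable def pl4Tr (w : TV) : (TV →₀ ℂ) →ₗ[ℂ] (TV →₀ ℂ) := Finsupp.lmapDomain ℂ ℂ fun u => u + w

theorem pl4Tr_apply (w : TV) (x : TV →₀ ℂ) : pl4Tr w x = x.mapDomain fun u => u + w := rfl

theorem pl4Tr_zero (x : TV →₀ ℂ) : pl4Tr 0 x = x := by
  rw [pl4Tr_apply]
  simp only [add_zero]
  exact Finsupp.mapDomain_id

theorem pl4Tr_add (w w' : TV) (x : TV →₀ ℂ) : pl4Tr (w + w') x = pl4Tr w (pl4Tr w' x) := by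
  rw [pl4Tr_apply, pl4Tr_apply, pl4Tr_apply, ← Finsupp.mapDomain_comp]
  congr 1
  funext p
  simp only [Function.comp]
  rw [add_comm w w', add_assoc]

theorem pl4Tr_single (w u : TV) (r : ℂ) : pl4Tr w (Finsupp.single u r) = Finsupp.single (u + w) r := by
  rw [pl4Tr_apply, Finsupp.mapDomain_single]

/-- translation invariance -/
theorem pl4Q_tr (k : TV → ℂ) (w w' : TV) (x y : TV →₀ ℂ) : pl4Q k (pl4Tr w x) (pl4Tr w' y) = pl4Q k x (pl4Tr (w' - w) y) := by
  have e : pl4Q k x (pl4Tr (w' - w) y) = pl4Q k (x.mapDomain id) (pl4Tr (w' - w) y) := by rw [Finsupp.mapDomain_id]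
  rw [e, pl4Tr_apply, pl4Tr_apply, pl4Tr_apply, pl4Q_map, pl4Q_map]
  refine Finsupp.sum_congr fun p _ => Finsupp.sum_congr fun q _ => ?_
  congr 2
  simp only [id]
  abel

/-- total mass -/
noncomputable def pl4Tot : (TV →₀ ℂ) →ₗ[ℂ] ℂ := Finsupp.lsum ℂ fun _ => LinearMap.id

theorem pl4Tot_apply (x : TV →₀ ℂ) : pl4Tot x = x.sum fun _ r => r := rfl

theorem pl4Tot_tr (w : TV) (x : TV →₀ ℂ) : pl4Tot (pl4Tr w x) = pl4Tot x := by
  rw [pl4Tot_apply, pl4Tot_apply, pl4Tr_apply, Finsupp.sum_mapDomain_index (by simp) (by simp)]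

theorem pl4Tot_single (u : TV) (r : ℂ) : pl4Tot (Finsupp.single u r) = r := by
  rw [pl4Tot_apply, Finsupp.sum_single_index rfl]

/-- the kernel of the variogram -/
noncomputable def pl4K (a : TV → ℝ) (w : TV) : ℂ := ((-(a w) / 2 : ℝ) : ℂ)

theorem pl4K_neg {a : TV → ℝ} (ha : ∀ u, a (-u) = a u) (w : TV) : pl4K a (-w) = conj (pl4K a w) := by
  unfold pl4K
  rw [ha, Complex.conj_ofReal]

/-- positivity on complex zero-total arrays from positivity on real ones -/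
theorem pl4Q_nonneg {a : TV → ℝ} (hpsd : ∀ b : TV →₀ ℝ, latTot b = 0 → 0 ≤ pl4Cov a b b) (x : TV →₀ ℂ) (hx : pl4Tot x = 0) :
    0 ≤ (pl4Q (pl4K a) x x).re := by
  have h1 := hpsd (x.mapRange Complex.re Complex.zero_re) (by
    unfold latTot
    rw [Finsupp.sum_mapRange_index (by simp)]
    have := congrArg Complex.re hx
    rw [pl4Tot_apply] at this
    simpa [Finsupp.sum] using this)
  have h2 := hpsd (x.mapRange Complex.im Complex.zero_im) (by
    unfold latTot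
    rw [Finsupp.sum_mapRange_index (by simp)]
    have := congrArg Complex.im hx
    rw [pl4Tot_apply] at this
    simpa [Finsupp.sum] using this)
  have e : (pl4Q (pl4K a) x x).re = pl4Cov a (x.mapRange Complex.re Complex.zero_re) (x.mapRange Complex.re Complex.zero_re)
      + pl4Cov a (x.mapRange Complex.im Complex.zero_im) (x.mapRange Complex.im Complex.zero_im) := by
    unfold pl4Cov pl4Q pl4K
    rw [Finsupp.sum_mapRange_index (by simp), Finsupp.sum_mapRange_index (by simp)]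
    simp only [Finsupp.sum_mapRange_index, mul_zero, zero_mul, implies_true]
    simp only [Finsupp.sum, Complex.re_sum, Finset.mul_sum, ← Finset.sum_add_distrib]
    refine Finset.sum_congr rfl fun p _ => Finset.sum_congr rfl fun q _ => ?_
    simp only [Complex.mul_re, Complex.conj_re, Complex.conj_im, Complex.ofReal_re, Complex.ofReal_im, Complex.mul_im]
    ring
  rw [e]
  exact add_nonneg h1 h2

/-! ## D. Bochner measures of zero-total arrays -/

/-- the form on zero-total complex arrays -/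
noncomputable def pl4Core (a : TV → ℝ) (ha : ∀ u, a (-u) = a u)
    (hpsd : ∀ b : TV →₀ ℝ, latTot b = 0 → 0 ≤ pl4Cov a b b) : PreInnerProductSpace.Core ℂ (LinearMap.ker pl4Tot) where
  inner := fun x y => pl4Q (pl4K a) x.1 y.1
  conj_inner_symm := fun x y => pl4Q_conj _ (pl4K_neg ha) x.1 y.1
  re_inner_nonneg := fun x => pl4Q_nonneg hpsd x.1 x.2
  add_left := fun x y z => pl4Q_add_left _ x.1 y.1 z.1
  smul_left := fun x y r => pl4Q_smul_left _ x.1 y.1 r

/-- **Bochner** for the translates of a zero-total array -/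
theorem pl4_bochner {a : TV → ℝ} (ha : ∀ u, a (-u) = a u)
    (hpsd : ∀ b : TV →₀ ℝ, latTot b = 0 → 0 ≤ pl4Cov a b b) (x : TV →₀ ℂ) (hx : pl4Tot x = 0) :
    ∃ μ : Measure Pl4T, IsFiniteMeasure μ ∧ ∀ n : TV, ∫ θ, pl4Chi n θ ∂μ = pl4Q (pl4K a) x (pl4Tr n x) := by
  set c := pl4Core a ha hpsd with hc
  let U : (Fin 2 → ℤ) → Module.End ℂ (LinearMap.ker pl4Tot) := fun n =>
    (pl4Tr (n 0, n 1)).restrict (fun y hy => by
      rw [LinearMap.mem_ker] at hy ⊢
      rw [pl4Tot_tr, hy])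
  have hU : ∀ n y, ((U n y : LinearMap.ker pl4Tot) : TV →₀ ℂ) = pl4Tr (n 0, n 1) y.1 := fun n y => rfl
  have g1 : U 0 = 1 := by
    apply LinearMap.ext
    intro y
    apply Subtype.ext
    rw [hU]
    exact pl4Tr_zero y.1
  have g2 : ∀ m n, U (m + n) = U m * U n := by
    intro m n
    apply LinearMap.ext
    intro y
    apply Subtype.ext
    rw [Module.End.mul_apply, hU, hU, hU, ← pl4Tr_add]
    rfl
  have g3 : ∀ n y z, c.inner (U n y) (U n z) = c.inner y z := by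
    intro n y z
    show pl4Q (pl4K a) (U n y).1 (U n z).1 = pl4Q (pl4K a) y.1 z.1
    rw [hU, hU, pl4Q_tr, sub_self, pl4Tr_zero]
  obtain ⟨μ, h1, -, h3⟩ := sp8_core c U g1 g2 g3 1 Sp8Sym.one Sp8Pos.one
    (fun y => ⟨(c.inner y y).re, fun n => by simp⟩) (fun n => by simp) ⟨x, hx⟩
  refine ⟨μ.map Prod.fst, inferInstance, fun n => ?_⟩
  have h4 := h3 ![n.1, n.2] 0
  rw [integral_map measurable_fst.aemeasurable (pl4Chi n).continuous.aestronglyMeasurable]
  simp only [pow_zero, mul_one, Module.End.one_apply] at h4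
  exact h4

/-! ## E. the difference rule and the measure `C` -/

theorem pl4Q_add_right (k : TV → ℂ) (x y y' : TV →₀ ℂ) : pl4Q k x (y + y') = pl4Q k x y + pl4Q k x y' := by
  unfold pl4Q
  rw [← Finsupp.sum_add]
  refine Finsupp.sum_congr fun p _ => Finsupp.sum_add_index' (by simp) (by intros; ring)

theorem pl4Q_smul_right (k : TV → ℂ) (x y : TV →₀ ℂ) (r : ℂ) : pl4Q k x (r • y) = r * pl4Q k x y := by
  unfold pl4Q
  rw [Finsupp.mul_sum]
  refine Finsupp.sum_congr fun p _ => ?_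
  rw [Finsupp.sum_smul_index (by simp), Finsupp.mul_sum]
  refine Finsupp.sum_congr fun q _ => ?_
  ring

theorem pl4Q_sub_right (k : TV → ℂ) (x y y' : TV →₀ ℂ) : pl4Q k x (y - y') = pl4Q k x y - pl4Q k x y' := by
  have e : y - y' = y + (-1 : ℂ) • y' := by simp [sub_eq_add_neg]
  rw [e, pl4Q_add_right, pl4Q_smul_right]; ring

theorem pl4Q_sub_left (k : TV → ℂ) (x x' y : TV →₀ ℂ) : pl4Q k (x - x') y = pl4Q k x y - pl4Q k x' y := by
  have e : x - x' = x + (-1 : ℂ) • x' := by simp [sub_eq_add_neg]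
  rw [e, pl4Q_add_left, pl4Q_smul_left]; simp [sub_eq_add_neg]

theorem pl4_ext {μ ν : Measure Pl4T} [IsFiniteMeasure μ] [IsFiniteMeasure ν]
    (h : ∀ n : TV, ∫ θ, pl4Chi n θ ∂μ = ∫ θ, pl4Chi n θ ∂ν) : μ = ν := by
  apply pl4_torus_ext
  intro n
  have e : n = ![n 0, n 1] := by
    funext i; fin_cases i <;> rfl
  have := h (n 0, n 1)
  unfold pl4Chi at this
  rw [e]
  exact this

open Classical in
/-- the Bochner measure of the array `x` -/
noncomputable def pl4Mu (a : TV → ℝ) (x : TV →₀ ℂ) : Measure Pl4T :=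
  if h : ∃ μ : Measure Pl4T, IsFiniteMeasure μ ∧ ∀ n : TV, ∫ θ, pl4Chi n θ ∂μ = pl4Q (pl4K a) x (pl4Tr n x)
  then h.choose else 0

instance pl4Mu_fin (a : TV → ℝ) (x : TV →₀ ℂ) : IsFiniteMeasure (pl4Mu a x) := by
  unfold pl4Mu
  split_ifs with h
  · exact h.choose_spec.1
  · infer_instance

/-- the part of `Pl4In` used for the construction -/
structure Pl4Pd (a : TV → ℝ) : Prop where
  even : ∀ u, a (-u) = a u
  psd : ∀ b : TV →₀ ℝ, latTot b = 0 → 0 ≤ pl4Cov a b b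

theorem pl4Mu_spec {a : TV → ℝ} (h : Pl4Pd a) {x : TV →₀ ℂ} (hx : pl4Tot x = 0) (n : TV) :
    ∫ θ, pl4Chi n θ ∂(pl4Mu a x) = pl4Q (pl4K a) x (pl4Tr n x) := by
  have h' := pl4_bochner h.even h.psd x hx
  unfold pl4Mu
  rw [dif_pos h']
  exact h'.choose_spec.2 n

/-- the weight `|χ_u - 1|²` -/
noncomputable def pl4W (u : TV) (θ : Pl4T) : ℝ≥0∞ := ‖pl4Chi u θ - 1‖ₑ ^ 2

theorem pl4W_meas (u : TV) : Measurable (pl4W u) := by
  unfold pl4W
  have : Continuous fun θ => pl4Chi u θ - 1 := by fun_prop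
  exact (this.measurable.enorm).pow_const 2

theorem pl4W_lt_top (u : TV) (θ : Pl4T) : pl4W u θ < ⊤ := by
  unfold pl4W
  exact ENNReal.pow_lt_top enorm_lt_top

theorem pl4W_toReal (u : TV) (θ : Pl4T) : (pl4W u θ).toReal = ‖pl4Chi u θ - 1‖ ^ 2 := by
  unfold pl4W
  rw [ENNReal.toReal_pow, toReal_enorm]

theorem pl4_int_W (μ : Measure Pl4T) [IsFiniteMeasure μ] (u n : TV) :
    ∫ θ, pl4Chi n θ ∂(μ.withDensity (pl4W u))
      = 2 * ∫ θ, pl4Chi n θ ∂μ - ∫ θ, pl4Chi (n + u) θ ∂μ - ∫ θ, pl4Chi (n - u) θ ∂μ := by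
  rw [integral_withDensity_eq_integral_toReal_smul (pl4W_meas u) (Filter.Eventually.of_forall (pl4W_lt_top u))]
  have e : ∀ θ, (pl4W u θ).toReal • pl4Chi n θ = 2 * pl4Chi n θ - pl4Chi (n + u) θ - pl4Chi (n - u) θ := by
    intro θ
    rw [pl4W_toReal, Complex.real_smul, pl4Chi_sq, pl4Chi_add, sub_eq_add_neg n u, pl4Chi_add]
    ring
  simp_rw [e]
  rw [integral_sub, integral_sub, integral_const_mul]
  · exact (pl4_cont_integrable μ (pl4Chi n)).const_mul 2
  · exact pl4_cont_integrable μ _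
  · exact ((pl4_cont_integrable μ (pl4Chi n)).const_mul 2).sub (pl4_cont_integrable μ _)
  · exact pl4_cont_integrable μ _

instance pl4_wd_fin (μ : Measure Pl4T) [IsFiniteMeasure μ] (u : TV) : IsFiniteMeasure (μ.withDensity (pl4W u)) := by
  apply isFiniteMeasure_withDensity
  have h : ∀ θ, pl4W u θ ≤ 4 := by
    intro θ
    unfold pl4W
    have h1 : ‖pl4Chi u θ - 1‖ₑ ≤ 2 := by
      rw [← ofReal_norm]
      have : ‖pl4Chi u θ - 1‖ ≤ 2 := by
        calc ‖pl4Chi u θ - 1‖ ≤ ‖pl4Chi u θ‖ + ‖(1 : ℂ)‖ := norm_sub_le _ _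
          _ = 2 := by rw [pl4Chi_norm]; norm_num
      calc ENNReal.ofReal ‖pl4Chi u θ - 1‖ ≤ ENNReal.ofReal 2 := ENNReal.ofReal_le_ofReal this
        _ = 2 := by norm_num
    calc ‖pl4Chi u θ - 1‖ₑ ^ 2 ≤ 2 ^ 2 := by gcongr
      _ = 4 := by norm_num
  refine ne_of_lt (lt_of_le_of_lt (lintegral_mono h) ?_)
  rw [lintegral_const]
  exact ENNReal.mul_lt_top (by norm_num) (measure_lt_top μ _)

/-- **difference rule** `μ_{τ_u x - x} = |χ_u - 1|² μ_x` -/
theorem pl4Mu_diff {a : TV → ℝ} (h : Pl4Pd a) {x : TV →₀ ℂ} (hx : pl4Tot x = 0) (u : TV) :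
    pl4Mu a (pl4Tr u x - x) = (pl4Mu a x).withDensity (pl4W u) := by
  have hx' : pl4Tot (pl4Tr u x - x) = 0 := by rw [map_sub, pl4Tot_tr, sub_self]
  apply pl4_ext
  intro n
  rw [pl4Mu_spec h hx', pl4_int_W, pl4Mu_spec h hx, pl4Mu_spec h hx, pl4Mu_spec h hx, map_sub, pl4Q_sub_left,
    pl4Q_sub_right, pl4Q_sub_right, ← pl4Tr_add, pl4Q_tr, pl4Q_tr, add_sub_cancel_right]
  ring

/-- the increment array `δ_u - δ_0` -/
noncomputable def pl4B (u : TV) : TV →₀ ℂ := Finsupp.single u 1 - Finsupp.single 0 1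

theorem pl4B_tot (u : TV) : pl4Tot (pl4B u) = 0 := by
  unfold pl4B
  rw [map_sub, pl4Tot_single, pl4Tot_single, sub_self]

theorem pl4B_comm (u v : TV) : pl4Tr v (pl4B u) - pl4B u = pl4Tr u (pl4B v) - pl4B v := by
  unfold pl4B
  rw [map_sub, map_sub, pl4Tr_single, pl4Tr_single, pl4Tr_single, pl4Tr_single, zero_add, zero_add, add_comm u v]
  abel

theorem pl4Mu_comm {a : TV → ℝ} (h : Pl4Pd a) (u v : TV) :
    (pl4Mu a (pl4B u)).withDensity (pl4W v) = (pl4Mu a (pl4B v)).withDensity (pl4W u) := by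
  rw [← pl4Mu_diff h (pl4B_tot u), ← pl4Mu_diff h (pl4B_tot v), pl4B_comm]

theorem pl4Chi_e1 (θ : Pl4T) : pl4Chi (1, 0) θ = (AddCircle.toCircle (θ 0) : ℂ) := by
  simp [pl4Chi, UnitAddTorus.mFourier, Fin.prod_univ_two]

theorem pl4Chi_e2 (θ : Pl4T) : pl4Chi (0, 1) θ = (AddCircle.toCircle (θ 1) : ℂ) := by
  simp [pl4Chi, UnitAddTorus.mFourier, Fin.prod_univ_two]

theorem pl4_toCircle_eq_one {x : UnitAddCircle} (h : (AddCircle.toCircle x : ℂ) = 1) : x = 0 := by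
  apply AddCircle.injective_toCircle (one_ne_zero)
  rw [AddCircle.toCircle_zero]
  exact Circle.ext h

/-- `D = |χ_{e₁} - 1|² + |χ_{e₂} - 1|²` -/
noncomputable def pl4D (θ : Pl4T) : ℝ≥0∞ := pl4W (1, 0) θ + pl4W (0, 1) θ

theorem pl4D_meas : Measurable pl4D := (pl4W_meas _).add (pl4W_meas _)

theorem pl4D_ne_zero {θ : Pl4T} (h : θ ≠ 0) : pl4D θ ≠ 0 := by
  intro h0
  apply h
  unfold pl4D pl4W at h0
  rw [add_eq_zero] at h0
  obtain ⟨h1, h2⟩ := h0
  rw [pow_eq_zero_iff (by norm_num), enorm_eq_zero, sub_eq_zero] at h1 h2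
  rw [pl4Chi_e1] at h1
  rw [pl4Chi_e2] at h2
  funext i
  fin_cases i
  · exact pl4_toCircle_eq_one h1
  · exact pl4_toCircle_eq_one h2

theorem pl4D_ne_top (θ : Pl4T) : pl4D θ ≠ ⊤ :=
  (ENNReal.add_lt_top.2 ⟨pl4W_lt_top _ θ, pl4W_lt_top _ θ⟩).ne

open Classical in
/-- `1/D` off the origin -/
noncomputable def pl4H (θ : Pl4T) : ℝ≥0∞ := if θ = 0 then 0 else (pl4D θ)⁻¹

theorem pl4H_meas : Measurable pl4H := by
  unfold pl4H
  exact Measurable.ite (measurableSet_singleton 0) measurable_const pl4D_meas.inv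

theorem pl4D_mul_H : pl4D * pl4H = Set.indicator ({0}ᶜ : Set Pl4T) 1 := by
  funext θ
  by_cases h : θ = 0
  · simp [pl4H, h]
  · have : θ ∈ ({0}ᶜ : Set Pl4T) := h
    rw [Set.indicator_of_mem this, Pi.mul_apply, pl4H, if_neg h, Pi.one_apply]
    exact ENNReal.mul_inv_cancel (pl4D_ne_zero h) (pl4D_ne_top θ)

/-- **the punctured spectral measure** -/
noncomputable def pl4C (a : TV → ℝ) : Measure Pl4T :=
  (pl4Mu a (pl4B (1, 0)) + pl4Mu a (pl4B (0, 1))).withDensity pl4H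

theorem pl4C_zero (a : TV → ℝ) : pl4C a {0} = 0 := by
  unfold pl4C
  rw [withDensity_apply _ (measurableSet_singleton 0)]
  rw [← lintegral_indicator (measurableSet_singleton 0)]
  have : (Set.indicator ({0} : Set Pl4T) pl4H) = fun _ => 0 := by
    funext θ
    by_cases h : θ = 0
    · simp [pl4H, h]
    · simp [h]
  rw [this, lintegral_zero]

/-- `|χ_u - 1|² C = μ_{δ_u - δ_0}` off the origin -/
theorem pl4C_W {a : TV → ℝ} (h : Pl4Pd a) (u : TV) :
    (pl4C a).withDensity (pl4W u) = (pl4Mu a (pl4B u)).restrict {0}ᶜ := by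
  unfold pl4C
  rw [← withDensity_mul _ pl4H_meas (pl4W_meas u), mul_comm, withDensity_mul _ (pl4W_meas u) pl4H_meas,
    withDensity_add_measure, pl4Mu_comm h (1, 0) u, pl4Mu_comm h (0, 1) u,
    ← withDensity_add_left (pl4W_meas _), ← withDensity_mul _ ((pl4W_meas _).add (pl4W_meas _)) pl4H_meas]
  have : (pl4W (1, 0) + pl4W (0, 1)) * pl4H = Set.indicator ({0}ᶜ : Set Pl4T) 1 := pl4D_mul_H
  rw [this, withDensity_indicator_one (measurableSet_singleton 0).compl]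

/-! ## F. smoothing an increment: `Q(τ_u z - z, τ_u z - z) = ∫ |z^|² dμ_{δ_u - δ_0}` -/

theorem pl4Q_zero_left (k : TV → ℂ) (y : TV →₀ ℂ) : pl4Q k 0 y = 0 := by
  simp [pl4Q]

theorem pl4Q_zero_right (k : TV → ℂ) (x : TV →₀ ℂ) : pl4Q k x 0 = 0 := by
  simp [pl4Q]

theorem pl4Q_sum_left (k : TV → ℂ) {ι : Type*} (s : Finset ι) (c : ι → ℂ) (f : ι → TV →₀ ℂ) (y : TV →₀ ℂ) :
    pl4Q k (∑ i ∈ s, c i • f i) y = ∑ i ∈ s, conj (c i) * pl4Q k (f i) y := by
  classical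
  induction s using Finset.induction_on with
  | empty => simp [pl4Q_zero_left]
  | insert i s hi ih => rw [Finset.sum_insert hi, Finset.sum_insert hi, pl4Q_add_left, pl4Q_smul_left, ih]

theorem pl4Q_sum_right (k : TV → ℂ) {ι : Type*} (s : Finset ι) (c : ι → ℂ) (f : ι → TV →₀ ℂ) (x : TV →₀ ℂ) :
    pl4Q k x (∑ i ∈ s, c i • f i) = ∑ i ∈ s, c i * pl4Q k x (f i) := by
  classical
  induction s using Finset.induction_on with
  | empty => simp [pl4Q_zero_right]
  | insert i s hi ih => rw [Finset.sum_insert hi, Finset.sum_insert hi, pl4Q_add_right, pl4Q_smul_right, ih]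

/-- transform of a complex array -/
noncomputable def pl4HatC (z : TV →₀ ℂ) (θ : Pl4T) : ℂ := z.sum fun m r => r * pl4Chi m θ

theorem pl4HatC_cont (z : TV →₀ ℂ) : Continuous (pl4HatC z) := by
  unfold pl4HatC Finsupp.sum
  fun_prop

theorem pl4_conv_B (z : TV →₀ ℂ) (u : TV) : ∑ m ∈ z.support, z m • pl4Tr m (pl4B u) = pl4Tr u z - z := by
  have e1 : ∀ m, z m • pl4Tr m (pl4B u) = Finsupp.single (m + u) (z m) - Finsupp.single m (z m) := by
    intro m
    unfold pl4B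
    rw [map_sub, pl4Tr_single, pl4Tr_single, smul_sub, Finsupp.smul_single, Finsupp.smul_single, zero_add, smul_eq_mul,
      mul_one, add_comm u m]
  simp_rw [e1]
  rw [Finset.sum_sub_distrib]
  congr 1
  exact z.sum_single

theorem pl4_smooth {a : TV → ℝ} (h : Pl4Pd a) (z : TV →₀ ℂ) (u : TV) :
    pl4Q (pl4K a) (pl4Tr u z - z) (pl4Tr u z - z) = ∫ θ, ((‖pl4HatC z θ‖ ^ 2 : ℝ) : ℂ) ∂(pl4Mu a (pl4B u)) := by
  rw [← pl4_conv_B, pl4Q_sum_left]
  simp_rw [pl4Q_sum_right, pl4Q_tr, ← pl4Mu_spec h (pl4B_tot u)]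
  have e : ∀ θ, ((‖pl4HatC z θ‖ ^ 2 : ℝ) : ℂ)
      = ∑ m ∈ z.support, conj (z m) * ∑ m' ∈ z.support, z m' * pl4Chi (m' - m) θ := by
    intro θ
    rw [← Complex.normSq_eq_norm_sq, ← Complex.mul_conj, mul_comm]
    unfold pl4HatC Finsupp.sum
    rw [map_sum, Finset.sum_mul]
    refine Finset.sum_congr rfl fun m _ => ?_
    rw [map_mul, mul_assoc, Finset.mul_sum]
    congr 1
    refine Finset.sum_congr rfl fun m' _ => ?_
    rw [pl4Chi_sub]
    ring
  simp_rw [e]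
  rw [integral_finsetSum]
  · refine Finset.sum_congr rfl fun m _ => ?_
    rw [integral_const_mul, integral_finsetSum]
    · congr 1
      refine Finset.sum_congr rfl fun m' _ => ?_
      rw [integral_const_mul]
    · intro m' _
      exact (pl4_cont_integrable _ _).const_mul _
  · intro m _
    apply Integrable.const_mul
    apply integrable_finsetSum
    intro m' _
    exact (pl4_cont_integrable _ _).const_mul _

theorem pl4HatC_zero (z : TV →₀ ℂ) : pl4HatC z 0 = pl4Tot z := by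
  unfold pl4HatC
  rw [pl4Tot_apply]
  simp [pl4Chi_at_zero]

/-- the atom at the origin is controlled by smoothed increments -/
theorem pl4_atom_le {a : TV → ℝ} (h : Pl4Pd a) (z : TV →₀ ℂ) (u : TV) :
    ‖pl4Tot z‖ ^ 2 * (pl4Mu a (pl4B u)).real {0} ≤ (pl4Q (pl4K a) (pl4Tr u z - z) (pl4Tr u z - z)).re := by
  rw [pl4_smooth h]
  have e1 : ∫ θ, ((‖pl4HatC z θ‖ ^ 2 : ℝ) : ℂ) ∂(pl4Mu a (pl4B u)) = ((∫ θ, ‖pl4HatC z θ‖ ^ 2 ∂(pl4Mu a (pl4B u)) : ℝ) : ℂ) :=
    integral_ofReal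
  rw [e1, Complex.ofReal_re]
  have hint : Integrable (fun θ => ‖pl4HatC z θ‖ ^ 2) (pl4Mu a (pl4B u)) := by
    have hc : Continuous fun θ => ‖pl4HatC z θ‖ ^ 2 := ((pl4HatC_cont z).norm).pow 2
    exact hc.integrable_of_hasCompactSupport (HasCompactSupport.of_compactSpace _)
  have h1 := setIntegral_le_integral (s := ({0} : Set Pl4T)) hint (Filter.Eventually.of_forall fun θ => by positivity)
  rw [integral_singleton, pl4HatC_zero, smul_eq_mul, mul_comm] at h1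
  exact h1



/-! ## G. tents -/

/-- the tent of height and half width `N` -/
noncomputable def pl4T1 (N : ℕ) (m : ℤ) : ℝ := max 0 ((N : ℝ) - |(m : ℝ)|)

theorem pl4T1_nonneg (N : ℕ) (m : ℤ) : 0 ≤ pl4T1 N m := le_max_left _ _

theorem pl4T1_le (N : ℕ) (m : ℤ) : pl4T1 N m ≤ N := by
  unfold pl4T1
  apply max_le (by positivity)
  linarith [abs_nonneg (m : ℝ)]

theorem pl4T1_lip (N : ℕ) (m p : ℤ) : |pl4T1 N (m - p) - pl4T1 N m| ≤ |(p : ℝ)| := by
  unfold pl4T1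
  rw [max_comm (0 : ℝ), max_comm (0 : ℝ)]
  refine (abs_max_sub_max_le_abs _ _ (0 : ℝ)).trans ?_
  have e : (N : ℝ) - |((m - p : ℤ) : ℝ)| - ((N : ℝ) - |(m : ℝ)|) = |(m : ℝ)| - |((m - p : ℤ) : ℝ)| := by ring
  rw [e]
  refine (abs_abs_sub_abs_le (m : ℝ) _).trans ?_
  push_cast
  rw [sub_sub_cancel]

theorem pl4T1_supp {N : ℕ} {m : ℤ} (h : pl4T1 N m ≠ 0) : |m| ≤ (N : ℤ) := by
  by_contra hlt
  push Not at hlt
  apply h
  unfold pl4T1
  apply max_eq_left
  have : ((N : ℤ) : ℝ) < ((|m| : ℤ) : ℝ) := by exact_mod_cast hlt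
  push_cast at this
  linarith

theorem pl4T1_sum (N : ℕ) : (N : ℝ) ^ 2 / 2 ≤ ∑ m ∈ Finset.Icc (-(N : ℤ)) N, pl4T1 N m := by
  have h1 : ∑ k ∈ Finset.range N, pl4T1 N (k : ℤ) ≤ ∑ m ∈ Finset.Icc (-(N : ℤ)) N, pl4T1 N m := by
    rw [← Finset.sum_image (s := Finset.range N) (g := fun k : ℕ => (k : ℤ)) (f := fun m => pl4T1 N m)
      (fun x _ y _ hxy => by simpa using hxy)]
    apply Finset.sum_le_sum_of_subset_of_nonneg
    · intro m hm
      rw [Finset.mem_image] at hm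
      obtain ⟨k, hk, rfl⟩ := hm
      rw [Finset.mem_range] at hk
      rw [Finset.mem_Icc]
      constructor <;> omega
    · intro m _ _
      exact pl4T1_nonneg N m
  refine le_trans ?_ h1
  have h2 : ∀ k ∈ Finset.range N, pl4T1 N (k : ℤ) = (N : ℝ) - k := by
    intro k hk
    rw [Finset.mem_range] at hk
    unfold pl4T1
    have : (k : ℝ) ≤ N := by exact_mod_cast hk.le
    rw [max_eq_right]
    · simp
    · simp; exact hk.le
  rw [Finset.sum_congr rfl h2, Finset.sum_sub_distrib]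
  have h3 : (∑ k ∈ Finset.range N, (k : ℝ)) * 2 = (N : ℝ) * ((N : ℝ) - 1) := by
    have := Finset.sum_range_id_mul_two N
    rcases Nat.eq_zero_or_pos N with rfl | hN
    · simp
    · have h4 : ((∑ k ∈ Finset.range N, k : ℕ) : ℝ) * 2 = (N : ℝ) * ((N - 1 : ℕ) : ℝ) := by exact_mod_cast this
      rw [Nat.cast_sub hN] at h4
      push_cast at h4
      exact h4
  simp only [Finset.sum_const, Finset.card_range, nsmul_eq_mul]
  nlinarith [(Nat.cast_nonneg N : (0 : ℝ) ≤ N)]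

/-- the product tent of total mass `≈ N` -/
noncomputable def pl4Z (N : ℕ) : TV →₀ ℝ :=
  Finsupp.onFinset (Finset.Icc (-(N : ℤ)) N ×ˢ Finset.Icc (-(N : ℤ)) N)
    (fun u => pl4T1 N u.1 * pl4T1 N u.2 / (N : ℝ) ^ 3) (fun u hu => by
      have h1 : pl4T1 N u.1 ≠ 0 := fun h => hu (by simp [h])
      have h2 : pl4T1 N u.2 ≠ 0 := fun h => hu (by simp [h])
      have h3 := abs_le.1 (pl4T1_supp h1)
      have h4 := abs_le.1 (pl4T1_supp h2)
      rw [Finset.mem_product, Finset.mem_Icc, Finset.mem_Icc]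
      exact ⟨h3, h4⟩)

theorem pl4Z_apply (N : ℕ) (u : TV) : pl4Z N u = pl4T1 N u.1 * pl4T1 N u.2 / (N : ℝ) ^ 3 := rfl

theorem pl4Z_nonneg (N : ℕ) (u : TV) : 0 ≤ pl4Z N u := by
  rw [pl4Z_apply]
  exact div_nonneg (mul_nonneg (pl4T1_nonneg _ _) (pl4T1_nonneg _ _)) (by positivity)

theorem pl4Z_supp {N : ℕ} {u : TV} (h : pl4Z N u ≠ 0) : |u.1| ≤ (N : ℤ) ∧ |u.2| ≤ (N : ℤ) := by
  rw [pl4Z_apply] at h
  exact ⟨pl4T1_supp fun h1 => h (by simp [h1]), pl4T1_supp fun h1 => h (by simp [h1])⟩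

theorem pl4Z_tot {N : ℕ} (hN : 1 ≤ N) : (N : ℝ) / 4 ≤ latTot (pl4Z N) := by
  unfold latTot pl4Z
  rw [Finsupp.onFinset_sum _ (fun _ => rfl), Finset.sum_product]
  have hN' : (0 : ℝ) < N := by exact_mod_cast hN
  have e : ∑ x ∈ Finset.Icc (-(N : ℤ)) N, ∑ y ∈ Finset.Icc (-(N : ℤ)) N, pl4T1 N x * pl4T1 N y / (N : ℝ) ^ 3
      = (∑ x ∈ Finset.Icc (-(N : ℤ)) N, pl4T1 N x) * (∑ y ∈ Finset.Icc (-(N : ℤ)) N, pl4T1 N y) / (N : ℝ) ^ 3 := by
    rw [Finset.sum_mul_sum, Finset.sum_div]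
    refine Finset.sum_congr rfl fun x _ => ?_
    rw [Finset.sum_div]
  rw [e, le_div_iff₀ (by positivity)]
  have h1 := pl4T1_sum N
  have h2 : (0 : ℝ) ≤ (N : ℝ) ^ 2 / 2 := by positivity
  calc (N : ℝ) / 4 * (N : ℝ) ^ 3 = ((N : ℝ) ^ 2 / 2) * ((N : ℝ) ^ 2 / 2) := by ring
    _ ≤ _ := mul_le_mul h1 h1 h2 (h2.trans h1)

theorem pl4Z_lip {N : ℕ} (hN : 1 ≤ N) (m u : TV) :
    |pl4Z N (m - u) - pl4Z N m| ≤ (|(u.1 : ℝ)| + |(u.2 : ℝ)|) / (N : ℝ) ^ 2 := by
  have hN' : (0 : ℝ) < N := by exact_mod_cast hN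
  rw [pl4Z_apply, pl4Z_apply, ← sub_div, abs_div, abs_of_pos (by positivity : (0 : ℝ) < (N : ℝ) ^ 3),
    div_le_div_iff₀ (by positivity) (by positivity)]
  have e : pl4T1 N (m - u).1 * pl4T1 N (m - u).2 - pl4T1 N m.1 * pl4T1 N m.2
      = (pl4T1 N (m.1 - u.1) - pl4T1 N m.1) * pl4T1 N (m.2 - u.2) + pl4T1 N m.1 * (pl4T1 N (m.2 - u.2) - pl4T1 N m.2) := by
    simp only [Prod.fst_sub, Prod.snd_sub]; ring
  have h1 : |pl4T1 N (m - u).1 * pl4T1 N (m - u).2 - pl4T1 N m.1 * pl4T1 N m.2| ≤ (|(u.1 : ℝ)| + |(u.2 : ℝ)|) * N := by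
    rw [e]
    refine (abs_add_le _ _).trans ?_
    rw [abs_mul, abs_mul, abs_of_nonneg (pl4T1_nonneg N (m.2 - u.2)), abs_of_nonneg (pl4T1_nonneg N m.1), add_mul]
    apply add_le_add
    · exact mul_le_mul (pl4T1_lip _ _ _) (pl4T1_le _ _) (pl4T1_nonneg _ _) (abs_nonneg _)
    · rw [mul_comm]
      exact mul_le_mul (pl4T1_lip _ _ _) (pl4T1_le _ _) (pl4T1_nonneg _ _) (abs_nonneg _)
  calc _ ≤ (|(u.1 : ℝ)| + |(u.2 : ℝ)|) * N * (N : ℝ) ^ 2 := mul_le_mul_of_nonneg_right h1 (by positivity)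
    _ = (|(u.1 : ℝ)| + |(u.2 : ℝ)|) * (N : ℝ) ^ 3 := by ring

/-! ## H. real arrays, smoothed increments are smearings, no tilt -/

/-- complexification of a real array -/
noncomputable def pl4Cx (b : TV →₀ ℝ) : TV →₀ ℂ := b.mapRange Complex.ofReal Complex.ofReal_zero

theorem pl4Q_cx (a : TV → ℝ) (b b' : TV →₀ ℝ) : pl4Q (pl4K a) (pl4Cx b) (pl4Cx b') = (pl4Cov a b b' : ℂ) := by
  unfold pl4Q pl4Cx pl4Cov pl4K
  rw [Finsupp.sum_mapRange_index (by simp)]
  simp only [Finsupp.sum_mapRange_index, mul_zero, zero_mul, implies_true]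
  simp only [Finsupp.sum, Complex.ofReal_mul, Complex.ofReal_sum, Finset.mul_sum, Complex.conj_ofReal]
  refine Finset.sum_congr rfl fun p _ => Finset.sum_congr rfl fun q _ => ?_
  push_cast
  ring

theorem pl4Tot_cx (b : TV →₀ ℝ) : pl4Tot (pl4Cx b) = (latTot b : ℂ) := by
  unfold pl4Cx latTot
  rw [pl4Tot_apply, Finsupp.sum_mapRange_index (by simp)]
  simp [Finsupp.sum]

/-- translation of real arrays -/
noncomputable def pl4TrR (w : TV) (b : TV →₀ ℝ) : TV →₀ ℝ := b.mapDomain fun u => u + w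

theorem pl4Cx_tr (w : TV) (b : TV →₀ ℝ) : pl4Cx (pl4TrR w b) = pl4Tr w (pl4Cx b) := by
  unfold pl4Cx pl4TrR
  rw [pl4Tr_apply, Finsupp.mapDomain_mapRange _ _ _ _ Complex.ofReal_add]

theorem pl4Cx_sub (b b' : TV →₀ ℝ) : pl4Cx (b - b') = pl4Cx b - pl4Cx b' := by
  ext m
  simp [pl4Cx]

theorem pl4TrR_apply (w : TV) (b : TV →₀ ℝ) (m : TV) : pl4TrR w b m = b (m - w) := by
  unfold pl4TrR
  have := Finsupp.mapDomain_apply (f := fun u : TV => u + w) (add_left_injective w) b (m - w)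
  simpa using this

theorem pl4_latTot_tr (w : TV) (b : TV →₀ ℝ) : latTot (pl4TrR w b) = latTot b := by
  unfold latTot pl4TrR
  rw [Finsupp.sum_mapDomain_index (by simp) (by simp)]

theorem pl4_latTot_sub (b b' : TV →₀ ℝ) : latTot (b - b') = latTot b - latTot b' := by
  unfold latTot
  exact Finsupp.sum_sub_index (by intros; rfl)

/-- the smoothed increments have bounded variance -/
theorem pl4_tent_var {a : TV → ℝ} (h : Pl4In a) (u : TV) : ∃ K : ℝ, ∀ N : ℕ, 1 ≤ N → |u.1| ≤ (N : ℤ) → |u.2| ≤ (N : ℤ) →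
    pl4Cov a (pl4TrR u (pl4Z N) - pl4Z N) (pl4TrR u (pl4Z N) - pl4Z N) ≤ K := by
  obtain ⟨K, hK⟩ := h.smear (25 * (|(u.1 : ℝ)| + |(u.2 : ℝ)|))
  refine ⟨K, fun N hN h1 h2 => ?_⟩
  have hN' : (0 : ℝ) < N := by exact_mod_cast hN
  set w := pl4TrR u (pl4Z N) - pl4Z N with hw
  have hwa : ∀ m, w m = pl4Z N (m - u) - pl4Z N m := by
    intro m
    rw [hw, Finsupp.sub_apply, pl4TrR_apply]
  have hsup : ∀ m, |w m| ≤ (|(u.1 : ℝ)| + |(u.2 : ℝ)|) / (N : ℝ) ^ 2 := fun m => by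
    rw [hwa]; exact pl4Z_lip hN m u
  have hsupp : ∀ m ∈ w.support, |m.1| ≤ ((2 * N : ℕ) : ℤ) ∧ |m.2| ≤ ((2 * N : ℕ) : ℤ) := by
    intro m hm
    rw [Finsupp.mem_support_iff, hwa] at hm
    have : pl4Z N (m - u) ≠ 0 ∨ pl4Z N m ≠ 0 := by
      by_contra hcon
      push Not at hcon
      rw [hcon.1, hcon.2, sub_zero] at hm
      exact hm rfl
    rcases this with h3 | h3
    · have h4 := pl4Z_supp h3
      simp only [Prod.fst_sub, Prod.snd_sub] at h4
      rw [abs_le] at h1 h2 ⊢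
      obtain ⟨h5, h6⟩ := h4
      rw [abs_le] at h5 h6 ⊢
      push_cast
      constructor <;> constructor <;> omega
    · have h4 := pl4Z_supp h3
      obtain ⟨h5, h6⟩ := h4
      rw [abs_le] at h5 h6 ⊢
      rw [abs_le]
      push_cast
      constructor <;> constructor <;> omega
  apply hK (2 * N) w (by omega)
  · rw [hw, pl4_latTot_sub, pl4_latTot_tr, sub_self]
  · exact hsupp
  · -- l1
    set box := Finset.Icc (-((2 * N : ℕ) : ℤ)) ((2 * N : ℕ) : ℤ) ×ˢ Finset.Icc (-((2 * N : ℕ) : ℤ)) ((2 * N : ℕ) : ℤ) with hbox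
    have hsub : w.support ⊆ box := by
      intro m hm
      have := hsupp m hm
      rw [hbox, Finset.mem_product, Finset.mem_Icc, Finset.mem_Icc]
      exact ⟨abs_le.1 this.1, abs_le.1 this.2⟩
    have hcard : (box.card : ℝ) = (4 * (N : ℝ) + 1) ^ 2 := by
      rw [hbox, Finset.card_product, Int.card_Icc]
      have : (((2 * N : ℕ) : ℤ) + 1 - -((2 * N : ℕ) : ℤ)).toNat = 4 * N + 1 := by omega
      rw [this]
      push_cast
      ring
    calc (w.sum fun _ r => |r|) = ∑ m ∈ w.support, |w m| := rfl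
      _ ≤ ∑ m ∈ box, |w m| := Finset.sum_le_sum_of_subset_of_nonneg hsub (fun _ _ _ => abs_nonneg _)
      _ ≤ box.card • ((|(u.1 : ℝ)| + |(u.2 : ℝ)|) / (N : ℝ) ^ 2) := Finset.sum_le_card_nsmul _ _ _ (fun m _ => hsup m)
      _ = (4 * (N : ℝ) + 1) ^ 2 / (N : ℝ) ^ 2 * (|(u.1 : ℝ)| + |(u.2 : ℝ)|) := by rw [nsmul_eq_mul, hcard]; ring
      _ ≤ 25 * (|(u.1 : ℝ)| + |(u.2 : ℝ)|) := by
          apply mul_le_mul_of_nonneg_right _ (by positivity)
          rw [div_le_iff₀ (by positivity)]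
          have : (1 : ℝ) ≤ N := by exact_mod_cast hN
          nlinarith
  · intro m
    refine (hsup m).trans ?_
    rw [div_le_div_iff₀ (by positivity) (by positivity)]
    push_cast
    have : 0 ≤ (|(u.1 : ℝ)| + |(u.2 : ℝ)|) * (N : ℝ) ^ 2 := by positivity
    nlinarith

theorem Pl4In.pd {a : TV → ℝ} (h : Pl4In a) : Pl4Pd a := ⟨h.even, h.psd⟩

/-- **no tilt** -/
theorem pl4_notilt {a : TV → ℝ} (h : Pl4In a) (u : TV) : pl4Mu a (pl4B u) {0} = 0 := by
  obtain ⟨K, hK⟩ := pl4_tent_var h u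
  have key : ∀ N : ℕ, 1 ≤ N → |u.1| ≤ (N : ℤ) → |u.2| ≤ (N : ℤ) →
      ((N : ℝ) / 4) ^ 2 * (pl4Mu a (pl4B u)).real {0} ≤ K := by
    intro N hN h1 h2
    have h3 := pl4_atom_le h.pd (pl4Cx (pl4Z N)) u
    rw [← pl4Cx_tr, ← pl4Cx_sub, pl4Q_cx, Complex.ofReal_re, pl4Tot_cx, Complex.norm_real] at h3
    refine le_trans ?_ (h3.trans (hK N hN h1 h2))
    apply mul_le_mul_of_nonneg_right _ measureReal_nonneg
    have h4 := pl4Z_tot hN
    have h5 : (0 : ℝ) ≤ (N : ℝ) / 4 := by positivity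
    rw [Real.norm_eq_abs, sq_abs]
    exact pow_le_pow_left₀ h5 h4 2
  by_contra hne
  have hpos : 0 < (pl4Mu a (pl4B u)).real {0} := by
    rw [measureReal_def]
    exact ENNReal.toReal_pos hne (measure_ne_top _ _)
  set q := (pl4Mu a (pl4B u)).real {0} with hq
  obtain ⟨N, hN⟩ := exists_nat_gt (max (max (1 : ℝ) (|(u.1 : ℝ)| + |(u.2 : ℝ)|)) (16 * K / q + 1))
  have hN1 : (1 : ℝ) < N := lt_of_le_of_lt ((le_max_left _ _).trans (le_max_left _ _)) hN
  have hN2 : |(u.1 : ℝ)| + |(u.2 : ℝ)| < N := lt_of_le_of_lt ((le_max_right _ _).trans (le_max_left _ _)) hN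
  have hN3 : 16 * K / q + 1 < N := lt_of_le_of_lt (le_max_right _ _) hN
  have g1 : 1 ≤ N := by exact_mod_cast hN1.le
  have g2 : |u.1| ≤ (N : ℤ) := by
    have : |(u.1 : ℝ)| ≤ N := by linarith [abs_nonneg (u.2 : ℝ)]
    exact_mod_cast this
  have g3 : |u.2| ≤ (N : ℤ) := by
    have : |(u.2 : ℝ)| ≤ N := by linarith [abs_nonneg (u.1 : ℝ)]
    exact_mod_cast this
  have h6 := key N g1 g2 g3
  have h7 : 16 * K / q < N := by linarith
  rw [div_lt_iff₀ hpos] at h7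
  have h8 : (N : ℝ) * q ≤ (N : ℝ) ^ 2 * q := by
    apply mul_le_mul_of_nonneg_right _ hpos.le
    nlinarith
  nlinarith

/-! ## I. the spectral formula -/

theorem pl4C_W' {a : TV → ℝ} (h : Pl4In a) (u : TV) : (pl4C a).withDensity (pl4W u) = pl4Mu a (pl4B u) := by
  rw [pl4C_W h.pd]
  apply Measure.restrict_eq_self_of_ae_mem
  rw [ae_iff]
  simpa using pl4_notilt h u

theorem pl4C_fin {a : TV → ℝ} (h : Pl4In a) (u : TV) : ∫⁻ θ, pl4W u θ ∂(pl4C a) < ⊤ := by
  have := measure_lt_top (pl4Mu a (pl4B u)) Set.univ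
  rw [← pl4C_W' h, withDensity_apply _ MeasurableSet.univ, setLIntegral_univ] at this
  exact this

theorem pl4C_int_W {a : TV → ℝ} (h : Pl4In a) (u : TV) : Integrable (fun θ => ‖pl4Chi u θ - 1‖ ^ 2) (pl4C a) := by
  refine ⟨?_, ?_⟩
  · have : Continuous fun θ => ‖pl4Chi u θ - 1‖ ^ 2 := by fun_prop
    exact this.aestronglyMeasurable
  · have := pl4C_fin h u
    unfold HasFiniteIntegral
    refine lt_of_le_of_lt (le_of_eq ?_) this
    refine lintegral_congr fun θ => ?_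
    unfold pl4W
    rw [enorm_pow, enorm_norm]

theorem pl4Q_B (a : TV → ℝ) (ha : ∀ u, a (-u) = a u) (u : TV) :
    pl4Q (pl4K a) (pl4B u) (pl4B u) = ((a u - a 0 : ℝ) : ℂ) := by
  unfold pl4B
  rw [pl4Q_sub_left, pl4Q_sub_right, pl4Q_sub_right, pl4Q_single, pl4Q_single, pl4Q_single, pl4Q_single]
  unfold pl4K
  simp only [sub_self, zero_sub, sub_zero, ha]
  push_cast
  simp
  ring

/-- the variogram is the integral of `|χ_u - 1|²` -/
theorem pl4C_vario {a : TV → ℝ} (h : Pl4In a) (u : TV) : ∫ θ, ‖pl4Chi u θ - 1‖ ^ 2 ∂(pl4C a) = a u - a 0 := by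
  have h1 := pl4Mu_spec h.pd (pl4B_tot u) 0
  rw [pl4Tr_zero, pl4Q_B a h.even, ← pl4C_W' h,
    integral_withDensity_eq_integral_toReal_smul (pl4W_meas u) (Filter.Eventually.of_forall (pl4W_lt_top u))] at h1
  have e : ∀ θ, (pl4W u θ).toReal • pl4Chi 0 θ = ((‖pl4Chi u θ - 1‖ ^ 2 : ℝ) : ℂ) := by
    intro θ
    rw [pl4W_toReal, pl4Chi_zero]
    simp
  simp_rw [e] at h1
  have e1 : ∫ θ, ((‖pl4Chi u θ - 1‖ ^ 2 : ℝ) : ℂ) ∂(pl4C a) = ((∫ θ, ‖pl4Chi u θ - 1‖ ^ 2 ∂(pl4C a) : ℝ) : ℂ) := integral_ofReal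
  rw [e1] at h1
  exact_mod_cast h1

theorem pl4Hat_cont (b : TV →₀ ℝ) : Continuous (pl4Hat b) := by
  unfold pl4Hat Finsupp.sum
  fun_prop

/-- pointwise: `Re (conj b^ b'^) = -1/2 ∑∑ b_u b'_v |χ_{v-u} - 1|²` for zero-total arrays -/
theorem pl4Hat_re (b b' : TV →₀ ℝ) (hb : latTot b = 0) (θ : Pl4T) :
    (conj (pl4Hat b θ) * pl4Hat b' θ).re = -(1 / 2) * b.sum fun u r => b'.sum fun v t => r * t * ‖pl4Chi (v - u) θ - 1‖ ^ 2 := by
  have hb' : ∑ u ∈ b.support, (b u : ℂ) = 0 := by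
    have : ∑ u ∈ b.support, b u = 0 := hb
    exact_mod_cast this
  have e1 : ((-(1 / 2) * b.sum fun u r => b'.sum fun v t => r * t * ‖pl4Chi (v - u) θ - 1‖ ^ 2 : ℝ) : ℂ)
      = (conj (pl4Hat b θ) * pl4Hat b' θ + pl4Hat b θ * conj (pl4Hat b' θ)) / 2 := by
    have sq' : ∀ w : TV, ((‖pl4Chi w θ - 1‖ : ℝ) : ℂ) ^ 2 = 2 - pl4Chi w θ - pl4Chi (-w) θ := by
      intro w
      rw [← Complex.ofReal_pow]
      exact pl4Chi_sq w θ
    unfold pl4Hat Finsupp.sum
    push_cast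
    simp_rw [sq', neg_sub, pl4Chi_sub]
    simp only [map_sum, map_mul, Complex.conj_ofReal, Finset.sum_mul_sum]
    have e2 : ∀ u v : TV, (b u : ℂ) * (b' v : ℂ) * (2 - pl4Chi v θ * conj (pl4Chi u θ) - pl4Chi u θ * conj (pl4Chi v θ))
        = 2 * ((b u : ℂ) * (b' v : ℂ)) - (b u : ℂ) * conj (pl4Chi u θ) * ((b' v : ℂ) * pl4Chi v θ)
          - (b u : ℂ) * pl4Chi u θ * ((b' v : ℂ) * conj (pl4Chi v θ)) := by
      intro u v; ring
    simp_rw [e2, Finset.sum_sub_distrib, ← Finset.mul_sum, ← Finset.sum_mul]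
    rw [hb']
    ring
  have e3 : (conj (pl4Hat b θ) * pl4Hat b' θ + pl4Hat b θ * conj (pl4Hat b' θ)) / 2
      = (((conj (pl4Hat b θ) * pl4Hat b' θ).re : ℝ) : ℂ) := by
    have : pl4Hat b θ * conj (pl4Hat b' θ) = conj (conj (pl4Hat b θ) * pl4Hat b' θ) := by
      rw [map_mul, Complex.conj_conj]
    rw [this, Complex.add_conj]
    push_cast
    ring
  rw [e3] at e1
  exact_mod_cast e1.symm

theorem pl4C_int_re {a : TV → ℝ} (h : Pl4In a) (b b' : TV →₀ ℝ) (hb : latTot b = 0) :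
    Integrable (fun θ => (conj (pl4Hat b θ) * pl4Hat b' θ).re) (pl4C a) := by
  simp_rw [pl4Hat_re b b' hb]
  apply Integrable.const_mul
  unfold Finsupp.sum
  apply integrable_finsetSum
  intro u _
  apply integrable_finsetSum
  intro v _
  exact (pl4C_int_W h _).const_mul _

theorem pl4C_cov_re {a : TV → ℝ} (h : Pl4In a) (b b' : TV →₀ ℝ) (hb : latTot b = 0) :
    ∫ θ, (conj (pl4Hat b θ) * pl4Hat b' θ).re ∂(pl4C a) = pl4Cov a b b' := by
  simp_rw [pl4Hat_re b b' hb]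
  rw [integral_const_mul]
  unfold pl4Cov Finsupp.sum
  congr 1
  rw [integral_finsetSum]
  · have hb' : ∑ u ∈ b.support, b u = 0 := hb
    have e : ∀ u ∈ b.support, ∫ θ, ∑ v ∈ b'.support, b u * b' v * ‖pl4Chi (v - u) θ - 1‖ ^ 2 ∂(pl4C a)
        = ∑ v ∈ b'.support, b u * b' v * a (v - u) - b u * (a 0 * ∑ v ∈ b'.support, b' v) := by
      intro u _
      rw [integral_finsetSum]
      · simp_rw [integral_const_mul, pl4C_vario h, mul_sub, Finset.sum_sub_distrib]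
        congr 1
        rw [Finset.mul_sum, Finset.mul_sum]
        refine Finset.sum_congr rfl fun v _ => ?_
        ring
      · intro v _
        exact (pl4C_int_W h _).const_mul _
    rw [Finset.sum_congr rfl e, Finset.sum_sub_distrib, ← Finset.sum_mul, hb', zero_mul, sub_zero]
  · intro u _
    apply integrable_finsetSum
    intro v _
    exact (pl4C_int_W h _).const_mul _

/-! ## J. symmetry, the complex formula, existence -/

theorem pl4_map_withDensity {X : Type*} [MeasurableSpace X] (μ : Measure X) (g : X ≃ᵐ X) (f : X → ℝ≥0∞) (hf : Measurable f) :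
    (μ.withDensity (fun x => f (g x))).map g = (μ.map g).withDensity f := by
  ext s hs
  rw [Measure.map_apply g.measurable hs, withDensity_apply _ (g.measurable hs), withDensity_apply _ hs,
    setLIntegral_map hs hf g.measurable]

/-- the real increment array -/
noncomputable def pl4BR (u : TV) : TV →₀ ℝ := Finsupp.single u 1 - Finsupp.single 0 1

theorem pl4Cx_BR (u : TV) : pl4Cx (pl4BR u) = pl4B u := by
  unfold pl4BR pl4B
  rw [pl4Cx_sub]
  simp [pl4Cx]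

theorem pl4BR_tot (u : TV) : latTot (pl4BR u) = 0 := by
  have := pl4B_tot u
  rw [← pl4Cx_BR, pl4Tot_cx] at this
  exact_mod_cast this

theorem pl4_meas_neg : Measurable (fun θ : Pl4T => -θ) := continuous_neg.measurable

/-- `θ ↦ -θ` as a measurable equivalence -/
def pl4Neg : Pl4T ≃ᵐ Pl4T where
  toFun := fun θ => -θ
  invFun := fun θ => -θ
  left_inv := fun θ => neg_neg θ
  right_inv := fun θ => neg_neg θ
  measurable_toFun := pl4_meas_neg
  measurable_invFun := pl4_meas_neg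

theorem pl4Mu_symm {a : TV → ℝ} (h : Pl4Pd a) (u : TV) : (pl4Mu a (pl4B u)).map (fun θ => -θ) = pl4Mu a (pl4B u) := by
  have : IsFiniteMeasure ((pl4Mu a (pl4B u)).map (fun θ => -θ)) := Measure.isFiniteMeasure_map _ _
  apply pl4_ext
  intro n
  rw [integral_map pl4_meas_neg.aemeasurable (pl4Chi n).continuous.aestronglyMeasurable]
  simp_rw [pl4Chi_at_neg]
  rw [integral_conj, pl4Mu_spec h (pl4B_tot u), ← pl4Cx_BR, ← pl4Cx_tr, pl4Q_cx, Complex.conj_ofReal]

theorem pl4W_neg (u : TV) (θ : Pl4T) : pl4W u (-θ) = pl4W u θ := by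
  unfold pl4W
  rw [pl4Chi_at_neg]
  have : conj (pl4Chi u θ) - 1 = conj (pl4Chi u θ - 1) := by simp
  rw [this]
  congr 1
  rw [← ofReal_norm, ← ofReal_norm, RCLike.norm_conj]

theorem pl4H_neg (θ : Pl4T) : pl4H (-θ) = pl4H θ := by
  unfold pl4H pl4D
  rw [pl4W_neg, pl4W_neg]
  simp only [neg_eq_zero]

theorem pl4C_symm {a : TV → ℝ} (h : Pl4Pd a) : (pl4C a).map (fun θ => -θ) = pl4C a := by
  unfold pl4C
  have e : pl4H = fun θ => pl4H (pl4Neg θ) := by
    funext θ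
    exact (pl4H_neg θ).symm
  have h1 := pl4_map_withDensity (pl4Mu a (pl4B (1, 0)) + pl4Mu a (pl4B (0, 1))) pl4Neg pl4H pl4H_meas
  rw [← e] at h1
  have h2 : (pl4Mu a (pl4B (1, 0)) + pl4Mu a (pl4B (0, 1))).map pl4Neg = pl4Mu a (pl4B (1, 0)) + pl4Mu a (pl4B (0, 1)) := by
    rw [Measure.map_add _ _ pl4Neg.measurable]
    congr 1
    · exact pl4Mu_symm h _
    · exact pl4Mu_symm h _
  rw [h2] at h1
  exact h1

theorem pl4Hat_neg (b : TV →₀ ℝ) (θ : Pl4T) : pl4Hat b (-θ) = conj (pl4Hat b θ) := by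
  unfold pl4Hat Finsupp.sum
  simp [pl4Chi_at_neg]

/-- abstract: under a symmetric measure the imaginary part of `conj b^ b'^` integrates to zero -/
theorem pl4_im_zero {C : Measure Pl4T} (hC : C.map (fun θ => -θ) = C) (b b' : TV →₀ ℝ) :
    ∫ θ, (conj (pl4Hat b θ) * pl4Hat b' θ).im ∂C = 0 := by
  have hc : Continuous fun θ => (conj (pl4Hat b θ) * pl4Hat b' θ).im := by
    have h1 := pl4Hat_cont b
    have h2 := pl4Hat_cont b'
    fun_prop
  have h1 : ∫ θ, (conj (pl4Hat b θ) * pl4Hat b' θ).im ∂(C.map (fun θ => -θ))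
      = ∫ θ, (conj (pl4Hat b (-θ)) * pl4Hat b' (-θ)).im ∂C :=
    integral_map pl4_meas_neg.aemeasurable hc.aestronglyMeasurable
  rw [hC] at h1
  have e : ∀ θ, (conj (pl4Hat b (-θ)) * pl4Hat b' (-θ)).im = -(conj (pl4Hat b θ) * pl4Hat b' θ).im := by
    intro θ
    rw [pl4Hat_neg, pl4Hat_neg, ← map_mul, Complex.conj_im]
  simp_rw [e] at h1
  rw [integral_neg] at h1
  linarith

theorem pl4C_int {a : TV → ℝ} (h : Pl4In a) (b b' : TV →₀ ℝ) (hb : latTot b = 0) (hb' : latTot b' = 0) :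
    Integrable (fun θ => conj (pl4Hat b θ) * pl4Hat b' θ) (pl4C a) := by
  have h1 := pl4C_int_re h b b hb
  have h2 := pl4C_int_re h b' b' hb'
  have hc : Continuous fun θ => conj (pl4Hat b θ) * pl4Hat b' θ := by
    have h1 := pl4Hat_cont b
    have h2 := pl4Hat_cont b'
    fun_prop
  refine Integrable.mono' ((h1.add h2).const_mul (1 / 2)) hc.aestronglyMeasurable (Filter.Eventually.of_forall fun θ => ?_)
  have e : ∀ z : ℂ, (conj z * z).re = ‖z‖ ^ 2 := by
    intro z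
    rw [mul_comm, Complex.mul_conj, Complex.ofReal_re, Complex.normSq_eq_norm_sq]
  simp only [Pi.add_apply]
  rw [e, e, norm_mul, RCLike.norm_conj]
  nlinarith [sq_nonneg (‖pl4Hat b θ‖ - ‖pl4Hat b' θ‖)]

theorem pl4C_cov {a : TV → ℝ} (h : Pl4In a) (b b' : TV →₀ ℝ) (hb : latTot b = 0) (hb' : latTot b' = 0) :
    ∫ θ, conj (pl4Hat b θ) * pl4Hat b' θ ∂(pl4C a) = (pl4Cov a b b' : ℂ) := by
  have h1 := integral_re_add_im (pl4C_int h b b' hb hb')
  have h2 := pl4C_cov_re h b b' hb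
  have h3 := pl4_im_zero (pl4C_symm h.pd) b b'
  rw [← h1]
  simp only [RCLike.re_to_complex, RCLike.im_to_complex]
  rw [h2, h3]
  simp

/-- TEX[plane:lem:spectrum]: existence, no tilt -/
theorem pl4_spec_C {a : TV → ℝ} (h : Pl4In a) : Pl4Spec a (pl4C a) where
  zero := pl4C_zero a
  fin := pl4C_fin h
  symm := pl4C_symm h.pd
  int := pl4C_int h
  cov := pl4C_cov h

end Claimed.Agent.R291
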