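import Mathlib
import Claimed.Agent.R291.Pln.CovA
import Claimed.Agent.R291.Spec.Box

/-!
# R291 / PLN, box B1, part B : uniqueness, lattice symmetries, annuli          OWNER: helper179 (unit head: helper94)

TEX[04-plane: plane:lem:spectrum (symmetries), plane:eq:annuli]
-/

set_option autoImplicit false

namespace Claimed.Agent.R291

open MeasureTheory Claims Claims.C0467
open scoped ComplexConjugate ENNReal

/-! ## K. transforms of translated / transported arrays -/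

theorem pl4Hat_BR (u : TV) (θ : Pl4T) : pl4Hat (pl4BR u) θ = pl4Chi u θ - 1 := by
  unfold pl4Hat pl4BR
  rw [Finsupp.sum_sub_index (by intros; push_cast; ring), Finsupp.sum_single_index (by simp),
    Finsupp.sum_single_index (by simp), pl4Chi_zero]
  simp

theorem pl4Hat_map (f : TV → TV) (b : TV →₀ ℝ) (θ : Pl4T) :
    pl4Hat (b.mapDomain f) θ = b.sum fun u r => (r : ℂ) * pl4Chi (f u) θ := by
  unfold pl4Hat
  rw [Finsupp.sum_mapDomain_index (by simp) (by intros; push_cast; ring)]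

theorem pl4Hat_tr (w : TV) (b : TV →₀ ℝ) (θ : Pl4T) : pl4Hat (pl4TrR w b) θ = pl4Chi w θ * pl4Hat b θ := by
  unfold pl4TrR
  rw [pl4Hat_map]
  unfold pl4Hat
  rw [Finsupp.mul_sum]
  refine Finsupp.sum_congr fun u _ => ?_
  rw [pl4Chi_add]
  ring

theorem pl4Hat_sub (b b' : TV →₀ ℝ) (θ : Pl4T) : pl4Hat (b - b') θ = pl4Hat b θ - pl4Hat b' θ := by
  unfold pl4Hat
  exact Finsupp.sum_sub_index (by intros; push_cast; ring)

theorem pl4_latTot_map (f : TV → TV) (b : TV →₀ ℝ) : latTot (b.mapDomain f) = latTot b := by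
  unfold latTot
  rw [Finsupp.sum_mapDomain_index (by simp) (by simp)]

theorem pl4Cov_map (a : TV → ℝ) (f : TV → TV) (b b' : TV →₀ ℝ) :
    pl4Cov a (b.mapDomain f) (b'.mapDomain f) = -(1 / 2) * b.sum fun u r => b'.sum fun v t => r * t * a (f v - f u) := by
  unfold pl4Cov
  rw [Finsupp.sum_mapDomain_index (by simp) (by
    intro p u u'
    simp only [Finsupp.sum, add_mul, Finset.sum_add_distrib])]
  congr 1
  refine Finsupp.sum_congr fun p _ => ?_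
  rw [Finsupp.sum_mapDomain_index (by simp) (by intros; ring)]

/-! ## L. uniqueness -/

theorem Pl4Spec.wd_fin {a : TV → ℝ} {C : Measure Pl4T} (h : Pl4Spec a C) (u : TV) :
    IsFiniteMeasure (C.withDensity (pl4W u)) :=
  isFiniteMeasure_withDensity (h.fin u).ne

theorem Pl4Spec.wd_coeff {a : TV → ℝ} {C : Measure Pl4T} (h : Pl4Spec a C) (u n : TV) :
    ∫ θ, pl4Chi n θ ∂(C.withDensity (pl4W u)) = (pl4Cov a (pl4BR u) (pl4TrR n (pl4BR u)) : ℂ) := by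
  rw [integral_withDensity_eq_integral_toReal_smul (pl4W_meas u) (Filter.Eventually.of_forall (pl4W_lt_top u)),
    ← h.cov _ _ (pl4BR_tot u) (by rw [pl4_latTot_tr, pl4BR_tot])]
  refine integral_congr_ae (Filter.Eventually.of_forall fun θ => ?_)
  simp only
  rw [pl4W_toReal, pl4Hat_tr, pl4Hat_BR, Complex.real_smul, ← Complex.normSq_eq_norm_sq, ← Complex.mul_conj]
  ring

theorem pl4_wd_D (C : Measure Pl4T) (h0 : C {0} = 0) :
    (C.withDensity (pl4W (1, 0)) + C.withDensity (pl4W (0, 1))).withDensity pl4H = C := by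
  rw [← withDensity_add_left (pl4W_meas _), ← withDensity_mul _ ((pl4W_meas _).add (pl4W_meas _)) pl4H_meas]
  have : (pl4W (1, 0) + pl4W (0, 1)) * pl4H = Set.indicator ({0}ᶜ : Set Pl4T) 1 := pl4D_mul_H
  rw [this, withDensity_indicator_one (measurableSet_singleton 0).compl]
  apply Measure.restrict_eq_self_of_ae_mem
  rw [ae_iff]
  simpa using h0

theorem pl4_spec_unique' {a : TV → ℝ} {C C' : Measure Pl4T} (h : Pl4Spec a C) (h' : Pl4Spec a C') : C = C' := by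
  have key : ∀ u, C.withDensity (pl4W u) = C'.withDensity (pl4W u) := by
    intro u
    have := h.wd_fin u
    have := h'.wd_fin u
    apply pl4_ext
    intro n
    rw [h.wd_coeff, h'.wd_coeff]
  rw [← pl4_wd_D C h.zero, ← pl4_wd_D C' h'.zero, key, key]

/-! ## M. lattice symmetries -/

theorem pl4Chi_sep {θ θ' : Pl4T} (h : ∀ u, pl4Chi u θ = pl4Chi u θ') : θ = θ' := by
  have h1 := h (1, 0)
  have h2 := h (0, 1)
  rw [pl4Chi_e1, pl4Chi_e1] at h1
  rw [pl4Chi_e2, pl4Chi_e2] at h2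
  funext i
  fin_cases i
  · exact AddCircle.injective_toCircle one_ne_zero (Circle.ext h1)
  · exact AddCircle.injective_toCircle one_ne_zero (Circle.ext h2)

theorem pl4_spec_map {a : TV → ℝ} {C : Measure Pl4T} (h : Pl4Spec a C) (A : TV ≃+ TV) (B : Pl4T ≃ᵐ Pl4T)
    (hB0 : B 0 = 0) (hAB : ∀ u θ, pl4Chi (A u) θ = pl4Chi u (B θ)) (ha : ∀ u, a (A u) = a u) : Pl4Spec a (C.map B) := by
  have hhat : ∀ (b : TV →₀ ℝ) θ, pl4Hat b (B θ) = pl4Hat (b.mapDomain A) θ := by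
    intro b θ
    rw [pl4Hat_map]
    unfold pl4Hat
    refine Finsupp.sum_congr fun u _ => ?_
    rw [hAB]
  have hneg : ∀ θ, B (-θ) = -B θ := by
    intro θ
    apply pl4Chi_sep
    intro u
    rw [← hAB, pl4Chi_at_neg, pl4Chi_at_neg, hAB]
  refine ⟨?_, ?_, ?_, ?_, ?_⟩
  · rw [Measure.map_apply B.measurable (measurableSet_singleton 0)]
    have : B ⁻¹' {0} = {0} := by
      ext θ
      simp only [Set.mem_preimage, Set.mem_singleton_iff]
      constructor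
      · intro hθ
        apply B.injective
        rw [hθ, hB0]
      · rintro rfl
        exact hB0
    rw [this, h.zero]
  · intro u
    have hm : Measurable fun θ => ‖pl4Chi u θ - 1‖ₑ ^ 2 := pl4W_meas u
    rw [lintegral_map hm B.measurable]
    simp_rw [← hAB]
    exact h.fin (A u)
  · rw [Measure.map_map pl4_meas_neg B.measurable]
    have e : (fun θ : Pl4T => -θ) ∘ B = B ∘ fun θ => -θ := by
      funext θ
      simp only [Function.comp]
      rw [hneg]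
    rw [e, ← Measure.map_map B.measurable pl4_meas_neg, h.symm]
  · intro b b' hb hb'
    rw [integrable_map_equiv]
    have := h.int (b.mapDomain A) (b'.mapDomain A) (by rw [pl4_latTot_map, hb]) (by rw [pl4_latTot_map, hb'])
    refine this.congr (Filter.Eventually.of_forall fun θ => ?_)
    simp only [Function.comp]
    rw [hhat, hhat]
  · intro b b' hb hb'
    rw [integral_map_equiv]
    simp_rw [hhat]
    rw [h.cov (b.mapDomain A) (b'.mapDomain A) (by rw [pl4_latTot_map, hb]) (by rw [pl4_latTot_map, hb']), pl4Cov_map]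
    simp_rw [← map_sub, ha]
    rfl

theorem pl4_spec_inv' {a : TV → ℝ} {C : Measure Pl4T} (h : Pl4Spec a C) (A : TV ≃+ TV) (B : Pl4T ≃ᵐ Pl4T)
    (hB0 : B 0 = 0) (hAB : ∀ u θ, pl4Chi (A u) θ = pl4Chi u (B θ)) (ha : ∀ u, a (A u) = a u) : C.map B = C :=
  pl4_spec_unique' (pl4_spec_map h A B hB0 hAB ha) h

/-! ## N. annuli -/

theorem pl4Chi_box (u : TV) (θ : Pl4T) :
    pl4Chi u θ = Complex.exp (Complex.I * (((u.1 : ℝ) * (gspB2 θ).1 + (u.2 : ℝ) * (gspB2 θ).2 : ℝ) : ℂ)) := by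
  unfold pl4Chi
  rw [gsp_mFourier_B2]
  congr 2
  push_cast
  simp

theorem pl4_exp_sub_one_ge {x : ℝ} (hx : |x| ≤ Real.pi) : 2 / Real.pi * |x| ≤ ‖Complex.exp (Complex.I * (x : ℂ)) - 1‖ := by
  rw [Complex.norm_exp_I_mul_ofReal_sub_one, Real.norm_eq_abs, abs_mul]
  have h1 : |x / 2| ≤ Real.pi / 2 := by
    rw [abs_div]; simp only [Nat.abs_ofNat]; linarith
  have h2 := Real.mul_abs_le_abs_sin h1
  rw [abs_div] at h2
  simp only [Nat.abs_ofNat] at h2 ⊢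
  have hpi := Real.pi_pos
  have e : 2 / Real.pi * |x| = 2 * (2 / Real.pi * (|x| / 2)) := by ring
  rw [e]
  linarith

theorem pl4Chi_e1_ge (θ : Pl4T) : 2 / Real.pi * |(gspB2 θ).1| ≤ ‖pl4Chi (1, 0) θ - 1‖ := by
  rw [pl4Chi_box]
  have h := (gspB2_mem θ).1
  have := pl4_exp_sub_one_ge (x := (gspB2 θ).1) (abs_le.2 ⟨h.1.le, h.2⟩)
  simpa using this

theorem pl4Chi_e2_ge (θ : Pl4T) : 2 / Real.pi * |(gspB2 θ).2| ≤ ‖pl4Chi (0, 1) θ - 1‖ := by
  rw [pl4Chi_box]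
  have h := (gspB2_mem θ).2
  have := pl4_exp_sub_one_ge (x := (gspB2 θ).2) (abs_le.2 ⟨h.1.le, h.2⟩)
  simpa using this

theorem pl4Chi_re_ge (u : TV) (θ : Pl4T) (h : |(u.1 : ℝ) * (gspB2 θ).1 + (u.2 : ℝ) * (gspB2 θ).2| ≤ Real.pi / 3) :
    1 / 2 ≤ (pl4Chi u θ).re := by
  rw [pl4Chi_box, mul_comm, Complex.exp_ofReal_mul_I_re, ← Real.cos_abs, ← Real.cos_pi_div_three]
  exact Real.cos_le_cos_of_nonneg_of_le_pi (abs_nonneg _) (by linarith [Real.pi_pos]) h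

theorem pl4Hat_ge (z : TV →₀ ℝ) (hz : ∀ m, 0 ≤ z m) (θ : Pl4T) (h : ∀ m ∈ z.support, 1 / 2 ≤ (pl4Chi m θ).re) :
    latTot z / 2 ≤ ‖pl4Hat z θ‖ := by
  refine le_trans ?_ (Complex.re_le_norm _)
  unfold pl4Hat latTot Finsupp.sum
  rw [Complex.re_sum, Finset.sum_div]
  refine Finset.sum_le_sum fun m hm => ?_
  rw [Complex.re_ofReal_mul]
  have := h m hm
  nlinarith [hz m]

theorem Pl4Spec.int_sq {a : TV → ℝ} {C : Measure Pl4T} (h : Pl4Spec a C) (b : TV →₀ ℝ) (hb : latTot b = 0) :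
    Integrable (fun θ => ‖pl4Hat b θ‖ ^ 2) C := by
  have h1 := (h.int b b hb hb).re
  refine h1.congr (Filter.Eventually.of_forall fun θ => ?_)
  simp only [RCLike.re_to_complex]
  rw [mul_comm, Complex.mul_conj, Complex.ofReal_re, Complex.normSq_eq_norm_sq]

theorem Pl4Spec.var {a : TV → ℝ} {C : Measure Pl4T} (h : Pl4Spec a C) (b : TV →₀ ℝ) (hb : latTot b = 0) :
    ∫ θ, ‖pl4Hat b θ‖ ^ 2 ∂C = pl4Cov a b b := by
  have h1 := h.cov b b hb hb
  have e : ∀ θ, conj (pl4Hat b θ) * pl4Hat b θ = ((‖pl4Hat b θ‖ ^ 2 : ℝ) : ℂ) := by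
    intro θ
    rw [mul_comm, Complex.mul_conj, Complex.normSq_eq_norm_sq]
  simp_rw [e] at h1
  have e1 : ∫ θ, ((‖pl4Hat b θ‖ ^ 2 : ℝ) : ℂ) ∂C = ((∫ θ, ‖pl4Hat b θ‖ ^ 2 ∂C : ℝ) : ℂ) := integral_ofReal
  rw [e1] at h1
  exact_mod_cast h1

/-- TEX[plane:eq:annuli] in the box chart `x = gspB2 θ ∈ (-π, π]²` -/
theorem pl4_ann' {a : TV → ℝ} (h : Pl4In a) {C : Measure Pl4T} (hC : Pl4Spec a C) :
    ∃ K : ℝ≥0∞, K < ⊤ ∧ ∀ ρ : ℝ, 0 < ρ → ρ ≤ Real.pi / 24 →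
      C {θ | ρ ≤ max |(gspB2 θ).1| |(gspB2 θ).2| ∧ max |(gspB2 θ).1| |(gspB2 θ).2| ≤ 4 * ρ} ≤ K := by
  obtain ⟨K1, hK1⟩ := pl4_tent_var h (1, 0)
  obtain ⟨K2, hK2⟩ := pl4_tent_var h (0, 1)
  have hpi := Real.pi_pos
  refine ⟨ENNReal.ofReal (K1 + K2) / ENNReal.ofReal (1 / 36864), ?_, fun ρ hρ hρ' => ?_⟩
  · exact ENNReal.div_lt_top ENNReal.ofReal_ne_top (by simp)
  set N := ⌊Real.pi / (24 * ρ)⌋₊ with hN
  have hx1 : 1 ≤ Real.pi / (24 * ρ) := by rw [le_div_iff₀ (by positivity)]; linarith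
  have hN1 : 1 ≤ N := Nat.le_floor (by exact_mod_cast hx1)
  have hNle : (N : ℝ) ≤ Real.pi / (24 * ρ) := Nat.floor_le (by positivity)
  have hNge : Real.pi / (48 * ρ) ≤ N := by
    have h1 : Real.pi / (24 * ρ) < N + 1 := Nat.lt_floor_add_one _
    have h2 : (1 : ℝ) ≤ N := by exact_mod_cast hN1
    have e : Real.pi / (48 * ρ) = Real.pi / (24 * ρ) / 2 := by field_simp; ring
    rw [e]; linarith
  set w1 := pl4TrR (1, 0) (pl4Z N) - pl4Z N with hw1
  set w2 := pl4TrR (0, 1) (pl4Z N) - pl4Z N with hw2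
  have t1 : latTot w1 = 0 := by rw [hw1, pl4_latTot_sub, pl4_latTot_tr, sub_self]
  have t2 : latTot w2 = 0 := by rw [hw2, pl4_latTot_sub, pl4_latTot_tr, sub_self]
  have v1 : pl4Cov a w1 w1 ≤ K1 := hK1 N hN1 (by simpa using hN1) (by simp)
  have v2 : pl4Cov a w2 w2 ≤ K2 := hK2 N hN1 (by simp) (by simpa using hN1)
  set f : Pl4T → ℝ := fun θ => ‖pl4Hat w1 θ‖ ^ 2 + ‖pl4Hat w2 θ‖ ^ 2 with hf
  have hfint : Integrable f C := (hC.int_sq w1 t1).add (hC.int_sq w2 t2)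
  have hf0 : ∀ θ, 0 ≤ f θ := fun θ => by positivity
  have hfI : ∫ θ, f θ ∂C ≤ K1 + K2 := by
    rw [hf, integral_add (hC.int_sq w1 t1) (hC.int_sq w2 t2), hC.var w1 t1, hC.var w2 t2]
    exact add_le_add v1 v2
  have hsub : {θ | ρ ≤ max |(gspB2 θ).1| |(gspB2 θ).2| ∧ max |(gspB2 θ).1| |(gspB2 θ).2| ≤ 4 * ρ}
      ⊆ {θ | ENNReal.ofReal (1 / 36864) ≤ ENNReal.ofReal (f θ)} := by
    intro θ hθ
    obtain ⟨hlo, hhi⟩ := hθ
    apply ENNReal.ofReal_le_ofReal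
    set x := gspB2 θ with hx
    have hx1 : |x.1| ≤ 4 * ρ := (le_max_left _ _).trans hhi
    have hx2 : |x.2| ≤ 4 * ρ := (le_max_right _ _).trans hhi
    -- lower bound of the transform of the tent
    have hz : (N : ℝ) / 8 ≤ ‖pl4Hat (pl4Z N) θ‖ := by
      refine le_trans ?_ (pl4Hat_ge (pl4Z N) (pl4Z_nonneg N) θ fun m hm => ?_)
      · have := pl4Z_tot hN1
        linarith
      · apply pl4Chi_re_ge
        have hm' := pl4Z_supp (Finsupp.mem_support_iff.1 hm)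
        have m1 : |(m.1 : ℝ)| ≤ N := by exact_mod_cast hm'.1
        have m2 : |(m.2 : ℝ)| ≤ N := by exact_mod_cast hm'.2
        have hNρ : (N : ℝ) * (4 * ρ) ≤ Real.pi / 6 := by
          calc (N : ℝ) * (4 * ρ) ≤ Real.pi / (24 * ρ) * (4 * ρ) := mul_le_mul_of_nonneg_right hNle (by positivity)
            _ = Real.pi / 6 := by field_simp; ring
        calc |(m.1 : ℝ) * x.1 + (m.2 : ℝ) * x.2| ≤ |(m.1 : ℝ) * x.1| + |(m.2 : ℝ) * x.2| := abs_add_le _ _
          _ = |(m.1 : ℝ)| * |x.1| + |(m.2 : ℝ)| * |x.2| := by rw [abs_mul, abs_mul]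
          _ ≤ (N : ℝ) * (4 * ρ) + (N : ℝ) * (4 * ρ) :=
              add_le_add (mul_le_mul m1 hx1 (abs_nonneg _) (by positivity)) (mul_le_mul m2 hx2 (abs_nonneg _) (by positivity))
          _ ≤ Real.pi / 3 := by linarith
    have e1 : ‖pl4Hat w1 θ‖ = ‖pl4Chi (1, 0) θ - 1‖ * ‖pl4Hat (pl4Z N) θ‖ := by
      rw [hw1, pl4Hat_sub, pl4Hat_tr, ← norm_mul]; congr 1; ring
    have e2 : ‖pl4Hat w2 θ‖ = ‖pl4Chi (0, 1) θ - 1‖ * ‖pl4Hat (pl4Z N) θ‖ := by
      rw [hw2, pl4Hat_sub, pl4Hat_tr, ← norm_mul]; congr 1; ring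
    have g1 := pl4Chi_e1_ge θ
    have g2 := pl4Chi_e2_ge θ
    rw [← hx] at g1 g2
    have hmax : (2 / Real.pi * ρ) ^ 2 ≤ ‖pl4Chi (1, 0) θ - 1‖ ^ 2 + ‖pl4Chi (0, 1) θ - 1‖ ^ 2 := by
      have h2pi : 0 ≤ 2 / Real.pi := by positivity
      rcases le_max_iff.1 hlo with h3 | h3
      · have : 2 / Real.pi * ρ ≤ ‖pl4Chi (1, 0) θ - 1‖ := (mul_le_mul_of_nonneg_left h3 h2pi).trans g1
        have := pow_le_pow_left₀ (by positivity) this 2
        nlinarith [sq_nonneg ‖pl4Chi (0, 1) θ - 1‖]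
      · have : 2 / Real.pi * ρ ≤ ‖pl4Chi (0, 1) θ - 1‖ := (mul_le_mul_of_nonneg_left h3 h2pi).trans g2
        have := pow_le_pow_left₀ (by positivity) this 2
        nlinarith [sq_nonneg ‖pl4Chi (1, 0) θ - 1‖]
    have hz2 : ((N : ℝ) / 8) ^ 2 ≤ ‖pl4Hat (pl4Z N) θ‖ ^ 2 := pow_le_pow_left₀ (by positivity) hz 2
    have hNρ2 : 1 / 48 ≤ (N : ℝ) * ρ / Real.pi := by
      rw [le_div_iff₀ hpi]
      have := mul_le_mul_of_nonneg_right hNge hρ.le
      have e : Real.pi / (48 * ρ) * ρ = 1 / 48 * Real.pi := by field_simp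
      rw [e] at this
      exact this
    show 1 / 36864 ≤ ‖pl4Hat w1 θ‖ ^ 2 + ‖pl4Hat w2 θ‖ ^ 2
    rw [e1, e2, mul_pow, mul_pow, ← add_mul]
    calc (1 : ℝ) / 36864 = (2 * (1 / 48)) ^ 2 * (1 / 8) ^ 2 := by norm_num
      _ ≤ (2 * ((N : ℝ) * ρ / Real.pi)) ^ 2 * (1 / 8) ^ 2 := by gcongr
      _ = (2 / Real.pi * ρ) ^ 2 * ((N : ℝ) / 8) ^ 2 := by ring
      _ ≤ _ := mul_le_mul hmax hz2 (by positivity) (by positivity)
  refine (measure_mono hsub).trans ?_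
  have hcont : Continuous f := by
    have c1 := pl4Hat_cont w1
    have c2 := pl4Hat_cont w2
    fun_prop
  refine (meas_ge_le_lintegral_div (hcont.measurable.ennreal_ofReal.aemeasurable) (by simp) ENNReal.ofReal_ne_top).trans ?_
  apply ENNReal.div_le_div_right
  rw [← ofReal_integral_eq_lintegral_ofReal hfint (Filter.Eventually.of_forall hf0)]
  exact ENNReal.ofReal_le_ofReal hfI

end Claimed.Agent.R291
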