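import Mathlib
import Claimed.Agent.R291.Pln.CovB

/-!
# R291 / PLN, box B1, part C : physical frequencies          OWNER: helper179 (unit head: helper94)

TEX[04-plane: plane:lem:spectrum, plane:eq:annuli] in the chart `p = (k,l) : ℝ × ℝ`, phase `p · triPos 1 u`.
`pl4Phi θ` = the physical frequency of `θ` in the fundamental cell, `pl4Psi p` = the point of the torus of frequency `p`.
-/

set_option autoImplicit false

namespace Claimed.Agent.R291

open MeasureTheory Claims Claims.C0467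
open scoped ComplexConjugate ENNReal

/-! ## O. definitions of the physical contract -/

/-- the phase `p · (u.1 e₁ + u.2 e₂)` -/
noncomputable def pl4Ph (p : ℝ × ℝ) (u : TV) : ℝ := p.1 * (triPos 1 u).1 + p.2 * (triPos 1 u).2

/-- lattice transform of a real array at the physical frequency `p` -/
noncomputable def pl4HatP (b : TV →₀ ℝ) (p : ℝ × ℝ) : ℂ :=
  b.sum fun u r => (r : ℂ) * Complex.exp (Complex.I * (pl4Ph p u : ℂ))

/-- rotation of the frequency plane by `π/3` -/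
noncomputable def pl4Rot (p : ℝ × ℝ) : ℝ × ℝ := (p.1 / 2 - Real.sqrt 3 / 2 * p.2, Real.sqrt 3 / 2 * p.1 + p.2 / 2)

/-- rotation by `-π/3` -/
noncomputable def pl4RotI (p : ℝ × ℝ) : ℝ × ℝ := (p.1 / 2 + Real.sqrt 3 / 2 * p.2, -(Real.sqrt 3 / 2 * p.1) + p.2 / 2)

/-- the physical frequency of a point of the torus -/
noncomputable def pl4Phi (θ : Pl4T) : ℝ × ℝ := ((gspB2 θ).1, (2 * (gspB2 θ).2 - (gspB2 θ).1) / Real.sqrt 3)

/-- the point of the torus of physical frequency `p` -/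
noncomputable def pl4Psi (p : ℝ × ℝ) : Pl4T := gspU2 (pl4Ph p (1, 0), pl4Ph p (0, 1))

theorem pl4_sqrt3 : Real.sqrt 3 * Real.sqrt 3 = 3 := Real.mul_self_sqrt (by norm_num)

theorem pl4_sqrt3_pos : 0 < Real.sqrt 3 := Real.sqrt_pos.2 (by norm_num)

theorem pl4Ph_eq (p : ℝ × ℝ) (u : TV) : pl4Ph p u = p.1 * ((u.1 : ℝ) + (u.2 : ℝ) / 2) + p.2 * ((u.2 : ℝ) * Real.sqrt 3 / 2) := by
  unfold pl4Ph triPos
  simp

theorem pl4Ph_lin (p : ℝ × ℝ) (u : TV) : pl4Ph p u = (u.1 : ℝ) * pl4Ph p (1, 0) + (u.2 : ℝ) * pl4Ph p (0, 1) := by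
  simp only [pl4Ph_eq]
  push_cast
  ring

theorem pl4Ph_Phi (θ : Pl4T) (u : TV) : pl4Ph (pl4Phi θ) u = (u.1 : ℝ) * (gspB2 θ).1 + (u.2 : ℝ) * (gspB2 θ).2 := by
  rw [pl4Ph_eq]
  unfold pl4Phi
  have h := pl4_sqrt3
  have hp := pl4_sqrt3_pos
  field_simp
  ring

theorem pl4Phi_meas : Measurable pl4Phi := by
  unfold pl4Phi
  have h1 : Measurable fun θ => (gspB2 θ).1 := gspB2_measurable.fst
  have h2 : Measurable fun θ => (gspB2 θ).2 := gspB2_measurable.snd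
  exact h1.prodMk (((h2.const_mul 2).sub h1).div_const _)

theorem pl4Ph_cont (u : TV) : Continuous fun p : ℝ × ℝ => pl4Ph p u := by
  unfold pl4Ph
  fun_prop

theorem pl4HatP_cont (b : TV →₀ ℝ) : Continuous (pl4HatP b) := by
  unfold pl4HatP Finsupp.sum
  have := pl4Ph_cont
  fun_prop

theorem pl4Chi_Phi (u : TV) (θ : Pl4T) : Complex.exp (Complex.I * (pl4Ph (pl4Phi θ) u : ℂ)) = pl4Chi u θ := by
  rw [pl4Chi_box, pl4Ph_Phi]

theorem pl4HatP_Phi (b : TV →₀ ℝ) (θ : Pl4T) : pl4HatP b (pl4Phi θ) = pl4Hat b θ := by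
  unfold pl4HatP pl4Hat
  simp_rw [pl4Chi_Phi]

theorem pl4Psi_Phi (θ : Pl4T) : pl4Psi (pl4Phi θ) = θ := by
  unfold pl4Psi
  rw [pl4Ph_Phi, pl4Ph_Phi]
  simp only [Int.cast_one, one_mul, Int.cast_zero, zero_mul, add_zero, zero_add]
  exact gspU2_B2 θ

theorem pl4_Ph_e1_sq (p : ℝ × ℝ) : pl4Ph p (1, 0) ^ 2 ≤ p.1 ^ 2 + p.2 ^ 2 := by
  rw [pl4Ph_eq]
  simp only [Int.cast_one, Int.cast_zero]
  nlinarith [sq_nonneg p.2]

theorem pl4_Ph_e2_sq (p : ℝ × ℝ) : pl4Ph p (0, 1) ^ 2 ≤ p.1 ^ 2 + p.2 ^ 2 := by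
  rw [pl4Ph_eq]
  simp only [Int.cast_one, Int.cast_zero]
  have h := pl4_sqrt3
  nlinarith [sq_nonneg (p.1 * Real.sqrt 3 / 2 - p.2 / 2)]

theorem pl4Phi_Psi {p : ℝ × ℝ} (hp : p.1 ^ 2 + p.2 ^ 2 < Real.pi ^ 2) : pl4Phi (pl4Psi p) = p := by
  have hpi := Real.pi_pos
  have h1 : |pl4Ph p (1, 0)| < Real.pi := abs_lt_of_sq_lt_sq (lt_of_le_of_lt (pl4_Ph_e1_sq p) hp) hpi.le
  have h2 : |pl4Ph p (0, 1)| < Real.pi := abs_lt_of_sq_lt_sq (lt_of_le_of_lt (pl4_Ph_e2_sq p) hp) hpi.le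
  rw [abs_lt] at h1 h2
  unfold pl4Phi pl4Psi
  rw [gspB2_U2 ⟨⟨h1.1, h1.2.le⟩, ⟨h2.1, h2.2.le⟩⟩]
  simp only [pl4Ph_eq, Int.cast_one, Int.cast_zero]
  have h := pl4_sqrt3
  have hs := pl4_sqrt3_pos
  apply Prod.ext
  · simp
  · simp only
    field_simp
    ring

theorem pl4Phi_sq (θ : Pl4T) : (pl4Phi θ).1 ^ 2 + (pl4Phi θ).2 ^ 2
    = 4 / 3 * ((gspB2 θ).1 ^ 2 - (gspB2 θ).1 * (gspB2 θ).2 + (gspB2 θ).2 ^ 2) := by
  unfold pl4Phi
  have h := pl4_sqrt3
  have hs := pl4_sqrt3_pos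
  simp only
  rw [div_pow, Real.sq_sqrt (by norm_num)]
  ring

theorem pl4Phi_eq_zero {θ : Pl4T} : pl4Phi θ = 0 ↔ θ = 0 := by
  constructor
  · intro h
    have := pl4Psi_Phi θ
    rw [h] at this
    rw [← this]
    unfold pl4Psi
    funext i
    fin_cases i <;> simp [pl4Ph, gspU2, gspPt]
  · rintro rfl
    unfold pl4Phi gspB2
    simp [gspArg_zero]

/-! ## P. transport of a symmetry -/

/-- abstract transport: `B` on the torus covers the isometry `σ` of the frequency plane -/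
theorem pl4_phys_inv {C : Measure Pl4T} (B : Pl4T ≃ᵐ Pl4T) (hC : C.map B = C) (σ σ' : ℝ × ℝ → ℝ × ℝ)
    (hσ : ∀ p, (σ p).1 ^ 2 + (σ p).2 ^ 2 = p.1 ^ 2 + p.2 ^ 2) (hσ' : ∀ p, (σ' p).1 ^ 2 + (σ' p).2 ^ 2 = p.1 ^ 2 + p.2 ^ 2)
    (hσσ : ∀ p, σ (σ' p) = p) (hσm : Measurable σ) (hB : ∀ p, B (pl4Psi p) = pl4Psi (σ p))
    (f : ℝ × ℝ → ℝ≥0∞) (hf : Measurable f) (hf0 : ∀ p, Real.pi ^ 2 ≤ p.1 ^ 2 + p.2 ^ 2 → f p = 0) :
    ∫⁻ p, f (σ p) ∂(C.map pl4Phi) = ∫⁻ p, f p ∂(C.map pl4Phi) := by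
  have m1 : Measurable fun p => f (σ p) := hf.comp hσm
  have m2 : Measurable fun θ => f (pl4Phi θ) := hf.comp pl4Phi_meas
  rw [lintegral_map m1 pl4Phi_meas, lintegral_map hf pl4Phi_meas]
  conv_rhs => rw [← hC]
  rw [lintegral_map m2 B.measurable]
  refine lintegral_congr fun θ => ?_
  by_cases h : (pl4Phi θ).1 ^ 2 + (pl4Phi θ).2 ^ 2 < Real.pi ^ 2
  · have h1 : B θ = pl4Psi (σ (pl4Phi θ)) := by rw [← hB, pl4Psi_Phi]
    rw [h1, pl4Phi_Psi (by rw [hσ]; exact h)]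
  · push Not at h
    rw [hf0 _ (by rw [hσ]; exact h)]
    symm
    apply hf0
    by_contra hlt
    push Not at hlt
    set q := pl4Phi (B θ) with hq
    have h2 : B θ = B (pl4Psi (σ' q)) := by rw [hB, hσσ, hq, pl4Psi_Phi]
    have h3 : θ = pl4Psi (σ' q) := B.injective h2
    have h4 : pl4Phi θ = σ' q := by rw [h3, pl4Phi_Psi (by rw [hσ']; exact hlt)]
    rw [h4, hσ'] at h
    linarith

theorem pl4Chi_eq (u : TV) (θ : Pl4T) : pl4Chi u θ = (AddCircle.toCircle (u.1 • θ 0 + u.2 • θ 1) : ℂ) := by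
  rw [AddCircle.toCircle_add, Circle.coe_mul]
  simp [pl4Chi, UnitAddTorus.mFourier, Fin.prod_univ_two, fourier_apply]

theorem gspPt_sub' (s t : ℝ) : gspPt (s - t) = gspPt s - gspPt t := by
  unfold gspPt
  rw [sub_div]
  rfl

theorem gspPt_neg' (t : ℝ) : gspPt (-t) = -gspPt t := by
  unfold gspPt
  rw [neg_div]
  rfl

/-- dual action of `latRot` -/
def pl4BRot : Pl4T ≃ᵐ Pl4T where
  toFun := fun θ => ![θ 1, θ 1 - θ 0]
  invFun := fun η => ![η 0 - η 1, η 0]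
  left_inv := fun θ => by
    funext i
    fin_cases i <;> simp
  right_inv := fun η => by
    funext i
    fin_cases i <;> simp
  measurable_toFun := by
    apply Continuous.measurable
    refine continuous_pi fun i => ?_
    fin_cases i
    · exact continuous_apply 1
    · exact (continuous_apply 1).sub (continuous_apply 0)
  measurable_invFun := by
    apply Continuous.measurable
    refine continuous_pi fun i => ?_
    fin_cases i
    · exact (continuous_apply 0).sub (continuous_apply 1)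
    · exact continuous_apply 0

/-- dual action of `latRefl` -/
def pl4BRefl : Pl4T ≃ᵐ Pl4T where
  toFun := fun θ => ![θ 0, θ 0 - θ 1]
  invFun := fun θ => ![θ 0, θ 0 - θ 1]
  left_inv := fun θ => by
    funext i
    fin_cases i <;> simp
  right_inv := fun θ => by
    funext i
    fin_cases i <;> simp
  measurable_toFun := by
    apply Continuous.measurable
    refine continuous_pi fun i => ?_
    fin_cases i
    · exact continuous_apply 0
    · exact (continuous_apply 0).sub (continuous_apply 1)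
  measurable_invFun := by
    apply Continuous.measurable
    refine continuous_pi fun i => ?_
    fin_cases i
    · exact continuous_apply 0
    · exact (continuous_apply 0).sub (continuous_apply 1)

/-- `latRot` as an additive equivalence -/
def pl4ARot : TV ≃+ TV where
  toFun := latRot
  invFun := fun u => (u.1 + u.2, -u.1)
  left_inv := fun u => by simp [latRot]
  right_inv := fun u => by simp [latRot]
  map_add' := lat_rot_add

/-- `latRefl` as an additive equivalence -/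
def pl4ARefl : TV ≃+ TV where
  toFun := latRefl
  invFun := latRefl
  left_inv := lat_refl_refl
  right_inv := lat_refl_refl
  map_add' := lat_refl_add

theorem pl4_rot_dual (u : TV) (θ : Pl4T) : pl4Chi (pl4ARot u) θ = pl4Chi u (pl4BRot θ) := by
  rw [pl4Chi_eq, pl4Chi_eq]
  congr 2
  show (latRot u).1 • θ 0 + (latRot u).2 • θ 1 = u.1 • θ 1 + u.2 • (θ 1 - θ 0)
  simp only [latRot, neg_smul, add_smul, smul_sub]
  abel

theorem pl4_refl_dual (u : TV) (θ : Pl4T) : pl4Chi (pl4ARefl u) θ = pl4Chi u (pl4BRefl θ) := by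
  rw [pl4Chi_eq, pl4Chi_eq]
  congr 2
  show (latRefl u).1 • θ 0 + (latRefl u).2 • θ 1 = u.1 • θ 0 + u.2 • (θ 0 - θ 1)
  simp only [latRefl, neg_smul, add_smul, smul_sub]
  abel

theorem pl4_rot_Psi (p : ℝ × ℝ) : pl4BRot (pl4Psi p) = pl4Psi (pl4RotI p) := by
  have h := pl4_sqrt3
  funext i
  fin_cases i
  · show gspPt (pl4Ph p (0, 1)) = gspPt (pl4Ph (pl4RotI p) (1, 0))
    congr 1
    simp only [pl4Ph_eq, pl4RotI, Int.cast_one, Int.cast_zero]
    ring
  · show gspPt (pl4Ph p (0, 1)) - gspPt (pl4Ph p (1, 0)) = gspPt (pl4Ph (pl4RotI p) (0, 1))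
    rw [← gspPt_sub']
    congr 1
    simp only [pl4Ph_eq, pl4RotI, Int.cast_one, Int.cast_zero]
    linear_combination ((1 / 4) * p.1) * h

theorem pl4_refl_Psi (p : ℝ × ℝ) : pl4BRefl (pl4Psi p) = pl4Psi (p.1, -p.2) := by
  funext i
  fin_cases i
  · show gspPt (pl4Ph p (1, 0)) = gspPt (pl4Ph (p.1, -p.2) (1, 0))
    congr 1
    simp only [pl4Ph_eq, Int.cast_one, Int.cast_zero]
    ring
  · show gspPt (pl4Ph p (1, 0)) - gspPt (pl4Ph p (0, 1)) = gspPt (pl4Ph (p.1, -p.2) (0, 1))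
    rw [← gspPt_sub']
    congr 1
    simp only [pl4Ph_eq, Int.cast_one, Int.cast_zero]
    ring

theorem pl4_neg_Psi (p : ℝ × ℝ) : pl4Neg (pl4Psi p) = pl4Psi (-p) := by
  funext i
  fin_cases i
  · show -gspPt (pl4Ph p (1, 0)) = gspPt (pl4Ph (-p) (1, 0))
    rw [← gspPt_neg']
    congr 1
    simp only [pl4Ph_eq, Int.cast_one, Int.cast_zero, Prod.fst_neg, Prod.snd_neg]
    ring
  · show -gspPt (pl4Ph p (0, 1)) = gspPt (pl4Ph (-p) (0, 1))
    rw [← gspPt_neg']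
    congr 1
    simp only [pl4Ph_eq, Int.cast_one, Int.cast_zero, Prod.fst_neg, Prod.snd_neg]
    ring

theorem pl4Rot_sq (p : ℝ × ℝ) : (pl4Rot p).1 ^ 2 + (pl4Rot p).2 ^ 2 = p.1 ^ 2 + p.2 ^ 2 := by
  have h := pl4_sqrt3
  simp only [pl4Rot]
  linear_combination (1 / 4 * p.1 ^ 2 + 1 / 4 * p.2 ^ 2) * h

theorem pl4RotI_sq (p : ℝ × ℝ) : (pl4RotI p).1 ^ 2 + (pl4RotI p).2 ^ 2 = p.1 ^ 2 + p.2 ^ 2 := by
  have h := pl4_sqrt3
  simp only [pl4RotI]
  linear_combination (1 / 4 * p.1 ^ 2 + 1 / 4 * p.2 ^ 2) * h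

theorem pl4RotI_Rot (p : ℝ × ℝ) : pl4RotI (pl4Rot p) = p := by
  have h := pl4_sqrt3
  apply Prod.ext
  · simp only [pl4Rot, pl4RotI]
    linear_combination (1 / 4 * p.1) * h
  · simp only [pl4Rot, pl4RotI]
    linear_combination (1 / 4 * p.2) * h

theorem pl4Rot_RotI (p : ℝ × ℝ) : pl4Rot (pl4RotI p) = p := by
  have h := pl4_sqrt3
  apply Prod.ext
  · simp only [pl4Rot, pl4RotI]
    linear_combination (1 / 4 * p.1) * h
  · simp only [pl4Rot, pl4RotI]
    linear_combination (1 / 4 * p.2) * h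

theorem pl4Rot_meas : Measurable pl4Rot := by
  unfold pl4Rot
  fun_prop

theorem pl4RotI_meas : Measurable pl4RotI := by
  unfold pl4RotI
  fun_prop

/-! ## Q. the physical contract -/

/-- **the punctured spectral measure in physical frequencies** = what B2, B3 consume -/
structure Pl4Phys (a : TV → ℝ) (C : Measure (ℝ × ℝ)) : Prop where
  /-- carried by the fundamental cell `p·e₁, p·e₂ ∈ (-π, π]` -/
  supp : C {p | ¬ (pl4Ph p (1, 0) ∈ Set.Ioc (-Real.pi) Real.pi ∧ pl4Ph p (0, 1) ∈ Set.Ioc (-Real.pi) Real.pi)} = 0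
  zero : C {0} = 0
  fin : ∫⁻ p, ENNReal.ofReal (min 1 (p.1 ^ 2 + p.2 ^ 2)) ∂C < ⊤
  int : ∀ b b' : TV →₀ ℝ, latTot b = 0 → latTot b' = 0 → Integrable (fun p => conj (pl4HatP b p) * pl4HatP b' p) C
  cov : ∀ b b' : TV →₀ ℝ, latTot b = 0 → latTot b' = 0 →
    ∫ p, conj (pl4HatP b p) * pl4HatP b' p ∂C = (pl4Cov a b b' : ℂ)
  /-- invariance under the rotation by `π/3` inside the disc `|p| < π` -/
  rot : ∀ f : ℝ × ℝ → ℝ≥0∞, Measurable f → (∀ p, Real.pi ^ 2 ≤ p.1 ^ 2 + p.2 ^ 2 → f p = 0) →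
    ∫⁻ p, f (pl4Rot p) ∂C = ∫⁻ p, f p ∂C
  /-- invariance under `p ↦ -p` and under the reflection `l ↦ -l` inside the disc -/
  neg : ∀ f : ℝ × ℝ → ℝ≥0∞, Measurable f → (∀ p, Real.pi ^ 2 ≤ p.1 ^ 2 + p.2 ^ 2 → f p = 0) →
    ∫⁻ p, f (-p) ∂C = ∫⁻ p, f p ∂C
  refl : ∀ f : ℝ × ℝ → ℝ≥0∞, Measurable f → (∀ p, Real.pi ^ 2 ≤ p.1 ^ 2 + p.2 ^ 2 → f p = 0) →
    ∫⁻ p, f (p.1, -p.2) ∂C = ∫⁻ p, f p ∂C
  ann : ∃ K : ℝ≥0∞, K < ⊤ ∧ ∀ r : ℝ, 0 < r → r ≤ 1 / 4 →
    C {p | r ^ 2 ≤ p.1 ^ 2 + p.2 ^ 2 ∧ p.1 ^ 2 + p.2 ^ 2 ≤ (2 * r) ^ 2} ≤ K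

theorem pl4_phys_of_spec {a : TV → ℝ} (h : Pl4In a) (hrot : ∀ u, a (latRot u) = a u) (hrefl : ∀ u, a (latRefl u) = a u)
    {C : Measure Pl4T} (hC : Pl4Spec a C) : Pl4Phys a (C.map pl4Phi) := by
  have hpi := Real.pi_pos
  refine ⟨?_, ?_, ?_, ?_, ?_, ?_, ?_, ?_, ?_⟩
  · -- support
    have hm : MeasurableSet {p : ℝ × ℝ | ¬ (pl4Ph p (1, 0) ∈ Set.Ioc (-Real.pi) Real.pi ∧ pl4Ph p (0, 1) ∈ Set.Ioc (-Real.pi) Real.pi)} := by
      apply MeasurableSet.compl
      exact ((pl4Ph_cont (1, 0)).measurable measurableSet_Ioc).inter ((pl4Ph_cont (0, 1)).measurable measurableSet_Ioc)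
    rw [Measure.map_apply pl4Phi_meas hm]
    have : pl4Phi ⁻¹' {p : ℝ × ℝ | ¬ (pl4Ph p (1, 0) ∈ Set.Ioc (-Real.pi) Real.pi ∧ pl4Ph p (0, 1) ∈ Set.Ioc (-Real.pi) Real.pi)} = ∅ := by
      ext θ
      simp only [Set.mem_preimage, Set.mem_ofPred_eq, Set.mem_empty_iff_false, iff_false, not_not]
      rw [pl4Ph_Phi, pl4Ph_Phi]
      simp only [Int.cast_one, one_mul, Int.cast_zero, zero_mul, add_zero, zero_add]
      exact gspB2_mem θ
    rw [this, measure_empty]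
  · rw [Measure.map_apply pl4Phi_meas (measurableSet_singleton 0)]
    have : pl4Phi ⁻¹' {0} = {0} := by
      ext θ
      simp only [Set.mem_preimage, Set.mem_singleton_iff]
      exact pl4Phi_eq_zero
    rw [this, hC.zero]
  · -- finiteness
    have hm : Measurable fun p : ℝ × ℝ => ENNReal.ofReal (min 1 (p.1 ^ 2 + p.2 ^ 2)) := by fun_prop
    rw [lintegral_map hm pl4Phi_meas]
    have hle : ∀ θ, ENNReal.ofReal (min 1 ((pl4Phi θ).1 ^ 2 + (pl4Phi θ).2 ^ 2))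
        ≤ ENNReal.ofReal (2 * Real.pi ^ 2) * (pl4W (1, 0) θ + pl4W (0, 1) θ) := by
      intro θ
      have e : pl4W (1, 0) θ + pl4W (0, 1) θ = ENNReal.ofReal (‖pl4Chi (1, 0) θ - 1‖ ^ 2 + ‖pl4Chi (0, 1) θ - 1‖ ^ 2) := by
        rw [ENNReal.ofReal_add (by positivity) (by positivity)]
        unfold pl4W
        rw [← ofReal_norm, ← ofReal_norm, ENNReal.ofReal_pow (norm_nonneg _), ENNReal.ofReal_pow (norm_nonneg _)]
      rw [e, ← ENNReal.ofReal_mul (by positivity)]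
      apply ENNReal.ofReal_le_ofReal
      refine (min_le_right _ _).trans ?_
      rw [pl4Phi_sq]
      have g1 := pl4Chi_e1_ge θ
      have g2 := pl4Chi_e2_ge θ
      have g1' := pow_le_pow_left₀ (by positivity) g1 2
      have g2' := pow_le_pow_left₀ (by positivity) g2 2
      rw [mul_pow, sq_abs, div_pow] at g1' g2'
      have k1 : (gspB2 θ).1 ^ 2 ≤ Real.pi ^ 2 / 4 * ‖pl4Chi (1, 0) θ - 1‖ ^ 2 := by
        have : Real.pi ^ 2 / 4 * (2 ^ 2 / Real.pi ^ 2 * (gspB2 θ).1 ^ 2) = (gspB2 θ).1 ^ 2 := by field_simp; norm_num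
        rw [← this]
        exact mul_le_mul_of_nonneg_left g1' (by positivity)
      have k2 : (gspB2 θ).2 ^ 2 ≤ Real.pi ^ 2 / 4 * ‖pl4Chi (0, 1) θ - 1‖ ^ 2 := by
        have : Real.pi ^ 2 / 4 * (2 ^ 2 / Real.pi ^ 2 * (gspB2 θ).2 ^ 2) = (gspB2 θ).2 ^ 2 := by field_simp; norm_num
        rw [← this]
        exact mul_le_mul_of_nonneg_left g2' (by positivity)
      nlinarith [sq_nonneg ((gspB2 θ).1 + (gspB2 θ).2)]
    refine lt_of_le_of_lt (lintegral_mono hle) ?_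
    have m3 : Measurable fun θ => pl4W (1, 0) θ + pl4W (0, 1) θ := (pl4W_meas _).add (pl4W_meas _)
    rw [lintegral_const_mul _ m3, lintegral_add_left (pl4W_meas _)]
    exact ENNReal.mul_lt_top ENNReal.ofReal_lt_top (ENNReal.add_lt_top.2 ⟨hC.fin _, hC.fin _⟩)
  · intro b b' hb hb'
    have hc : Continuous fun p => conj (pl4HatP b p) * pl4HatP b' p := by
      have c1 := pl4HatP_cont b
      have c2 := pl4HatP_cont b'
      fun_prop
    rw [integrable_map_measure hc.aestronglyMeasurable pl4Phi_meas.aemeasurable]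
    refine (hC.int b b' hb hb').congr (Filter.Eventually.of_forall fun θ => ?_)
    simp only [Function.comp]
    rw [pl4HatP_Phi, pl4HatP_Phi]
  · intro b b' hb hb'
    have hc : Continuous fun p => conj (pl4HatP b p) * pl4HatP b' p := by
      have c1 := pl4HatP_cont b
      have c2 := pl4HatP_cont b'
      fun_prop
    rw [integral_map pl4Phi_meas.aemeasurable hc.aestronglyMeasurable]
    simp_rw [pl4HatP_Phi]
    exact hC.cov b b' hb hb'
  · -- rotation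
    intro f hf hf0
    have hinv : C.map pl4BRot = C := pl4_spec_inv' hC pl4ARot pl4BRot (by
      funext i
      fin_cases i <;> simp [pl4BRot]) pl4_rot_dual hrot
    have h1 := pl4_phys_inv pl4BRot hinv pl4RotI pl4Rot pl4RotI_sq pl4Rot_sq pl4RotI_Rot pl4RotI_meas pl4_rot_Psi
      (fun p => f (pl4Rot p)) (hf.comp pl4Rot_meas) (fun p hp => hf0 _ (by rw [pl4Rot_sq]; exact hp))
    simp only [pl4Rot_RotI] at h1
    exact h1.symm
  · intro f hf hf0
    exact pl4_phys_inv pl4Neg hC.symm (fun p => -p) (fun p => -p) (fun p => by simp) (fun p => by simp) (fun p => by simp)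
      measurable_neg pl4_neg_Psi f hf hf0
  · intro f hf hf0
    have hinv : C.map pl4BRefl = C := pl4_spec_inv' hC pl4ARefl pl4BRefl (by
      funext i
      fin_cases i <;> simp [pl4BRefl]) pl4_refl_dual hrefl
    exact pl4_phys_inv pl4BRefl hinv (fun p => (p.1, -p.2)) (fun p => (p.1, -p.2)) (fun p => by simp) (fun p => by simp)
      (fun p => by simp) (by fun_prop) pl4_refl_Psi f hf hf0
  · obtain ⟨K, hK, hann⟩ := pl4_ann' h hC
    refine ⟨K, hK, fun r hr hr' => ?_⟩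
    have hm : MeasurableSet {p : ℝ × ℝ | r ^ 2 ≤ p.1 ^ 2 + p.2 ^ 2 ∧ p.1 ^ 2 + p.2 ^ 2 ≤ (2 * r) ^ 2} := by
      have hc : Continuous fun p : ℝ × ℝ => p.1 ^ 2 + p.2 ^ 2 := by fun_prop
      exact (measurableSet_le measurable_const hc.measurable).inter (measurableSet_le hc.measurable measurable_const)
    rw [Measure.map_apply pl4Phi_meas hm]
    refine (measure_mono ?_).trans (hann (r / 2) (by positivity) (by
      have := Real.pi_gt_three
      linarith))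
    intro θ hθ
    simp only [Set.mem_preimage, Set.mem_ofPred_eq] at hθ ⊢
    rw [pl4Phi_sq] at hθ
    obtain ⟨h1, h2⟩ := hθ
    set x := (gspB2 θ).1
    set y := (gspB2 θ).2
    set M := max |x| |y| with hM
    have hM0 : 0 ≤ M := (abs_nonneg x).trans (le_max_left _ _)
    have hx : |x| ≤ M := le_max_left _ _
    have hy : |y| ≤ M := le_max_right _ _
    have hx2 : x ^ 2 ≤ M ^ 2 := by rw [← sq_abs x]; exact pow_le_pow_left₀ (abs_nonneg _) hx 2
    have hy2 : y ^ 2 ≤ M ^ 2 := by rw [← sq_abs y]; exact pow_le_pow_left₀ (abs_nonneg _) hy 2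
    constructor
    · -- r² ≤ 4 M²
      have : r ^ 2 ≤ 4 * M ^ 2 := by nlinarith [sq_nonneg (x + y)]
      have h3 : (r / 2) ^ 2 ≤ M ^ 2 := by nlinarith
      exact le_of_sq_le_sq h3 hM0 |> fun h => by simpa using h
    · have h3 : M ^ 2 ≤ (2 * r) ^ 2 := by
        rcases max_choice |x| |y| with hc | hc
        · rw [hM, hc, sq_abs]
          nlinarith [sq_nonneg (x - 2 * y)]
        · rw [hM, hc, sq_abs]
          nlinarith [sq_nonneg (2 * x - y)]
      have := le_of_sq_le_sq h3 (by positivity)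
      linarith

end Claimed.Agent.R291
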