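import Mathlib
import Claimed.Agent.R291.Defs.Lat
import Claimed.Agent.R291.Spec.Form
import Claimed.Agent.R291.Pln.CovA
import Claimed.Agent.R291.Pln.CovB
import Claimed.Agent.R291.Pln.CovC

/-!
# R291 / PLN, box B1 : the punctured spectral measure, MODEL FREE          OWNER: helper179 (unit head: helper94)

TEX[04-plane: plane:lem:spectrum, plane:eq:spectrum, plane:eq:annuli]                    STATUS: 0 sorry

Input = the variogram `a u = E (H u - H 0)^2` of the plane increment law, `u : TV = ℤ × ℤ` (frozen coordinates):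
`Pl4In a` = evenness, positivity of `pl4Cov a b b = -1/2 ∑∑ b_u b_v a(v-u)` on zero-total arrays, and the uniform
second moment of zero-total smearings (Prop 3.7) on lattice boxes.

Output
* `Pl4Spec a C` : `C` on the torus `Pl4T = UnitAddTorus (Fin 2)`, characters `pl4Chi u = e^{2π i (u.1 θ₀ + u.2 θ₁)}`:
  no mass at `0`, `|χ_u - 1|² C` finite, symmetric, `Cov(b,b') = ∫ conj(b^) b'^ dC` (NO tilt term).
* `pl4_spec` (existence), `pl4_spec_unique`, `pl4_spec_inv` (invariance under every lattice symmetry of `a`),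
  `pl4_ann` (annuli, in the box chart `gspB2` of helper92).
* `Pl4Phys a C` / `pl4_main` : the same in PHYSICAL frequencies `p = (k,l) : ℝ × ℝ`, phase `p · triPos 1 u`.
No cross measures, no projection, no Hilbert space at this level (Bochner = `sp8_core`).
Files: `Pln/CovA.lean` (definitions `pl4Cov, Pl4In, Pl4T, pl4Chi, pl4Hat, Pl4Spec`, construction `pl4C a`, no tilt, spectral formula),
`Pln/CovB.lean` (uniqueness, symmetries, annuli), `Pln/CovC.lean` (`pl4Ph, pl4HatP, pl4Rot, Pl4Phys`, charts `pl4Phi, pl4Psi`).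
-/

set_option autoImplicit false

namespace Claimed.Agent.R291

open MeasureTheory Claims Claims.C0467
open scoped ComplexConjugate ENNReal

/-! ## 1. torus level statements -/

/-- TEX[plane:lem:spectrum]: existence, no tilt -/
theorem pl4_spec {a : TV → ℝ} (h : Pl4In a) : ∃ C : Measure Pl4T, Pl4Spec a C := ⟨pl4C a, pl4_spec_C h⟩

theorem pl4_spec_unique {a : TV → ℝ} {C C' : Measure Pl4T} (h : Pl4Spec a C) (h' : Pl4Spec a C') : C = C' :=
  pl4_spec_unique' h h'

/-- invariance under a lattice symmetry `A` of the variogram; `B` = its dual action on the torus -/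
theorem pl4_spec_inv {a : TV → ℝ} {C : Measure Pl4T} (h : Pl4Spec a C) (A : TV ≃+ TV) (B : Pl4T ≃ᵐ Pl4T)
    (hB0 : B 0 = 0) (hAB : ∀ u θ, pl4Chi (A u) θ = pl4Chi u (B θ)) (ha : ∀ u, a (A u) = a u) : C.map B = C :=
  pl4_spec_inv' h A B hB0 hAB ha

/-- TEX[plane:eq:annuli], in the box chart `x = gspB2 θ ∈ (-π, π]²` -/
theorem pl4_ann {a : TV → ℝ} (h : Pl4In a) {C : Measure Pl4T} (hC : Pl4Spec a C) :
    ∃ K : ℝ≥0∞, K < ⊤ ∧ ∀ ρ : ℝ, 0 < ρ → ρ ≤ Real.pi / 24 →
      C {θ | ρ ≤ max |(gspB2 θ).1| |(gspB2 θ).2| ∧ max |(gspB2 θ).1| |(gspB2 θ).2| ≤ 4 * ρ} ≤ K :=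
  pl4_ann' h hC

/-! ## 2. physical frequencies -/

/-- **EXIT of B1** (TEX[plane:lem:spectrum]) -/
theorem pl4_main {a : TV → ℝ} (h : Pl4In a) (hrot : ∀ u, a (latRot u) = a u) (hrefl : ∀ u, a (latRefl u) = a u) :
    ∃ C : Measure (ℝ × ℝ), Pl4Phys a C :=
  ⟨(pl4C a).map pl4Phi, pl4_phys_of_spec h hrot hrefl (pl4_spec_C h)⟩

end Claimed.Agent.R291
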