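import Claimed.Agent.R291.Pln.Mix
import Claimed.Agent.R291.Ht.Rp
import Claimed.Agent.R291.Pl.Ball
import Claimed.Agent.R291.Exit.MomPlane
import Claimed.Agent.R291.Exit.MomNondeg
import Claimed.Agent.R291.Pln.PcvA

/-!
# Row 291 (S0539), Pln/Inst : B5 = THE INSTANCE OF SEC. 4      (owner helper94; prefix `pli`)

From `PlnHt x` (existence of the plane limits + translation invariance, DIS), `htr_rp` (finite volume RP), `exit_mom_plane`, `exit_mom_nondeg` (MOM):
* `pli_gam_eq : latTot b = 0 → latTot b' = 0 → htGam x b b' = plnGam (plnVg x) b b'`      (bilinearity + stationarity + polarisation)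
* `pli_in : PlnIn (plnVg x)`      (zero, psd, rot, refl, rp, sm PROVED; nd = leaf `pli_nd`)
-/

set_option autoImplicit false

namespace Claimed.Agent.R291

open Claims Claims.C0467 MeasureTheory Filter Topology Set

/-! ### A. the pairing `latArr` -/

theorem pli_arr_add (a a' : TV →₀ ℝ) (h : TV → ℤ) : latArr (a + a') h = latArr a h + latArr a' h := by
  unfold latArr
  exact Finsupp.sum_add_index' (fun _ => by simp) (fun _ _ _ => by ring)

theorem pli_arr_smul (c : ℝ) (a : TV →₀ ℝ) (h : TV → ℤ) : latArr (c • a) h = c * latArr a h := by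
  unfold latArr
  rw [Finsupp.sum_smul_index' (fun _ => by simp), Finsupp.mul_sum]
  refine Finsupp.sum_congr fun u _ => ?_
  simp only [smul_eq_mul]; ring

theorem pli_arr_zero (h : TV → ℤ) : latArr 0 h = 0 := by
  unfold latArr; simp

theorem pli_arr_single (u : TV) (c : ℝ) (h : TV → ℤ) : latArr (Finsupp.single u c) h = c * (h u : ℝ) := by
  unfold latArr; rw [Finsupp.sum_single_index (by simp)]

theorem pli_arr_map (σ : TV → TV) (b : TV →₀ ℝ) (h : TV → ℤ) : latArr (plnMap σ b) h = latArr b (fun u => h (σ u)) := by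
  unfold latArr plnMap
  exact Finsupp.sum_mapDomain_index (fun _ => by simp) (fun _ _ _ => by ring)

theorem pli_arr_tr (w : TV) (b : TV →₀ ℝ) (h : TV → ℤ) : latArr (plnTr w b) h = latArr b (fun u => h (u + w)) :=
  pli_arr_map (· + w) b h

theorem pli_arr_shift (b : TV →₀ ℝ) (h : TV → ℤ) (c : ℤ) : latArr b (fun u => h u + c) = latArr b h + c * latTot b := by
  unfold latArr latTot
  rw [Finsupp.mul_sum, ← Finsupp.sum_add]
  refine Finsupp.sum_congr fun u _ => ?_
  push_cast; ring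

theorem pli_arr_loc (b : TV →₀ ℝ) {S : Set TV} (hS : ∀ u ∈ b.support, u ∈ S) {h h' : TV → ℤ} (hh : ∀ u ∈ S, h u = h' u) :
    latArr b h = latArr b h' := by
  unfold latArr
  exact Finsupp.sum_congr fun u hu => by rw [hh u (hS u hu)]

theorem pli_GG_loc (b b' : TV →₀ ℝ) : HtLoc (b.support ∪ b'.support) (fun h => latArr b h * latArr b' h) := by
  intro h h' hh
  show latArr b h * latArr b' h = latArr b h' * latArr b' h'
  rw [pli_arr_loc b (S := ↑(b.support ∪ b'.support)) (fun u hu => Finset.mem_coe.2 (Finset.mem_union_left _ hu)) (fun u hu => hh u hu),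
    pli_arr_loc b' (S := ↑(b.support ∪ b'.support)) (fun u hu => Finset.mem_coe.2 (Finset.mem_union_right _ hu)) (fun u hu => hh u hu)]

theorem pli_GG_grad {b b' : TV →₀ ℝ} (hb : latTot b = 0) (hb' : latTot b' = 0) : HtGrad (fun h => latArr b h * latArr b' h) := by
  intro h c
  show latArr b (fun u => h u + c) * latArr b' (fun u => h u + c) = _
  rw [pli_arr_shift, pli_arr_shift, hb, hb']; simp

/-! ### B. the plane covariance form -/

theorem pli_gam_tendsto {x : ℝ} (hP : PlnHt x) {b b' : TV →₀ ℝ} (hb : latTot b = 0) (hb' : latTot b' = 0) :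
    Tendsto (fun R : ℕ => htE x (latBall 0 R) 0 (fun h => latArr b h * latArr b' h)) atTop (𝓝 (htGam x b b')) :=
  hP.lim _ _ (pli_GG_loc b b') (pli_GG_grad hb hb')

theorem pli_gam_add {x : ℝ} (hP : PlnHt x) {b1 b2 b' : TV →₀ ℝ} (h1 : latTot b1 = 0) (h2 : latTot b2 = 0) (hb' : latTot b' = 0) :
    htGam x (b1 + b2) b' = htGam x b1 b' + htGam x b2 b' := by
  have h12 : latTot (b1 + b2) = 0 := by rw [pln_tot_add, h1, h2, add_zero]
  refine tendsto_nhds_unique (pli_gam_tendsto hP h12 hb') ?_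
  refine ((pli_gam_tendsto hP h1 hb').add (pli_gam_tendsto hP h2 hb')).congr (fun R => ?_)
  rw [← ht_E_add]
  exact ht_E_congr _ _ _ (fun h _ => by rw [pli_arr_add]; ring)

theorem pli_gam_smul {x : ℝ} (hP : PlnHt x) (c : ℝ) {b b' : TV →₀ ℝ} (hb : latTot b = 0) (hb' : latTot b' = 0) :
    htGam x (c • b) b' = c * htGam x b b' := by
  have hc : latTot (c • b) = 0 := by rw [pln_tot_smul, hb, mul_zero]
  refine tendsto_nhds_unique (pli_gam_tendsto hP hc hb') ?_
  refine ((pli_gam_tendsto hP hb hb').const_mul c).congr (fun R => ?_)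
  rw [← ht_E_smul]
  exact ht_E_congr _ _ _ (fun h _ => by rw [pli_arr_smul]; ring)

theorem pli_gam_symm (x : ℝ) (b b' : TV →₀ ℝ) : htGam x b b' = htGam x b' b := by
  unfold htGam
  congr 1
  funext h
  exact mul_comm _ _

theorem pli_gam_psd {x : ℝ} (hx : 0 < x) (hP : PlnHt x) {b : TV →₀ ℝ} (hb : latTot b = 0) : 0 ≤ htGam x b b :=
  ge_of_tendsto' (pli_gam_tendsto hP hb hb) (fun R => ht_E_nonneg hx _ _ (fun h _ => mul_self_nonneg _))

theorem pli_gam_tr {x : ℝ} (hP : PlnHt x) (w : TV) {b b' : TV →₀ ℝ} (hb : latTot b = 0) (hb' : latTot b' = 0) :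
    htGam x (plnTr w b) (plnTr w b') = htGam x b b' := by
  have := hP.trans _ _ w (pli_GG_loc b b') (pli_GG_grad hb hb')
  unfold htGam
  rw [← this]
  congr 1
  funext h
  rw [pli_arr_tr, pli_arr_tr]

theorem pli_gam_rot (x : ℝ) (b b' : TV →₀ ℝ) : htGam x (plnMap latRot b) (plnMap latRot b') = htGam x b b' := by
  unfold htGam htPl
  congr 1
  funext R
  rw [← ht_E_ball_rot x R (fun h => latArr b h * latArr b' h)]
  exact ht_E_congr _ _ _ (fun h _ => by rw [pli_arr_map, pli_arr_map])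

theorem pli_gam_refl (x : ℝ) (b b' : TV →₀ ℝ) : htGam x (plnMap latRefl b) (plnMap latRefl b') = htGam x b b' := by
  unfold htGam htPl
  congr 1
  funext R
  rw [← ht_E_ball_refl x R (fun h => latArr b h * latArr b' h)]
  exact ht_E_congr _ _ _ (fun h _ => by rw [pli_arr_map, pli_arr_map])

/-- the variogram of the plane law -/
noncomputable def plnVg (x : ℝ) (u : TV) : ℝ := htGam x (plnG u) (plnG u)

/-! ### C. `htGam = plnGam` on zero-total arrays -/

/-- total mass as a linear map -/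
noncomputable def pliTotL : (TV →₀ ℝ) →ₗ[ℝ] ℝ := Finsupp.lsum ℝ fun _ => LinearMap.id

theorem pli_totL (b : TV →₀ ℝ) : pliTotL b = latTot b := by
  unfold pliTotL latTot
  simp only [Finsupp.lsum_apply, LinearMap.id_coe]
  rfl

/-- the projection `b ↦ b - (total b) δ_0` on the zero-total arrays -/
noncomputable def pliPr : (TV →₀ ℝ) →ₗ[ℝ] (TV →₀ ℝ) := LinearMap.id - pliTotL.smulRight (Finsupp.single 0 1)

theorem pli_pr_apply (b : TV →₀ ℝ) : pliPr b = b - latTot b • Finsupp.single 0 1 := by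
  unfold pliPr
  simp [pli_totL]

theorem pli_pr_tot (b : TV →₀ ℝ) : latTot (pliPr b) = 0 := by
  rw [pli_pr_apply, sub_eq_add_neg, ← neg_smul, pln_tot_add, pln_tot_smul, pln_tot_single]; ring

theorem pli_pr_of_tot {b : TV →₀ ℝ} (hb : latTot b = 0) : pliPr b = b := by
  rw [pli_pr_apply, hb]; simp

theorem pli_pr_single (u : TV) : pliPr (Finsupp.single u 1) = plnG u := by
  rw [pli_pr_apply, pln_tot_single, one_smul]; rfl

theorem pli_gam_add_right {x : ℝ} (hP : PlnHt x) {b b1 b2 : TV →₀ ℝ} (hb : latTot b = 0) (h1 : latTot b1 = 0) (h2 : latTot b2 = 0) :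
    htGam x b (b1 + b2) = htGam x b b1 + htGam x b b2 := by
  rw [pli_gam_symm, pli_gam_add hP h1 h2 hb, pli_gam_symm x b1, pli_gam_symm x b2]

theorem pli_gam_smul_right {x : ℝ} (hP : PlnHt x) (c : ℝ) {b b' : TV →₀ ℝ} (hb : latTot b = 0) (hb' : latTot b' = 0) :
    htGam x b (c • b') = c * htGam x b b' := by
  rw [pli_gam_symm, pli_gam_smul hP c hb' hb, pli_gam_symm]

/-- the plane covariance as a bilinear map (through the projection) -/
noncomputable def pliB {x : ℝ} (hP : PlnHt x) : (TV →₀ ℝ) →ₗ[ℝ] (TV →₀ ℝ) →ₗ[ℝ] ℝ :=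
  LinearMap.mk₂ ℝ (fun b b' => htGam x (pliPr b) (pliPr b'))
    (fun b1 b2 b' => by rw [map_add]; exact pli_gam_add hP (pli_pr_tot _) (pli_pr_tot _) (pli_pr_tot _))
    (fun c b b' => by rw [map_smul]; exact pli_gam_smul hP c (pli_pr_tot _) (pli_pr_tot _))
    (fun b b1 b2 => by rw [map_add]; exact pli_gam_add_right hP (pli_pr_tot _) (pli_pr_tot _) (pli_pr_tot _))
    (fun c b b' => by rw [map_smul]; exact pli_gam_smul_right hP c (pli_pr_tot _) (pli_pr_tot _))

theorem pli_B_apply {x : ℝ} (hP : PlnHt x) (b b' : TV →₀ ℝ) : pliB hP b b' = htGam x (pliPr b) (pliPr b') := rfl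

theorem pli_vg_zero (x : ℝ) : plnVg x 0 = 0 := by
  unfold plnVg htGam htPl
  have : plnG 0 = 0 := by unfold plnG; simp
  rw [this]
  have e : (fun R : ℕ => htE x (latBall 0 R) 0 fun h => latArr 0 h * latArr 0 h) = fun _ => 0 := by
    funext R
    rw [← ht_E_zero x (latBall 0 R) 0]
    exact ht_E_congr _ _ _ (fun h _ => by rw [pli_arr_zero]; ring)
  rw [e]
  exact tendsto_const_nhds.limUnder_eq

theorem pli_G_sub (u v : TV) : plnG u - plnG v = plnTr v (plnG (u - v)) := by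
  rw [pln_tr_G, sub_add_cancel]
  unfold plnG
  abel

/-- polarisation -/
theorem pli_gam_GG {x : ℝ} (hP : PlnHt x) (u v : TV) :
    htGam x (plnG u) (plnG v) = 1 / 2 * (plnVg x u + plnVg x v - plnVg x (u - v)) := by
  have hu := pln_tot_G u
  have hv := pln_tot_G v
  have hnv : latTot ((-1 : ℝ) • plnG v) = 0 := by rw [pln_tot_smul, hv, mul_zero]
  have h1 : htGam x (plnG u - plnG v) (plnG u - plnG v) = plnVg x (u - v) := by
    rw [pli_G_sub, pli_gam_tr hP v (pln_tot_G _) (pln_tot_G _)]; rfl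
  have e : plnG u - plnG v = plnG u + (-1 : ℝ) • plnG v := by rw [neg_one_smul, sub_eq_add_neg]
  have hs : latTot (plnG u + (-1 : ℝ) • plnG v) = 0 := by rw [pln_tot_add, hu, hnv, add_zero]
  rw [e, pli_gam_add hP hu hnv hs, pli_gam_add_right hP hu hu hnv, pli_gam_smul hP _ hv hs,
    pli_gam_add_right hP hv hu hnv, pli_gam_smul_right hP _ hu hv, pli_gam_smul_right hP _ hv hv,
    pli_gam_symm x (plnG v) (plnG u)] at h1
  unfold plnVg at h1 ⊢
  linarith

theorem pli_vg_even {x : ℝ} (hP : PlnHt x) (u : TV) : plnVg x (-u) = plnVg x u := by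
  have h := pli_gam_GG hP 0 u
  have h0 : plnG 0 = 0 := by unfold plnG; simp
  have hz : htGam x (plnG 0) (plnG u) = 0 := by
    have := pli_gam_smul hP 0 (pln_tot_G 0) (pln_tot_G u)
    rw [zero_smul, zero_mul] at this
    rw [h0]; exact this
  rw [hz, pli_vg_zero, zero_sub] at h
  linarith

/-- **B5b**: the plane covariance is the covariance form of its variogram -/
theorem pli_gam_eq {x : ℝ} (hP : PlnHt x) {b b' : TV →₀ ℝ} (hb : latTot b = 0) (hb' : latTot b' = 0) :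
    htGam x b b' = plnGam (plnVg x) b b' := by
  have key : pliB hP = (plnGamL (plnVg x)).compl₁₂ pliPr pliPr := by
    apply pln_bil_ext
    intro u v
    rw [pli_B_apply, LinearMap.compl₁₂_apply, pli_pr_single, pli_pr_single, pli_gam_GG hP]
    unfold plnG
    simp only [map_sub, LinearMap.sub_apply, pln_gamL_single, sub_zero, zero_sub, pli_vg_zero, pli_vg_even hP]
    ring
  have := congrArg (fun B => B b b') key
  simp only [pli_B_apply, LinearMap.compl₁₂_apply, pli_pr_of_tot hb, pli_pr_of_tot hb'] at this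
  rw [this, pln_gam_eq]

/-! ### D. the fields of `PlnIn (plnVg x)` -/

theorem pli_map_G {σ : TV → TV} (h0 : σ 0 = 0) (u : TV) : plnMap σ (plnG u) = plnG (σ u) := by
  unfold plnMap plnG
  rw [sub_eq_add_neg, Finsupp.mapDomain_add, ← Finsupp.single_neg, Finsupp.mapDomain_single, Finsupp.mapDomain_single,
    Finsupp.single_neg, ← sub_eq_add_neg, h0]

theorem pli_vg_rot (x : ℝ) (u : TV) : plnVg x (latRot u) = plnVg x u := by
  unfold plnVg
  rw [← pli_map_G (σ := latRot) (by simp [latRot]), pli_gam_rot]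

theorem pli_vg_refl (x : ℝ) (u : TV) : plnVg x (latRefl u) = plnVg x u := by
  unfold plnVg
  rw [← pli_map_G (σ := latRefl) (by simp [latRefl]), pli_gam_refl]

theorem pli_rp {x : ℝ} (hx : 0 < x) (hP : PlnHt x) {b : TV →₀ ℝ} (hb : latTot b = 0) (hs : ∀ u ∈ b.support, 0 ≤ u.2) :
    0 ≤ htGam x (plnMap latRefl b) b := by
  have hb' : latTot (plnMap latRefl b) = 0 := by
    unfold latTot plnMap
    rw [Finsupp.sum_mapDomain_index (fun _ => rfl) (fun _ _ _ => rfl)]
    exact hb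
  refine ge_of_tendsto' (pli_gam_tendsto hP hb' hb) (fun R => ?_)
  have := htr_rp hx (latBall 0 R) (ht_ball_refl R) (latArr b)
    (fun h h' hh => pli_arr_loc b (S := {u : TV | 0 ≤ u.2}) hs (fun u hu => hh u hu))
  refine this.trans_eq (ht_E_congr _ _ _ (fun h _ => ?_))
  rw [pli_arr_map]

theorem pli_ball_card (N : ℕ) : ((latBall 0 N).card : ℝ) ≤ 9 * (N : ℝ) ^ 2 + 1 := by
  have h1 : (latBall 0 N).card ≤ (2 * N + 1) * (2 * N + 1) := by
    unfold latBall
    refine (Finset.card_filter_le _ _).trans ?_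
    rw [Finset.card_product, Int.card_Icc, Int.card_Icc]
    simp only [Prod.fst_zero, Prod.snd_zero]
    have : ((0 : ℤ) + N + 1 - (0 - N)).toNat = 2 * N + 1 := by omega
    rw [this]
  have h2 : ((latBall 0 N).card : ℝ) ≤ (2 * N + 1) * (2 * N + 1) := by exact_mod_cast h1
  rcases Nat.eq_zero_or_pos N with h0 | h0
  · subst h0; simpa using h2
  · have : (1 : ℝ) ≤ N := by exact_mod_cast h0
    nlinarith

theorem pli_ball_mono {N R : ℕ} (h : N ≤ R) : latBall 0 N ⊆ latBall 0 R := by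
  intro u hu
  rw [lat_mem_ball] at hu ⊢
  exact hu.trans h

theorem pli_sm {x : ℝ} (hx1 : 1 / Real.sqrt 2 ≤ x) (hx2 : x ≤ 1) (hP : PlnHt x) :
    ∃ K : ℝ, ∀ N : ℕ, 1 ≤ N → ∀ b : TV →₀ ℝ, latTot b = 0 → (∀ u ∈ b.support, latN u ≤ N) →
      (∀ u, |b u| ≤ 1 / (N : ℝ) ^ 2) → htGam x b b ≤ K := by
  obtain ⟨C0, hC⟩ := exit_mom_plane x hx1 hx2
  obtain ⟨C, -, hM⟩ := hC 2
  refine ⟨(C * 10) ^ 2, fun N hN b hb hs hsup => ?_⟩
  have hN' : (1 : ℝ) ≤ N := by exact_mod_cast hN
  have hsub : b.support ⊆ latBall 0 N := fun u hu => by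
    rw [lat_mem_ball, sub_zero]; exact hs u hu
  have hsm : MomSm 0 N 10 b := by
    refine ⟨hsub, ?_, fun u => ?_⟩
    · calc ∑ u ∈ b.support, |b u| ≤ ∑ _u ∈ b.support, 1 / (N : ℝ) ^ 2 := Finset.sum_le_sum fun u _ => hsup u
        _ = (b.support.card : ℝ) * (1 / (N : ℝ) ^ 2) := by rw [Finset.sum_const, nsmul_eq_mul]
        _ ≤ (9 * (N : ℝ) ^ 2 + 1) * (1 / (N : ℝ) ^ 2) := by
            gcongr
            exact (by exact_mod_cast Finset.card_le_card hsub : (b.support.card : ℝ) ≤ (latBall 0 N).card).trans (pli_ball_card N)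
        _ ≤ 10 := by
            rw [mul_one_div, div_le_iff₀ (by positivity)]
            nlinarith
    · calc |b u| * (N : ℝ) ^ 2 ≤ 1 / (N : ℝ) ^ 2 * (N : ℝ) ^ 2 := by gcongr; exact hsup u
        _ = 1 := by field_simp
        _ ≤ 10 := by norm_num
  refine le_of_tendsto (pli_gam_tendsto hP hb hb) ?_
  filter_upwards [eventually_ge_atTop (C0 * N)] with R hR
  have := hM (latBall 0 R) 0 N 10 b (plh_ball_compl_conn 0 R) hN (pli_ball_mono hR) hsm hb
  refine le_trans (le_of_eq ?_) this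
  exact ht_E_congr _ _ _ (fun h _ => by rw [sq_abs, sq])

/-! ### E. nondegeneracy -/

/-- coordinates of a point of a face -/
theorem pli_face_coord {δ : ℝ} (hδ : 0 < δ) {u : TV} {z : ℝ × ℝ} (h : z ∈ hexFace δ u) :
    |z.1 - δ * ((u.1 : ℝ) + (u.2 : ℝ) / 2)| ≤ δ ∧ |z.2 - δ * ((u.2 : ℝ) * Real.sqrt 3 / 2)| ≤ δ := by
  have h1 := hg_hexFace_sqDist_le hδ h
  unfold sqDist triPos at h1
  simp only at h1
  constructor
  · refine abs_le_of_sq_le_sq' ?_ hδ.le |> abs_le.2
    nlinarith [sq_nonneg (z.2 - δ * ((u.2 : ℝ) * Real.sqrt 3 / 2)), sq_nonneg δ]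
  · refine abs_le_of_sq_le_sq' ?_ hδ.le |> abs_le.2
    nlinarith [sq_nonneg (z.1 - δ * ((u.1 : ℝ) + (u.2 : ℝ) / 2)), sq_nonneg δ]

theorem pli_N_cast (u : TV) : ((latN u : ℕ) : ℝ) = max (max |(u.1 : ℝ)| |(u.2 : ℝ)|) |(u.1 : ℝ) + (u.2 : ℝ)| := by
  unfold latN
  push_cast
  simp [Nat.cast_natAbs]

/-- a face meeting the small square is close to the origin -/
theorem pli_face_near {δ : ℝ} (hδ : 0 < δ) (hδ' : δ ≤ 1 / 4) {u : TV} {z : ℝ × ℝ} (h : z ∈ hexFace δ u)
    (h1 : |z.1| ≤ 1 / 10) (h2 : |z.2| ≤ 1 / 10) : δ * (latN u : ℝ) ≤ 1 := by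
  obtain ⟨a, b⟩ := pli_face_coord hδ h
  have hs : (3 : ℝ) / 2 ≤ Real.sqrt 3 := by
    rw [show (3 : ℝ) / 2 = Real.sqrt ((3 / 2) ^ 2) by rw [Real.sqrt_sq (by norm_num)]]
    exact Real.sqrt_le_sqrt (by norm_num)
  rw [abs_le] at a b h1 h2
  have hn : |δ * (u.2 : ℝ)| ≤ 4 / 3 * (1 / 10 + δ) := by
    rw [abs_le]
    constructor
    · by_contra hcon
      push Not at hcon
      have : δ * (u.2 : ℝ) < 0 := by linarith
      nlinarith [a.1, a.2, b.1, b.2, h1.1, h1.2, h2.1, h2.2]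
    · by_contra hcon
      push Not at hcon
      have : 0 < δ * (u.2 : ℝ) := by linarith
      nlinarith [a.1, a.2, b.1, b.2, h1.1, h1.2, h2.1, h2.2]
  rw [abs_le] at hn
  rw [pli_N_cast, mul_max_of_nonneg _ _ hδ.le, mul_max_of_nonneg _ _ hδ.le, ← abs_of_pos hδ, ← abs_mul, ← abs_mul, ← abs_mul]
  refine max_le (max_le ?_ ?_) ?_ <;> rw [abs_le] <;> constructor <;> nlinarith [a.1, a.2, b.1, b.2, h1.1, h1.2, h2.1, h2.2, hn.1, hn.2]

/-- the first coordinate on a face -/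
theorem pli_face_far {δ : ℝ} (hδ : 0 < δ) {u : TV} {z : ℝ × ℝ} (h : z ∈ hexFace δ u) : z.1 ≤ δ * (latN u : ℝ) + δ := by
  obtain ⟨a, -⟩ := pli_face_coord hδ h
  rw [abs_le] at a
  have h1 : (u.1 : ℝ) ≤ latN u := by
    rw [pli_N_cast]; exact (le_abs_self _).trans ((le_max_left _ _).trans (le_max_left _ _))
  have h2 : (u.1 : ℝ) + (u.2 : ℝ) ≤ latN u := by
    rw [pli_N_cast]; exact (le_abs_self _).trans (le_max_right _ _)
  nlinarith [a.1, a.2]

/-- the normalised bump in the square of half side `1 / 10` -/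
noncomputable def pliBump : ℝ × ℝ → ℝ :=
  (⟨1 / 20, 1 / 10, by norm_num, by norm_num⟩ : ContDiffBump (0 : ℝ × ℝ)).normed volume

theorem pli_bump_eqns_cite : True := by
  have := @pliBump.eq_1
  trivial

theorem pli_bump_smooth : ContDiff ℝ ((⊤ : ℕ∞) : WithTop ℕ∞) pliBump := ContDiffBump.contDiff_normed _

theorem pli_bump_comp : HasCompactSupport pliBump := ContDiffBump.hasCompactSupport_normed _

theorem pli_bump_int : ∫ z, pliBump z = 1 := ContDiffBump.integral_normed _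

theorem pli_bump_supp {z : ℝ × ℝ} (h : pliBump z ≠ 0) : |z.1| ≤ 1 / 10 ∧ |z.2| ≤ 1 / 10 := by
  have h1 : z ∈ Function.support pliBump := h
  unfold pliBump at h1
  rw [ContDiffBump.support_normed_eq, mem_ball_zero_iff, Prod.norm_def] at h1
  simp only [Real.norm_eq_abs] at h1
  exact ⟨((le_max_left _ _).trans_lt h1).le, ((le_max_right _ _).trans_lt h1).le⟩

theorem pli_bump_T : PcvT pliBump := ⟨pli_bump_smooth.continuous, pli_bump_comp⟩

/-- TEX[lem:nondegeneracy] for the plane form.   `f = f₁ - f₂`, `f₁ = pliBump`, `f₂ = f₁ (· - (L, 0))`, `L = 2 (C1 + 1) + 2` (`C1` from `exit_mom_nondeg`).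
For small `δ` put `R = ⌈1/δ⌉₊`, `w = plnW δ f` and apply `exit_mom_nondeg` in `F = latBall 0 R'`, `R' ≥ C0 R`, `z1 = 0`, then `R' → ∞` by `pli_gam_tendsto`. -/
theorem pli_nd {x : ℝ} (hx1 : 1 / Real.sqrt 2 ≤ x) (hx2 : x ≤ 1) (hP : PlnHt x) :
    ∃ f : ℝ × ℝ → ℝ, ContDiff ℝ ((⊤ : ℕ∞) : WithTop ℕ∞) f ∧ HasCompactSupport f ∧ ∫ z, f z = 0 ∧
      (∀ δ : ℝ, 0 < δ → latTot (plnW δ f) = 0) ∧
      ∃ c : ℝ, 0 < c ∧ ∀ᶠ δ in 𝓝[>] (0 : ℝ), c ≤ htGam x (plnW δ f) (plnW δ f) := by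
  obtain ⟨c, R0, C0, C1, hc, H⟩ := exit_mom_nondeg x hx1 hx2
  set L : ℝ := 2 * ((C1 : ℝ) + 1) + 2 with hL
  set w0 : ℝ × ℝ := (-L, 0) with hw0
  have hT2 : PcvT (fun z => pliBump (z + w0)) := pli_bump_T.tr w0
  have hT : PcvT (fun z => pliBump z - pliBump (z + w0)) := pli_bump_T.sub hT2
  have hint : ∫ z, (pliBump z - pliBump (z + w0)) = 0 := by
    rw [integral_sub pli_bump_T.integrable hT2.integrable, integral_add_right_eq_self, sub_self]
  have htot : ∀ δ : ℝ, 0 < δ → latTot (plnW δ (fun z => pliBump z - pliBump (z + w0))) = 0 := fun δ hδ => by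
    rw [pcv_W_tot hδ hT, hint]
  refine ⟨fun z => pliBump z - pliBump (z + w0), ?_, hT.comp, hint, htot, c, hc, ?_⟩
  · exact pli_bump_smooth.sub (pli_bump_smooth.comp (contDiff_id.add contDiff_const))
  have hpos : (0 : ℝ) < min (1 / 4) (1 / ((R0 : ℝ) + 1)) := lt_min (by norm_num) (by positivity)
  filter_upwards [Ioo_mem_nhdsGT hpos] with δ hδ
  obtain ⟨hδ0, hδ1⟩ := hδ
  have hδ4 : δ ≤ 1 / 4 := hδ1.le.trans (min_le_left _ _)
  have hδR : δ ≤ 1 / ((R0 : ℝ) + 1) := hδ1.le.trans (min_le_right _ _)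
  set R : ℕ := ⌈1 / δ⌉₊ with hR
  have hR1 : 1 ≤ δ * (R : ℝ) := by
    have : 1 / δ ≤ (R : ℝ) := Nat.le_ceil _
    rw [div_le_iff₀ hδ0] at this
    linarith
  have hR2 : δ * (R : ℝ) ≤ 2 := by
    have : (R : ℝ) < 1 / δ + 1 := Nat.ceil_lt_add_one (by positivity)
    have h2 : δ * (R : ℝ) < δ * (1 / δ + 1) := mul_lt_mul_of_pos_left this hδ0
    have h3 : δ * (1 / δ + 1) = 1 + δ := by field_simp
    linarith
  have hR0 : R0 ≤ R := by
    have h1 : ((R0 : ℝ) + 1) * δ ≤ 1 := by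
      rw [le_div_iff₀ (by positivity)] at hδR
      linarith
    have h2 : (R0 : ℝ) * δ ≤ (R : ℝ) * δ := by nlinarith
    exact_mod_cast le_of_mul_le_mul_right h2 hδ0
  set w := plnW δ (fun z => pliBump z - pliBump (z + w0)) with hw
  have hw1 : w = plnW δ pliBump - plnW δ (fun z => pliBump (z + w0)) := pcv_W_sub hδ0 pli_bump_T hT2
  -- faces near the origin miss the second bump
  have far : ∀ u : TV, latN u ≤ (C1 + 1) * R → plnW δ (fun z => pliBump (z + w0)) u = 0 := by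
    intro u hu
    rw [pcv_W_apply hδ0 hT2]
    by_contra hcon
    obtain ⟨z, hz, hfz⟩ := pcv_latW_supp hcon
    have h1 := (pli_bump_supp hfz).1
    have h2 := pli_face_far hδ0 hz
    have h3 : (latN u : ℝ) ≤ ((C1 : ℝ) + 1) * R := by exact_mod_cast hu
    have h4 : δ * (latN u : ℝ) ≤ ((C1 : ℝ) + 1) * 2 := by
      calc δ * (latN u : ℝ) ≤ δ * (((C1 : ℝ) + 1) * R) := by gcongr
        _ = ((C1 : ℝ) + 1) * (δ * R) := by ring
        _ ≤ ((C1 : ℝ) + 1) * 2 := by gcongr
    rw [abs_le] at h1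
    simp only [hw0, Prod.fst_add] at h1
    linarith [h1.1]
  -- faces meeting the first bump are in the ball of radius `R`
  have near : ∀ u : TV, ¬ latN u ≤ R → plnW δ pliBump u = 0 := by
    intro u hu
    rw [pcv_W_apply hδ0 pli_bump_T]
    by_contra hcon
    obtain ⟨z, hz, hfz⟩ := pcv_latW_supp hcon
    obtain ⟨h1, h2⟩ := pli_bump_supp hfz
    have h3 := pli_face_near hδ0 hδ4 hz h1 h2
    apply hu
    have h4 : δ * (latN u : ℝ) ≤ δ * (R : ℝ) := h3.trans hR1
    exact_mod_cast le_of_mul_le_mul_left h4 hδ0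
  have collar : ∀ u ∈ latBall 0 (C1 * R), u ∉ latBall 0 R → w u = 0 := by
    intro u hu hu'
    rw [lat_mem_ball, sub_zero] at hu hu'
    rw [hw1, Finsupp.sub_apply, near u hu', far u (hu.trans (Nat.mul_le_mul_right _ (Nat.le_succ _))), sub_zero]
  have mass : ∑ u ∈ latBall 0 R, w u = 1 := by
    have e1 : ∑ u ∈ latBall 0 R, w u = ∑ u ∈ latBall 0 R, plnW δ pliBump u := by
      refine Finset.sum_congr rfl fun u hu => ?_
      rw [lat_mem_ball, sub_zero] at hu
      rw [hw1, Finsupp.sub_apply, far u (hu.trans (Nat.le_mul_of_pos_left _ (Nat.succ_pos _))), sub_zero]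
    rw [e1, ← pli_bump_int, ← pcv_W_tot hδ0 pli_bump_T]
    unfold latTot Finsupp.sum
    refine (Finset.sum_subset ?_ ?_).symm
    · intro u hu
      rw [lat_mem_ball, sub_zero]
      by_contra hcon
      exact (Finsupp.mem_support_iff.1 hu) (near u hcon)
    · intro u _ hu
      exact Finsupp.notMem_support_iff.1 hu
  refine ge_of_tendsto (pli_gam_tendsto hP (htot δ hδ0) (htot δ hδ0)) ?_
  filter_upwards [eventually_ge_atTop (C0 * R)] with R' hR'
  have := H (latBall 0 R') 0 R w (plh_ball_compl_conn 0 R') hR0 (pli_ball_mono hR') collar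
  rw [mass, one_pow, mul_one] at this
  refine this.trans (le_of_eq ?_)
  exact ht_E_congr _ _ _ (fun h _ => by rw [sq])

/-- **B5a**: the plane law satisfies the hypotheses of Sec. 4 -/
theorem pli_in {x : ℝ} (hx1 : 1 / Real.sqrt 2 ≤ x) (hx2 : x ≤ 1) (hP : PlnHt x) : PlnIn (plnVg x) := by
  have hx : 0 < x := lt_of_lt_of_le (by positivity) hx1
  refine ⟨pli_vg_zero x, fun b hb => ?_, pli_vg_rot x, pli_vg_refl x, fun b hb hs => ?_, ?_, ?_⟩
  · rw [← pli_gam_eq hP hb hb]; exact pli_gam_psd hx hP hb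
  · have hb' : latTot (plnMap latRefl b) = 0 := by
      unfold latTot plnMap
      rw [Finsupp.sum_mapDomain_index (fun _ => rfl) (fun _ _ _ => rfl)]
      exact hb
    rw [← pli_gam_eq hP hb' hb]; exact pli_rp hx hP hb hs
  · obtain ⟨K, hK⟩ := pli_sm hx1 hx2 hP
    exact ⟨K, fun N hN b hb hs hsup => by rw [← pli_gam_eq hP hb hb]; exact hK N hN b hb hs hsup⟩
  · obtain ⟨f, h1, h2, h3, h4, c, hc, h5⟩ := pli_nd hx1 hx2 hP
    refine ⟨f, h1, h2, h3, c, hc, ?_⟩
    filter_upwards [h5, self_mem_nhdsWithin] with δ hδ hpos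
    rw [← pli_gam_eq hP (h4 δ hpos) (h4 δ hpos)]; exact hδ

end Claimed.Agent.R291
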