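import Claimed.Agent.R291.Pln.PcvA

/-!
# Row 291 (S0539), Sec. 4, unit PLN, box B3-II, part B : dyadic sums on `Cf`, the core limit      (owner helper90; prefix `pcv`)

See the header of `Pln/PcvA.lean`.      TEX[04-plane.tex l.680-700]
-/

set_option autoImplicit false

namespace Claimed.Agent.R291

open Claims Claims.C0467 MeasureTheory Filter Topology
open scoped ENNReal ComplexConjugate

/-! ## E. the measure `Cf` : dyadic sums -/

/-- the symbol dominates `|p|²` on the box (`Real.cos_quadratic_upper_bound`) -/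
theorem pcv_DD_ge {p : ℝ × ℝ} (hp : p ∈ plnBox) : 4 / (3 * Real.pi ^ 2) * plnSq p ≤ plnDD p := by
  obtain ⟨h1, h2⟩ := hp
  have hs : Real.sqrt 3 ^ 2 = 3 := Real.sq_sqrt (by norm_num)
  have hpi : 0 < Real.pi := Real.pi_pos
  set θ₁ : ℝ := p.1 with hθ₁
  set θ₂ : ℝ := (p.1 + Real.sqrt 3 * p.2) / 2 with hθ₂
  have e1 : plnPh p (1, 0) = θ₁ := by simp [plnPh, hθ₁]
  have e2 : plnPh p (0, 1) = θ₂ := by simp [plnPh, hθ₂]; ring
  have c1 : Real.cos θ₁ ≤ 1 - 2 / Real.pi ^ 2 * θ₁ ^ 2 :=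
    Real.cos_le_one_sub_mul_cos_sq (abs_le.2 ⟨h1.1.le, h1.2⟩)
  have c2 : Real.cos θ₂ ≤ 1 - 2 / Real.pi ^ 2 * θ₂ ^ 2 :=
    Real.cos_le_one_sub_mul_cos_sq (abs_le.2 ⟨h2.1.le, h2.2⟩)
  have c3 : Real.cos (plnPh p (-1, 1)) ≤ 1 := Real.cos_le_one _
  have hsq : plnSq p = (4 * θ₁ ^ 2 - 4 * θ₁ * θ₂ + 4 * θ₂ ^ 2) / 3 := by
    have : (2 * θ₂ - θ₁) ^ 2 = 3 * p.2 ^ 2 := by
      rw [hθ₂, hθ₁]
      have : 2 * ((p.1 + Real.sqrt 3 * p.2) / 2) - p.1 = Real.sqrt 3 * p.2 := by ring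
      rw [this, mul_pow, hs]
    unfold plnSq
    nlinarith [this]
  have hq : plnSq p ≤ 2 * (θ₁ ^ 2 + θ₂ ^ 2) := by
    rw [hsq]; nlinarith [sq_nonneg (θ₁ + θ₂)]
  have hk : 0 < 2 / Real.pi ^ 2 := by positivity
  unfold plnDD
  rw [e1, e2]
  have h5 : 4 / (3 * Real.pi ^ 2) * plnSq p ≤ 4 / (3 * Real.pi ^ 2) * (2 * (θ₁ ^ 2 + θ₂ ^ 2)) :=
    mul_le_mul_of_nonneg_left hq (by positivity)
  have h6 : 4 / (3 * Real.pi ^ 2) * (2 * (θ₁ ^ 2 + θ₂ ^ 2)) = 4 / 3 * (2 / Real.pi ^ 2 * θ₁ ^ 2 + 2 / Real.pi ^ 2 * θ₂ ^ 2) := by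
    field_simp
  have h7 : 0 ≤ 2 / Real.pi ^ 2 * θ₁ ^ 2 := by positivity
  have h8 : 0 ≤ 2 / Real.pi ^ 2 * θ₂ ^ 2 := by positivity
  linarith

/-- geometric summation over a countable cover -/
theorem pcv_geo {α : Type*} [MeasurableSpace α] {μ : Measure α} {S : ℕ → Set α} {w : α → ℝ≥0∞} {A : Set α}
    (hS : ∀ j, MeasurableSet (S j)) (hA : A ⊆ ⋃ j, S j) {K t : ℝ} (hK : 0 ≤ K) (ht : 0 ≤ t) (hμ : ∀ j, μ (S j) ≤ ENNReal.ofReal K)
    (hw : ∀ j, ∀ p ∈ S j, w p ≤ ENNReal.ofReal (t / 4 ^ j)) :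
    ∫⁻ p in A, w p ∂μ ≤ ENNReal.ofReal (4 / 3 * K * t) := by
  have h1 : ∀ j, ∫⁻ p in S j, w p ∂μ ≤ ENNReal.ofReal (K * t * (1 / 4) ^ j) := by
    intro j
    calc ∫⁻ p in S j, w p ∂μ ≤ ∫⁻ _p in S j, ENNReal.ofReal (t / 4 ^ j) ∂μ := setLIntegral_mono' (hS j) (hw j)
      _ = ENNReal.ofReal (t / 4 ^ j) * μ (S j) := by rw [setLIntegral_const]
      _ ≤ ENNReal.ofReal (t / 4 ^ j) * ENNReal.ofReal K := by gcongr; exact hμ j
      _ = ENNReal.ofReal (K * t * (1 / 4) ^ j) := by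
          rw [← ENNReal.ofReal_mul (by positivity)]
          congr 1
          rw [one_div, inv_pow]; ring
  have hsum : HasSum (fun j : ℕ => K * t * (1 / 4 : ℝ) ^ j) (K * t * (1 - 1 / 4)⁻¹) :=
    (hasSum_geometric_of_lt_one (by norm_num) (by norm_num)).mul_left _
  calc ∫⁻ p in A, w p ∂μ ≤ ∫⁻ p in ⋃ j, S j, w p ∂μ := lintegral_mono_set hA
    _ ≤ ∑' j, ∫⁻ p in S j, w p ∂μ := lintegral_iUnion_le _ _
    _ ≤ ∑' j : ℕ, ENNReal.ofReal (K * t * (1 / 4) ^ j) := ENNReal.tsum_le_tsum h1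
    _ = ENNReal.ofReal (∑' j : ℕ, K * t * (1 / 4 : ℝ) ^ j) :=
        (ENNReal.ofReal_tsum_of_nonneg (fun j => by positivity) hsum.summable).symm
    _ = ENNReal.ofReal (4 / 3 * K * t) := by
        rw [hsum.tsum_eq]; congr 1; norm_num; ring

theorem pcv_sq_meas : Measurable plnSq := by
  unfold plnSq
  fun_prop

theorem pcv_box_meas : MeasurableSet plnBox := by
  have h1 : Measurable fun p : ℝ × ℝ => p.1 := measurable_fst
  have h2 : Measurable fun p : ℝ × ℝ => (p.1 + Real.sqrt 3 * p.2) / 2 := by fun_prop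
  exact (h1 measurableSet_Ioc).inter (h2 measurableSet_Ioc)

theorem pcv_ann_meas (r s : ℝ) : MeasurableSet {p : ℝ × ℝ | r ≤ plnSq p ∧ plnSq p ≤ s} :=
  pcv_sq_meas measurableSet_Icc

/-- low frequencies: `∫_{|p| ≤ ρ} |p|² dCf ≤ 2 K ρ²` -/
theorem pcv_low {a : TV → ℝ} {Cf : Measure (ℝ × ℝ)} {K : ℝ} (hs : PlnSpec a Cf K) {ρ : ℝ} (hρ : 0 < ρ) (hρ1 : ρ ≤ 1) :
    ∫⁻ p in {p | plnSq p ≤ ρ ^ 2}, ENNReal.ofReal (plnSq p) ∂Cf ≤ ENNReal.ofReal (2 * max K 0 * ρ ^ 2) := by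
  have hK0 : 0 ≤ max K 0 := le_max_right _ _
  set r : ℕ → ℝ := fun j => ρ / 2 ^ (j + 1) with hr
  have hr0 : ∀ j, 0 < r j := fun j => by positivity
  have hr1 : ∀ j, r j ^ 2 = ρ ^ 2 * (1 / 4) ^ (j + 1) := by
    intro j
    simp only [hr]
    rw [div_pow, ← pow_mul, mul_comm (j + 1) 2, pow_mul, div_eq_mul_inv, one_div, inv_pow]
    norm_num
  have hr2 : ∀ j, 4 * r j ^ 2 = ρ ^ 2 / 4 ^ j := by
    intro j
    rw [hr1 j, pow_succ, one_div, inv_pow]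
    ring
  have hrh : ∀ j, r j ≤ 1 / 2 := by
    intro j
    simp only [hr]
    rw [div_le_iff₀ (by positivity), pow_succ]
    have : (1 : ℝ) ≤ 2 ^ j := one_le_pow₀ (by norm_num)
    nlinarith
  set S : ℕ → Set (ℝ × ℝ) := fun j => {p | r j ^ 2 ≤ plnSq p ∧ plnSq p ≤ 4 * r j ^ 2} ∪ {0} with hS
  have h := pcv_geo (μ := Cf) (S := S) (w := fun p => ENNReal.ofReal (plnSq p)) (A := {p | plnSq p ≤ ρ ^ 2})
    (K := max K 0) (t := ρ ^ 2) (fun j => (pcv_ann_meas _ _).union (measurableSet_singleton _)) ?_ hK0 (by positivity) ?_ ?_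
  · refine h.trans (ENNReal.ofReal_le_ofReal ?_)
    have : 0 ≤ max K 0 * ρ ^ 2 := by positivity
    nlinarith
  · intro p hp
    rw [Set.mem_iUnion]
    by_cases h0 : plnSq p = 0
    · refine ⟨0, Or.inr ?_⟩
      unfold plnSq at h0
      have h1 : p.1 = 0 := by nlinarith [sq_nonneg p.1, sq_nonneg p.2]
      have h2 : p.2 = 0 := by nlinarith [sq_nonneg p.1, sq_nonneg p.2]
      exact Prod.ext h1 h2
    · have hpos : 0 < plnSq p := lt_of_le_of_ne (by unfold plnSq; positivity) (Ne.symm h0)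
      have hρ2 : 0 < ρ ^ 2 := by positivity
      obtain ⟨n, hn1, hn2⟩ := exists_nat_pow_near_of_lt_one (x := plnSq p / ρ ^ 2) (y := 1 / 4) (by positivity)
        ((div_le_one hρ2).2 hp) (by norm_num) (by norm_num)
      refine ⟨n, Or.inl ⟨?_, ?_⟩⟩
      · rw [hr1 n]
        rw [lt_div_iff₀ hρ2] at hn1
        linarith
      · rw [hr2 n]
        rw [div_le_iff₀ hρ2, one_div, inv_pow] at hn2
        rw [div_eq_mul_inv, mul_comm]
        exact hn2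
  · intro j
    calc Cf (S j) ≤ Cf {p | r j ^ 2 ≤ plnSq p ∧ plnSq p ≤ 4 * r j ^ 2} + Cf {0} := measure_union_le _ _
      _ ≤ ENNReal.ofReal K + 0 := by
          gcongr
          · exact hs.ann (r j) (hr0 j) (hrh j)
          · exact hs.zero.le
      _ ≤ ENNReal.ofReal (max K 0) := by rw [add_zero]; exact ENNReal.ofReal_le_ofReal (le_max_left _ _)
  · intro j p hp
    refine ENNReal.ofReal_le_ofReal ?_
    rcases hp with hp | hp
    · rw [← hr2 j]; exact hp.2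
    · rw [Set.mem_singleton_iff] at hp
      subst hp
      have : plnSq (0 : ℝ × ℝ) = 0 := by simp [plnSq]
      rw [this]
      positivity

/-- high frequencies: `∫_{|p| ≥ ρ} dCf / plnDD ≤ K' / ρ²`   (dyadic annuli up to `|p| < 1/2`, then `PlnSpec.far`) -/
theorem pcv_high {a : TV → ℝ} {Cf : Measure (ℝ × ℝ)} {K : ℝ} (hs : PlnSpec a Cf K) :
    ∃ K' : ℝ, 0 ≤ K' ∧ ∀ ρ : ℝ, 0 < ρ → ρ ≤ 1 →
      ∫⁻ p in {p | ρ ^ 2 ≤ plnSq p}, ENNReal.ofReal (1 / plnDD p) ∂Cf ≤ ENNReal.ofReal (K' / ρ ^ 2) := by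
  have hK0 : 0 ≤ max K 0 := le_max_right _ _
  have hpi : 0 < Real.pi := Real.pi_pos
  refine ⟨(Real.pi ^ 2 + 9 * Real.pi ^ 4) * max K 0, by positivity, ?_⟩
  intro ρ hρ hρ1
  have hρ2 : 0 < ρ ^ 2 := by positivity
  have hB : ∀ᵐ p ∂Cf, p ∈ plnBox := mem_ae_iff.2 hs.box
  set A1 : Set (ℝ × ℝ) := {p | ρ ^ 2 ≤ plnSq p ∧ plnSq p ≤ 1 / 4} ∩ plnBox with hA1
  set A2 : Set (ℝ × ℝ) := {p | 1 / 4 ≤ plnSq p} ∩ plnBox with hA2
  have hsub : ({p | ρ ^ 2 ≤ plnSq p} : Set (ℝ × ℝ)) ≤ᵐ[Cf] (A1 ∪ A2 : Set (ℝ × ℝ)) := by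
    filter_upwards [hB] with p hp hpA
    rcases le_total (plnSq p) (1 / 4) with h | h
    · exact Or.inl ⟨⟨hpA, h⟩, hp⟩
    · exact Or.inr ⟨h, hp⟩
  -- part 1
  have h1 : ∫⁻ p in A1, ENNReal.ofReal (1 / plnDD p) ∂Cf ≤ ENNReal.ofReal (Real.pi ^ 2 * max K 0 / ρ ^ 2) := by
    set S : ℕ → Set (ℝ × ℝ) := fun j =>
      ({p | (ρ * 2 ^ j) ^ 2 ≤ plnSq p ∧ plnSq p ≤ 4 * (ρ * 2 ^ j) ^ 2} ∩ {p | plnSq p ≤ 1 / 4}) ∩ plnBox with hS
    have e4 : ∀ j : ℕ, (ρ * 2 ^ j) ^ 2 = ρ ^ 2 * 4 ^ j := by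
      intro j
      rw [mul_pow, ← pow_mul, mul_comm j 2, pow_mul]; norm_num
    have h := pcv_geo (μ := Cf) (S := S) (w := fun p => ENNReal.ofReal (1 / plnDD p)) (A := A1)
      (K := max K 0) (t := 3 * Real.pi ^ 2 / (4 * ρ ^ 2))
      (fun j => ((pcv_ann_meas _ _).inter (pcv_sq_meas measurableSet_Iic)).inter pcv_box_meas) ?_ hK0 (by positivity) ?_ ?_
    · refine h.trans (ENNReal.ofReal_le_ofReal (le_of_eq ?_))
      field_simp
    · rintro p ⟨⟨hp1, hp2⟩, hp3⟩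
      rw [Set.mem_iUnion]
      obtain ⟨n, hn1, hn2⟩ := exists_nat_pow_near (x := plnSq p / ρ ^ 2) (y := 4) ((one_le_div hρ2).2 hp1) (by norm_num)
      refine ⟨n, ⟨⟨⟨?_, ?_⟩, hp2⟩, hp3⟩⟩
      · rw [e4, mul_comm]; exact (le_div_iff₀ hρ2).1 hn1
      · rw [e4]
        have := (div_lt_iff₀ hρ2).1 hn2
        rw [pow_succ] at this
        nlinarith
    · intro j
      by_cases hj : ρ * 2 ^ j ≤ 1 / 2
      · refine (measure_mono ?_).trans ((hs.ann (ρ * 2 ^ j) (by positivity) hj).trans (ENNReal.ofReal_le_ofReal (le_max_left _ _)))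
        rintro p ⟨⟨hp, -⟩, -⟩
        exact hp
      · have : S j = ∅ := by
          rw [Set.eq_empty_iff_forall_notMem]
          rintro p ⟨⟨⟨hp1, -⟩, hp2⟩, -⟩
          rw [not_le] at hj
          have hp2' : plnSq p ≤ 1 / 4 := hp2
          nlinarith
        rw [this, measure_empty]
        exact zero_le
    · rintro j p ⟨⟨⟨hp1, -⟩, -⟩, hp3⟩
      refine ENNReal.ofReal_le_ofReal ?_
      have hD := pcv_DD_ge hp3
      rw [e4] at hp1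
      have h4 : (0 : ℝ) < 4 ^ j := by positivity
      have hlow : 4 / (3 * Real.pi ^ 2) * (ρ ^ 2 * 4 ^ j) ≤ plnDD p :=
        (mul_le_mul_of_nonneg_left hp1 (by positivity)).trans hD
      have hpos : 0 < 4 / (3 * Real.pi ^ 2) * (ρ ^ 2 * 4 ^ j) := by positivity
      refine (one_div_le_one_div_of_le hpos hlow).trans (le_of_eq ?_)
      field_simp
  -- part 2
  have h2 : ∫⁻ p in A2, ENNReal.ofReal (1 / plnDD p) ∂Cf ≤ ENNReal.ofReal (9 * Real.pi ^ 4 * max K 0) := by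
    have hA2m : MeasurableSet A2 := (pcv_sq_meas measurableSet_Ici).inter pcv_box_meas
    calc ∫⁻ p in A2, ENNReal.ofReal (1 / plnDD p) ∂Cf
        ≤ ∫⁻ p in A2, ENNReal.ofReal (9 * Real.pi ^ 4) * ENNReal.ofReal (plnDD p) ∂Cf := by
          refine setLIntegral_mono' hA2m ?_
          rintro p ⟨hp1, hp2⟩
          rw [← ENNReal.ofReal_mul (by positivity)]
          refine ENNReal.ofReal_le_ofReal ?_
          have hD := pcv_DD_ge hp2
          have hp1' : 1 / 4 ≤ plnSq p := hp1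
          have hlow : 1 / (3 * Real.pi ^ 2) ≤ plnDD p := by
            refine le_trans (le_of_eq ?_) ((mul_le_mul_of_nonneg_left hp1' (by positivity)).trans hD)
            field_simp
          have hm : 0 < 1 / (3 * Real.pi ^ 2) := by positivity
          have hDpos : 0 < plnDD p := lt_of_lt_of_le hm hlow
          rw [div_le_iff₀ hDpos]
          have h5 : (1 / (3 * Real.pi ^ 2)) * (1 / (3 * Real.pi ^ 2)) ≤ plnDD p * plnDD p :=
            mul_le_mul hlow hlow hm.le hDpos.le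
          have h6 : 9 * Real.pi ^ 4 * ((1 / (3 * Real.pi ^ 2)) * (1 / (3 * Real.pi ^ 2))) = 1 := by
            field_simp
            ring
          calc (1 : ℝ) = 9 * Real.pi ^ 4 * ((1 / (3 * Real.pi ^ 2)) * (1 / (3 * Real.pi ^ 2))) := h6.symm
            _ ≤ 9 * Real.pi ^ 4 * (plnDD p * plnDD p) := mul_le_mul_of_nonneg_left h5 (by positivity)
            _ = 9 * Real.pi ^ 4 * plnDD p * plnDD p := by ring
      _ ≤ ∫⁻ p, ENNReal.ofReal (9 * Real.pi ^ 4) * ENNReal.ofReal (plnDD p) ∂Cf := setLIntegral_le_lintegral _ _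
      _ = ENNReal.ofReal (9 * Real.pi ^ 4) * ∫⁻ p, ENNReal.ofReal (plnDD p) ∂Cf := lintegral_const_mul' _ _ ENNReal.ofReal_ne_top
      _ ≤ ENNReal.ofReal (9 * Real.pi ^ 4) * ENNReal.ofReal (max K 0) := by
          gcongr
          exact hs.far.trans (ENNReal.ofReal_le_ofReal (le_max_left _ _))
      _ = ENNReal.ofReal (9 * Real.pi ^ 4 * max K 0) := (ENNReal.ofReal_mul (by positivity)).symm
  calc ∫⁻ p in {p | ρ ^ 2 ≤ plnSq p}, ENNReal.ofReal (1 / plnDD p) ∂Cf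
      ≤ ∫⁻ p in A1 ∪ A2, ENNReal.ofReal (1 / plnDD p) ∂Cf := lintegral_mono_set' hsub
    _ ≤ ∫⁻ p in A1, ENNReal.ofReal (1 / plnDD p) ∂Cf + ∫⁻ p in A2, ENNReal.ofReal (1 / plnDD p) ∂Cf := lintegral_union_le _ _ _
    _ ≤ ENNReal.ofReal (Real.pi ^ 2 * max K 0 / ρ ^ 2) + ENNReal.ofReal (9 * Real.pi ^ 4 * max K 0) := add_le_add h1 h2
    _ = ENNReal.ofReal (Real.pi ^ 2 * max K 0 / ρ ^ 2 + 9 * Real.pi ^ 4 * max K 0) := (ENNReal.ofReal_add (by positivity) (by positivity)).symm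
    _ ≤ ENNReal.ofReal ((Real.pi ^ 2 + 9 * Real.pi ^ 4) * max K 0 / ρ ^ 2) := by
        refine ENNReal.ofReal_le_ofReal ?_
        have h7 : 9 * Real.pi ^ 4 * max K 0 ≤ 9 * Real.pi ^ 4 * max K 0 / ρ ^ 2 := by
          rw [le_div_iff₀ hρ2]
          have : ρ ^ 2 ≤ 1 := pow_le_one₀ hρ.le hρ1
          have h8 : 0 ≤ 9 * Real.pi ^ 4 * max K 0 := by positivity
          nlinarith
        rw [add_mul, add_div]
        linarith

/-- from a `lintegral` bound to a bound of the Bochner integral -/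
theorem pcv_int_bound {α : Type*} [MeasurableSpace α] {μ : Measure α} {F : α → ℝ} (hF : AEStronglyMeasurable F μ)
    {G : α → ℝ≥0∞} (h : ∀ᵐ p ∂μ, ENNReal.ofReal |F p| ≤ G p) {C : ℝ} (hG : ∫⁻ p, G p ∂μ ≤ ENNReal.ofReal C) :
    Integrable F μ ∧ |∫ p, F p ∂μ| ≤ max C 0 := by
  have h1 : ∫⁻ p, ENNReal.ofReal ‖F p‖ ∂μ ≤ ENNReal.ofReal C := (lintegral_mono_ae h).trans hG
  refine ⟨⟨hF, ?_⟩, ?_⟩
  · rw [hasFiniteIntegral_iff_norm]
    exact lt_of_le_of_lt h1 ENNReal.ofReal_lt_top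
  · have h2 := norm_integral_le_lintegral_norm (μ := μ) F
    rw [Real.norm_eq_abs] at h2
    refine h2.trans ?_
    have h3 := ENNReal.toReal_mono ENNReal.ofReal_ne_top h1
    rw [ENNReal.toReal_ofReal'] at h3
    exact h3

/-! ## F. the core limit -/

theorem pcv_ramp_nonneg (t : ℝ) : 0 ≤ pcvRamp t := le_max_left _ _

theorem pcv_ramp_le_one (t : ℝ) : pcvRamp t ≤ 1 := max_le zero_le_one (min_le_left _ _)

theorem pcv_ramp_zero {t : ℝ} (h : t ≤ 1) : pcvRamp t = 0 := by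
  unfold pcvRamp
  rw [max_eq_left]
  exact (min_le_right _ _).trans (by linarith)

theorem pcv_ramp_one {t : ℝ} (h : 2 ≤ t) : pcvRamp t = 1 := by
  unfold pcvRamp
  rw [min_eq_left (by linarith), max_eq_right zero_le_one]

theorem pcv_ramp_continuous : Continuous pcvRamp := by
  unfold pcvRamp
  fun_prop

theorem pcv_sq_continuous : Continuous plnSq := by
  unfold plnSq
  fun_prop

theorem pcv_sq_nonneg (p : ℝ × ℝ) : 0 ≤ plnSq p := by
  unfold plnSq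
  positivity

theorem pcv_sq_smul (t : ℝ) (p : ℝ × ℝ) : plnSq (t • p) = t ^ 2 * plnSq p := by
  unfold plnSq
  simp only [Prod.smul_fst, Prod.smul_snd, smul_eq_mul]
  ring

theorem pcv_th_nonneg (n : ℕ) (ζ : ℝ × ℝ) : 0 ≤ pcvTh n ζ :=
  mul_nonneg (pcv_ramp_nonneg _) (sub_nonneg.2 (pcv_ramp_le_one _))

theorem pcv_th_le_one (n : ℕ) (ζ : ℝ × ℝ) : pcvTh n ζ ≤ 1 :=
  mul_le_one₀ (pcv_ramp_le_one _) (sub_nonneg.2 (pcv_ramp_le_one _)) (by linarith [pcv_ramp_nonneg (plnSq ζ / (n : ℝ) ^ 2)])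

theorem pcv_th_continuous (n : ℕ) : Continuous (pcvTh n) := by
  unfold pcvTh
  exact (pcv_ramp_continuous.comp (continuous_const.mul pcv_sq_continuous)).mul
    (continuous_const.sub (pcv_ramp_continuous.comp (pcv_sq_continuous.div_const _)))

theorem pcv_th_low {n : ℕ} (hn : 1 ≤ n) {ζ : ℝ × ℝ} (h : plnSq ζ ≤ 1 / (n : ℝ) ^ 2) : pcvTh n ζ = 0 := by
  unfold pcvTh
  rw [pcv_ramp_zero, zero_mul]
  have hn' : (0 : ℝ) < (n : ℝ) ^ 2 := by positivity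
  calc (n : ℝ) ^ 2 * plnSq ζ ≤ (n : ℝ) ^ 2 * (1 / (n : ℝ) ^ 2) := mul_le_mul_of_nonneg_left h hn'.le
    _ = 1 := by field_simp

theorem pcv_th_high {n : ℕ} (hn : 1 ≤ n) {ζ : ℝ × ℝ} (h : 2 * (n : ℝ) ^ 2 ≤ plnSq ζ) : pcvTh n ζ = 0 := by
  unfold pcvTh
  have hn' : (0 : ℝ) < (n : ℝ) ^ 2 := by positivity
  rw [pcv_ramp_one (t := plnSq ζ / (n : ℝ) ^ 2) (by rw [le_div_iff₀ hn']; exact h), sub_self, mul_zero]

theorem pcv_th_mid {n : ℕ} (hn : 1 ≤ n) {ζ : ℝ × ℝ} (h1 : 2 / (n : ℝ) ^ 2 ≤ plnSq ζ) (h2 : plnSq ζ ≤ (n : ℝ) ^ 2) :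
    pcvTh n ζ = 1 := by
  unfold pcvTh
  have hn' : (0 : ℝ) < (n : ℝ) ^ 2 := by positivity
  rw [pcv_ramp_one (t := (n : ℝ) ^ 2 * plnSq ζ) (by rw [div_le_iff₀ hn'] at h1; linarith),
    pcv_ramp_zero (t := plnSq ζ / (n : ℝ) ^ 2) (by rw [div_le_iff₀ hn']; linarith)]
  ring

theorem pcv_F_le {f : ℝ × ℝ → ℝ} (ζ : ℝ × ℝ) : ‖pcvF f ζ‖ ≤ ∫ z, |f z| := by
  unfold pcvF
  refine (norm_integral_le_integral_norm _).trans (le_of_eq ?_)
  refine integral_congr_ae (Filter.Eventually.of_forall fun z => ?_)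
  simp only [norm_mul, Complex.norm_exp_I_mul_ofReal, mul_one, Complex.norm_real, Real.norm_eq_abs]

theorem pcv_F_continuous {f : ℝ × ℝ → ℝ} (hf : PcvT f) : Continuous (pcvF f) := by
  unfold pcvF
  refine continuous_of_dominated (bound := fun z => |f z|) (fun ζ => ?_) (fun ζ => Filter.Eventually.of_forall fun z => ?_)
    hf.integrable.abs (Filter.Eventually.of_forall fun z => ?_)
  · have : Continuous fun z : ℝ × ℝ => (f z : ℂ) * Complex.exp (Complex.I * ((ζ.1 * z.1 + ζ.2 * z.2 : ℝ) : ℂ)) := by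
      have := hf.cont
      fun_prop
    exact this.aestronglyMeasurable
  · simp only [norm_mul, Complex.norm_exp_I_mul_ofReal, mul_one, Complex.norm_real, Real.norm_eq_abs, le_refl]
  · fun_prop

theorem pcv_phi0_continuous {f g : ℝ × ℝ → ℝ} (hf : PcvT f) (hg : PcvT g) : Continuous (pcvPhi0 f g) := by
  unfold pcvPhi0
  exact Complex.continuous_re.comp ((Complex.continuous_conj.comp (pcv_F_continuous hf)).mul (pcv_F_continuous hg))

theorem pcv_psi_continuous {f g : ℝ × ℝ → ℝ} (hf : PcvT f) (hg : PcvT g) {n : ℕ} (hn : 1 ≤ n) :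
    Continuous (pcvPsi f g n) := by
  unfold pcvPsi
  refine ((pcv_phi0_continuous hf hg).mul (pcv_th_continuous n)).div (pcv_sq_continuous.max continuous_const) fun ζ => ?_
  have hn' : (0 : ℝ) < 1 / (n : ℝ) ^ 2 := by positivity
  exact (lt_of_lt_of_le hn' (le_max_right _ _)).ne'

theorem pcv_psi_compact (f g : ℝ × ℝ → ℝ) {n : ℕ} (hn : 1 ≤ n) : HasCompactSupport (pcvPsi f g n) := by
  refine HasCompactSupport.intro (isCompact_closedBall (0 : ℝ × ℝ) (2 * (n : ℝ))) fun ζ hζ => ?_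
  have h1 : 2 * (n : ℝ) < ‖ζ‖ := by
    rw [Metric.mem_closedBall, dist_zero_right, not_le] at hζ
    exact hζ
  have hn0 : (0 : ℝ) ≤ (n : ℝ) := Nat.cast_nonneg n
  have h2 : ‖ζ‖ ^ 2 ≤ plnSq ζ := by
    unfold plnSq
    rw [Prod.norm_def]
    rcases le_total ‖ζ.1‖ ‖ζ.2‖ with h | h
    · rw [max_eq_right h, Real.norm_eq_abs, sq_abs]
      nlinarith [sq_nonneg ζ.1]
    · rw [max_eq_left h, Real.norm_eq_abs, sq_abs]
      nlinarith [sq_nonneg ζ.2]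
  have h3 : 2 * (n : ℝ) ^ 2 ≤ plnSq ζ := by nlinarith
  unfold pcvPsi
  rw [pcv_th_high hn h3, mul_zero, zero_div]

theorem pcv_psi_mul (f g : ℝ × ℝ → ℝ) {n : ℕ} (hn : 1 ≤ n) (ζ : ℝ × ℝ) :
    pcvPsi f g n ζ * plnSq ζ = pcvPhi0 f g ζ * pcvTh n ζ := by
  have hn' : (0 : ℝ) < 1 / (n : ℝ) ^ 2 := by positivity
  rcases le_total (1 / (n : ℝ) ^ 2) (plnSq ζ) with h | h
  · unfold pcvPsi
    rw [max_eq_left h]
    exact div_mul_cancel₀ _ (lt_of_lt_of_le hn' h).ne'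
  · unfold pcvPsi
    rw [pcv_th_low hn h]
    simp

/-- `|Re (conj x y)| ≤ |x| |y|` -/
theorem pcv_re_le (x y : ℂ) : |(conj x * y).re| ≤ ‖x‖ * ‖y‖ := by
  refine (Complex.abs_re_le_norm _).trans (le_of_eq ?_)
  rw [norm_mul, Complex.norm_conj]

/-- `(|a| + |b|)² ≤ 2 (a² + b²)` -/
theorem pcv_l1_sq (p : ℝ × ℝ) : (|p.1| + |p.2|) ^ 2 ≤ 2 * plnSq p := by
  unfold plnSq
  nlinarith [sq_nonneg (|p.1| - |p.2|), sq_abs p.1, sq_abs p.2]

/-- (F1) low frequencies -/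
theorem pcv_phi_small {f g : ℝ × ℝ → ℝ} (hf : PcvT f) (hg : PcvT g) (hf0 : ∫ z, f z = 0) (hg0 : ∫ z, g z = 0) :
    ∃ M : ℝ, 0 ≤ M ∧ ∀ δ : ℝ, 0 < δ → δ ≤ 1 → ∀ p, |pcvPhi (plnW δ f) (plnW δ g) p| ≤ M * (plnSq p / δ ^ 2) := by
  obtain ⟨ρ, hρ0, hρ⟩ := hf.box
  obtain ⟨σ, hσ0, hσ⟩ := hg.box
  have hIf : 0 ≤ ∫ z, |f z| := integral_nonneg fun z => abs_nonneg _
  have hIg : 0 ≤ ∫ z, |g z| := integral_nonneg fun z => abs_nonneg _
  refine ⟨2 * ((ρ + 1) * (∫ z, |f z|) * ((σ + 1) * ∫ z, |g z|)), by positivity, fun δ hδ hδ1 p => ?_⟩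
  unfold pcvPhi
  refine (pcv_re_le _ _).trans ?_
  have h1 := pcv_hat_small hδ hδ1 hf hf0 hρ p
  have h2 := pcv_hat_small hδ hδ1 hg hg0 hσ p
  have h3 := mul_le_mul h1 h2 (norm_nonneg _) (by positivity)
  refine h3.trans ?_
  have h4 := pcv_l1_sq p
  have e : (ρ + 1) / δ * (|p.1| + |p.2|) * (∫ z, |f z|) * ((σ + 1) / δ * (|p.1| + |p.2|) * ∫ z, |g z|)
      = ((ρ + 1) * (∫ z, |f z|) * ((σ + 1) * ∫ z, |g z|)) / δ ^ 2 * (|p.1| + |p.2|) ^ 2 := by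
    field_simp
  rw [e]
  have e2 : 2 * ((ρ + 1) * (∫ z, |f z|) * ((σ + 1) * ∫ z, |g z|)) * (plnSq p / δ ^ 2)
      = ((ρ + 1) * (∫ z, |f z|) * ((σ + 1) * ∫ z, |g z|)) / δ ^ 2 * (2 * plnSq p) := by
    field_simp
  rw [e2]
  exact mul_le_mul_of_nonneg_left h4 (by positivity)

/-- (F2) high frequencies -/
theorem pcv_phi_large {f g : ℝ × ℝ → ℝ} (hf : ContDiff ℝ 2 f) (hc : HasCompactSupport f) (hg : PcvT g) :
    ∃ M : ℝ, 0 ≤ M ∧ ∀ δ : ℝ, 0 < δ → δ ≤ 1 → ∀ p, plnDD p * |pcvPhi (plnW δ f) (plnW δ g) p| ≤ M * δ ^ 2 := by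
  obtain ⟨B, hB, h⟩ := pcv_hat_large hf hc
  have hI : 0 ≤ ∫ z, |g z| := integral_nonneg fun z => abs_nonneg _
  refine ⟨B * ∫ z, |g z|, mul_nonneg hB hI, fun δ hδ hδ1 p => ?_⟩
  have h1 := pcv_re_le (plnHat (plnW δ f) p) (plnHat (plnW δ g) p)
  have h2 := pcv_hat_le hδ hg p
  have h3 := h δ hδ hδ1 p
  have hD := pcv_DD_nonneg p
  calc plnDD p * |pcvPhi (plnW δ f) (plnW δ g) p|
      ≤ plnDD p * (‖plnHat (plnW δ f) p‖ * ‖plnHat (plnW δ g) p‖) := mul_le_mul_of_nonneg_left h1 hD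
    _ = (plnDD p * ‖plnHat (plnW δ f) p‖) * ‖plnHat (plnW δ g) p‖ := by ring
    _ ≤ (B * δ ^ 2) * ∫ z, |g z| := mul_le_mul h3 h2 (norm_nonneg _) (by positivity)
    _ = B * (∫ z, |g z|) * δ ^ 2 := by ring

/-- (F3) convergence on compact sets of rescaled frequencies -/
theorem pcv_phi_lim {f g : ℝ × ℝ → ℝ} (hf : PcvT f) (hg : PcvT g) :
    ∃ M : ℝ, 0 ≤ M ∧ ∀ δ : ℝ, 0 < δ → ∀ ζ : ℝ × ℝ,
      |pcvPhi (plnW δ f) (plnW δ g) (δ • ζ) - pcvPhi0 f g ζ| ≤ M * δ * (|ζ.1| + |ζ.2|) := by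
  have hIf : 0 ≤ ∫ z, |f z| := integral_nonneg fun z => abs_nonneg _
  have hIg : 0 ≤ ∫ z, |g z| := integral_nonneg fun z => abs_nonneg _
  refine ⟨2 * ((∫ z, |f z|) * ∫ z, |g z|), by positivity, fun δ hδ ζ => ?_⟩
  set A := plnHat (plnW δ f) (δ • ζ) with hA
  set A0 := pcvF f ζ with hA0
  set B := plnHat (plnW δ g) (δ • ζ) with hB
  set B0 := pcvF g ζ with hB0
  have e : pcvPhi (plnW δ f) (plnW δ g) (δ • ζ) - pcvPhi0 f g ζ = (conj (A - A0) * B).re + (conj A0 * (B - B0)).re := by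
    unfold pcvPhi pcvPhi0
    rw [← Complex.sub_re, ← Complex.add_re]
    congr 1
    rw [map_sub]
    ring
  rw [e]
  have h1 := pcv_re_le (A - A0) B
  have h2 := pcv_re_le A0 (B - B0)
  have a1 : ‖A - A0‖ ≤ δ * (|ζ.1| + |ζ.2|) * ∫ z, |f z| := pcv_hat_lim hδ hf ζ
  have a2 : ‖B - B0‖ ≤ δ * (|ζ.1| + |ζ.2|) * ∫ z, |g z| := pcv_hat_lim hδ hg ζ
  have a3 : ‖B‖ ≤ ∫ z, |g z| := pcv_hat_le hδ hg _
  have a4 : ‖A0‖ ≤ ∫ z, |f z| := pcv_F_le ζ
  have hz : 0 ≤ δ * (|ζ.1| + |ζ.2|) := by positivity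
  calc |(conj (A - A0) * B).re + (conj A0 * (B - B0)).re|
      ≤ |(conj (A - A0) * B).re| + |(conj A0 * (B - B0)).re| := abs_add_le _ _
    _ ≤ ‖A - A0‖ * ‖B‖ + ‖A0‖ * ‖B - B0‖ := add_le_add h1 h2
    _ ≤ (δ * (|ζ.1| + |ζ.2|) * ∫ z, |f z|) * (∫ z, |g z|) + (∫ z, |f z|) * (δ * (|ζ.1| + |ζ.2|) * ∫ z, |g z|) :=
        add_le_add (mul_le_mul a1 a3 (norm_nonneg _) (by positivity)) (mul_le_mul a4 a2 (norm_nonneg _) hIf)
    _ = 2 * ((∫ z, |f z|) * ∫ z, |g z|) * δ * (|ζ.1| + |ζ.2|) := by ring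

/-- `lintegral` of a weighted indicator -/
theorem pcv_lint_ind {α : Type*} [MeasurableSpace α] {μ : Measure α} {S : Set α} (hS : MeasurableSet S) {c : ℝ} (hc : 0 ≤ c)
    {w : α → ℝ} {B : ℝ} (h : ∫⁻ p in S, ENNReal.ofReal (w p) ∂μ ≤ ENNReal.ofReal B) :
    ∫⁻ p, ENNReal.ofReal (S.indicator (fun p => c * w p) p) ∂μ ≤ ENNReal.ofReal (c * B) := by
  have e : ∀ p, ENNReal.ofReal (S.indicator (fun p => c * w p) p)
      = S.indicator (fun p => ENNReal.ofReal c * ENNReal.ofReal (w p)) p := by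
    intro p
    by_cases hp : p ∈ S
    · rw [Set.indicator_of_mem hp, Set.indicator_of_mem hp, ENNReal.ofReal_mul hc]
    · rw [Set.indicator_of_notMem hp, Set.indicator_of_notMem hp, ENNReal.ofReal_zero]
  simp_rw [e]
  rw [lintegral_indicator hS, lintegral_const_mul' _ _ ENNReal.ofReal_ne_top, ENNReal.ofReal_mul hc]
  gcongr

theorem pcv_phi_continuous (b b' : TV →₀ ℝ) : Continuous (pcvPhi b b') := by
  unfold pcvPhi
  exact Complex.continuous_re.comp ((Complex.continuous_conj.comp (pcv_hat_continuous b)).mul (pcv_hat_continuous b'))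

theorem pcv_DD_continuous : Continuous plnDD := by
  unfold plnDD plnPh
  fun_prop

/-- (F4) the error between `T_δ` and the functional of `PlnPS` at `Ψ_n` -/
theorem pcv_err {a : TV → ℝ} {Cf : Measure (ℝ × ℝ)} {K : ℝ} (hs : PlnSpec a Cf K) {f g : ℝ × ℝ → ℝ} (hf : ContDiff ℝ 2 f)
    (hc : HasCompactSupport f) (hg : PcvT g) (hf0 : ∫ z, f z = 0) (hg0 : ∫ z, g z = 0) :
    ∃ M : ℝ, 0 ≤ M ∧ ∀ n : ℕ, 1 ≤ n → ∀ δ : ℝ, 0 < δ → (n : ℝ) * δ ≤ 1 / 2 →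
      Integrable (fun p => pcvPhi (plnW δ f) (plnW δ g) p - pcvPhi0 f g (δ⁻¹ • p) * pcvTh n (δ⁻¹ • p)) Cf ∧
      |∫ p, (pcvPhi (plnW δ f) (plnW δ g) p - pcvPhi0 f g (δ⁻¹ • p) * pcvTh n (δ⁻¹ • p)) ∂Cf|
        ≤ M / (n : ℝ) ^ 2 + M * (n : ℝ) ^ 5 * δ := by
  have hT : PcvT f := ⟨hf.continuous, hc⟩
  obtain ⟨M1, hM1, h1⟩ := pcv_phi_small hT hg hf0 hg0
  obtain ⟨M2, hM2, h2⟩ := pcv_phi_large hf hc hg
  obtain ⟨M3, hM3, h3⟩ := pcv_phi_lim hT hg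
  obtain ⟨K', hK', h4⟩ := pcv_high hs
  have hKp : 0 ≤ max K 0 := le_max_right _ _
  set Kp := max K 0 with hKpdef
  refine ⟨8 * M1 * Kp + M2 * K' + 16 * M3 * Kp, by positivity, fun n hn δ hδ hnδ => ?_⟩
  have hn1 : (1 : ℝ) ≤ n := by exact_mod_cast hn
  have hn0 : (0 : ℝ) < n := by linarith
  have hδ1 : δ ≤ 1 := by nlinarith
  have hδh : δ ≤ 1 / 2 := by nlinarith
  set S1 : Set (ℝ × ℝ) := {p | plnSq p ≤ (2 * δ / n) ^ 2} with hS1
  set S2 : Set (ℝ × ℝ) := {p | ((n : ℝ) * δ) ^ 2 ≤ plnSq p} with hS2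
  set S3 : Set (ℝ × ℝ) := {p | plnSq p ≤ (2 * n * δ) ^ 2} with hS3
  have mS1 : MeasurableSet S1 := measurableSet_le pcv_sq_continuous.measurable measurable_const
  have mS2 : MeasurableSet S2 := measurableSet_le measurable_const pcv_sq_continuous.measurable
  have mS3 : MeasurableSet S3 := measurableSet_le pcv_sq_continuous.measurable measurable_const
  set g1 : ℝ × ℝ → ℝ := S1.indicator (fun p => M1 / δ ^ 2 * plnSq p) with hg1
  set g2 : ℝ × ℝ → ℝ := S2.indicator (fun p => M2 * δ ^ 2 * (1 / plnDD p)) with hg2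
  set g3 : ℝ × ℝ → ℝ := S3.indicator (fun p => 2 * M3 * (n : ℝ) ^ 3 / δ * plnSq p) with hg3
  have hmeas : AEStronglyMeasurable
      (fun p => pcvPhi (plnW δ f) (plnW δ g) p - pcvPhi0 f g (δ⁻¹ • p) * pcvTh n (δ⁻¹ • p)) Cf := by
    refine Continuous.aestronglyMeasurable ?_
    refine (pcv_phi_continuous _ _).sub (((pcv_phi0_continuous hT hg).comp (continuous_const_smul _)).mul
      ((pcv_th_continuous n).comp (continuous_const_smul _)))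
  have hbox : ∀ᵐ p ∂Cf, p ∈ plnBox := by
    have := hs.box
    rw [measure_eq_zero_iff_ae_notMem] at this
    filter_upwards [this] with p hp
    simpa using hp
  have g1nn : ∀ p, 0 ≤ g1 p := fun p => Set.indicator_nonneg (fun p _ => mul_nonneg (by positivity) (pcv_sq_nonneg p)) p
  have g2nn : ∀ p, 0 ≤ g2 p := fun p => Set.indicator_nonneg (fun p _ => mul_nonneg (by positivity)
    (one_div_nonneg.2 (pcv_DD_nonneg p))) p
  have g3nn : ∀ p, 0 ≤ g3 p := fun p => Set.indicator_nonneg (fun p _ => mul_nonneg (by positivity) (pcv_sq_nonneg p)) p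
  have hpt : ∀ᵐ p ∂Cf, ENNReal.ofReal |pcvPhi (plnW δ f) (plnW δ g) p - pcvPhi0 f g (δ⁻¹ • p) * pcvTh n (δ⁻¹ • p)|
      ≤ ENNReal.ofReal (g1 p) + ENNReal.ofReal (g2 p) + ENNReal.ofReal (g3 p) := by
    filter_upwards [hbox] with p hp
    rw [← ENNReal.ofReal_add (g1nn p) (g2nn p), ← ENNReal.ofReal_add (add_nonneg (g1nn p) (g2nn p)) (g3nn p)]
    refine ENNReal.ofReal_le_ofReal ?_
    set ζ := δ⁻¹ • p with hζ
    have hpζ : p = δ • ζ := by rw [hζ, smul_smul, mul_inv_cancel₀ hδ.ne', one_smul]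
    have hsq : plnSq p = δ ^ 2 * plnSq ζ := by rw [hpζ, pcv_sq_smul]
    set θ := pcvTh n ζ with hθ
    have θ0 : 0 ≤ θ := pcv_th_nonneg n ζ
    have θ1 : θ ≤ 1 := pcv_th_le_one n ζ
    set Φ := pcvPhi (plnW δ f) (plnW δ g) p with hΦ
    have e : Φ - pcvPhi0 f g ζ * θ = Φ * (1 - θ) + (Φ - pcvPhi0 f g ζ) * θ := by ring
    rw [e]
    refine (abs_add_le _ _).trans ?_
    rw [abs_mul, abs_mul, abs_of_nonneg θ0, abs_of_nonneg (sub_nonneg.2 θ1)]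
    have hn2 : (0 : ℝ) < (n : ℝ) ^ 2 := by positivity
    have hδ2 : (0 : ℝ) < δ ^ 2 := by positivity
    -- first term
    have A : |Φ| * (1 - θ) ≤ g1 p + g2 p := by
      rcases lt_or_ge (plnSq ζ) (2 / (n : ℝ) ^ 2) with c1 | c1
      · have hp1 : p ∈ S1 := by
          rw [hS1, Set.mem_ofPred_eq, hsq, div_pow, mul_pow]
          rw [lt_div_iff₀ hn2] at c1
          rw [le_div_iff₀ hn2]
          nlinarith
        have : g1 p = M1 / δ ^ 2 * plnSq p := Set.indicator_of_mem hp1 _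
        have b1 := h1 δ hδ hδ1 p
        have : |Φ| * (1 - θ) ≤ |Φ| := mul_le_of_le_one_right (abs_nonneg _) (by linarith)
        have e2 : M1 * (plnSq p / δ ^ 2) = M1 / δ ^ 2 * plnSq p := by ring
        linarith [g2nn p]
      · rcases le_or_gt (plnSq ζ) ((n : ℝ) ^ 2) with c2 | c2
        · have : θ = 1 := pcv_th_mid hn c1 c2
          rw [this, sub_self, mul_zero]
          exact add_nonneg (g1nn p) (g2nn p)
        · have hp2 : p ∈ S2 := by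
            rw [hS2, Set.mem_ofPred_eq, hsq, mul_pow]
            nlinarith
          have hg2p : g2 p = M2 * δ ^ 2 * (1 / plnDD p) := Set.indicator_of_mem hp2 _
          have hsqpos : 0 < plnSq p := by
            rw [hsq]
            exact mul_pos hδ2 (hn2.trans c2)
          have hDD : 0 < plnDD p := by
            have := pcv_DD_ge hp
            have h0 : 0 < 4 / (3 * Real.pi ^ 2) * plnSq p := by positivity
            linarith
          have b2 := h2 δ hδ hδ1 p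
          have b3 : |Φ| ≤ M2 * δ ^ 2 * (1 / plnDD p) := by
            rw [mul_one_div, le_div_iff₀ hDD, mul_comm]
            exact b2
          have : |Φ| * (1 - θ) ≤ |Φ| := mul_le_of_le_one_right (abs_nonneg _) (by linarith)
          linarith [g1nn p]
    -- second term
    have B : |Φ - pcvPhi0 f g ζ| * θ ≤ g3 p := by
      by_cases hθ0 : θ = 0
      · rw [hθ0, mul_zero]
        exact g3nn p
      · have c1 : 1 / (n : ℝ) ^ 2 < plnSq ζ := by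
          by_contra hcon
          exact hθ0 (pcv_th_low hn (not_lt.1 hcon))
        have c2 : plnSq ζ < 2 * (n : ℝ) ^ 2 := by
          by_contra hcon
          exact hθ0 (pcv_th_high hn (not_lt.1 hcon))
        have hp3 : p ∈ S3 := by
          rw [hS3, Set.mem_ofPred_eq, hsq]
          nlinarith
        have hg3p : g3 p = 2 * M3 * (n : ℝ) ^ 3 / δ * plnSq p := Set.indicator_of_mem hp3 _
        have b1 := h3 δ hδ ζ
        rw [← hpζ] at b1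
        have b2 : |ζ.1| + |ζ.2| ≤ 2 * n := by
          have := pcv_l1_sq ζ
          refine abs_le_of_sq_le_sq' ?_ (by positivity) |>.2
          nlinarith
        have b3 : 1 ≤ (n : ℝ) ^ 2 * plnSq ζ := by
          rw [div_lt_iff₀ hn2] at c1
          linarith
        have b4 : |Φ - pcvPhi0 f g ζ| ≤ M3 * δ * (2 * n) := b1.trans (mul_le_mul_of_nonneg_left b2 (by positivity))
        have b5 : M3 * δ * (2 * n) ≤ M3 * δ * (2 * n) * ((n : ℝ) ^ 2 * plnSq ζ) := le_mul_of_one_le_right (by positivity) b3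
        have e3 : 2 * M3 * (n : ℝ) ^ 3 / δ * plnSq p = M3 * δ * (2 * n) * ((n : ℝ) ^ 2 * plnSq ζ) := by
          rw [hsq]
          field_simp
        have : |Φ - pcvPhi0 f g ζ| * θ ≤ |Φ - pcvPhi0 f g ζ| := mul_le_of_le_one_right (abs_nonneg _) θ1
        linarith
    linarith
  have l1 : ∫⁻ p, ENNReal.ofReal (g1 p) ∂Cf ≤ ENNReal.ofReal (M1 / δ ^ 2 * (2 * Kp * (2 * δ / n) ^ 2)) :=
    pcv_lint_ind mS1 (by positivity) (pcv_low hs (by positivity) (by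
      rw [div_le_one hn0]
      linarith))
  have l2 : ∫⁻ p, ENNReal.ofReal (g2 p) ∂Cf ≤ ENNReal.ofReal (M2 * δ ^ 2 * (K' / ((n : ℝ) * δ) ^ 2)) :=
    pcv_lint_ind mS2 (by positivity) (h4 _ (by positivity) (by linarith))
  have l3 : ∫⁻ p, ENNReal.ofReal (g3 p) ∂Cf ≤ ENNReal.ofReal (2 * M3 * (n : ℝ) ^ 3 / δ * (2 * Kp * (2 * n * δ) ^ 2)) :=
    pcv_lint_ind mS3 (by positivity) (pcv_low hs (by positivity) (by linarith))
  have mg1 : Measurable fun p => ENNReal.ofReal (g1 p) :=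
    ENNReal.measurable_ofReal.comp ((measurable_const.mul pcv_sq_continuous.measurable).indicator mS1)
  have mg2 : Measurable fun p => ENNReal.ofReal (g2 p) :=
    ENNReal.measurable_ofReal.comp ((measurable_const.mul (measurable_const.div pcv_DD_continuous.measurable)).indicator mS2)
  have hG : ∫⁻ p, (ENNReal.ofReal (g1 p) + ENNReal.ofReal (g2 p) + ENNReal.ofReal (g3 p)) ∂Cf
      ≤ ENNReal.ofReal ((8 * M1 * Kp + M2 * K' + 16 * M3 * Kp) / (n : ℝ) ^ 2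
        + (8 * M1 * Kp + M2 * K' + 16 * M3 * Kp) * (n : ℝ) ^ 5 * δ) := by
    have mg12 : Measurable fun p => ENNReal.ofReal (g1 p) + ENNReal.ofReal (g2 p) := mg1.add mg2
    rw [lintegral_add_left mg12, lintegral_add_left mg1]
    refine (add_le_add (add_le_add l1 l2) l3).trans ?_
    rw [← ENNReal.ofReal_add (by positivity) (by positivity), ← ENNReal.ofReal_add (by positivity) (by positivity)]
    refine ENNReal.ofReal_le_ofReal ?_
    have e1 : M1 / δ ^ 2 * (2 * Kp * (2 * δ / n) ^ 2) = 8 * M1 * Kp / (n : ℝ) ^ 2 := by field_simp; ring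
    have e2 : M2 * δ ^ 2 * (K' / ((n : ℝ) * δ) ^ 2) = M2 * K' / (n : ℝ) ^ 2 := by field_simp
    have e3 : 2 * M3 * (n : ℝ) ^ 3 / δ * (2 * Kp * (2 * n * δ) ^ 2) = 16 * M3 * Kp * (n : ℝ) ^ 5 * δ := by field_simp; ring
    rw [e1, e2, e3]
    have p1 : 0 ≤ 16 * M3 * Kp / (n : ℝ) ^ 2 := by positivity
    have p2 : 0 ≤ (8 * M1 * Kp + M2 * K') * (n : ℝ) ^ 5 * δ := by positivity
    have e4 : (8 * M1 * Kp + M2 * K' + 16 * M3 * Kp) / (n : ℝ) ^ 2 + (8 * M1 * Kp + M2 * K' + 16 * M3 * Kp) * (n : ℝ) ^ 5 * δ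
        = 8 * M1 * Kp / (n : ℝ) ^ 2 + M2 * K' / (n : ℝ) ^ 2 + 16 * M3 * Kp * (n : ℝ) ^ 5 * δ
          + (16 * M3 * Kp / (n : ℝ) ^ 2 + (8 * M1 * Kp + M2 * K') * (n : ℝ) ^ 5 * δ) := by ring
    rw [e4]
    linarith
  obtain ⟨i1, i2⟩ := pcv_int_bound hmeas hpt hG
  refine ⟨i1, i2.trans (le_of_eq (max_eq_left (by positivity)))⟩

/-- **the core limit** -/
theorem pcv_core {a : TV → ℝ} {Cf : Measure (ℝ × ℝ)} {K c : ℝ} (h : PlnIn a) (hs : PlnSpec a Cf K) (hp : PlnPS Cf c)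
    {f g : ℝ × ℝ → ℝ} (hf : ContDiff ℝ 2 f) (hc : HasCompactSupport f) (hg : PcvT g) (hf0 : ∫ z, f z = 0)
    (hg0 : ∫ z, g z = 0) :
    ∃ M : ℝ, ∀ n : ℕ, 1 ≤ n → ∀ᶠ δ in 𝓝[>] (0 : ℝ),
      |plnGam a (plnW δ f) (plnW δ g) - c * ∫ ζ, pcvPsi f g n ζ| ≤ M / (n : ℝ) := by
  have hT : PcvT f := ⟨hf.continuous, hc⟩
  obtain ⟨M, hM, E⟩ := pcv_err hs hf hc hg hf0 hg0
  refine ⟨2 * M + 1, fun n hn => ?_⟩
  have hn' : (1 : ℝ) ≤ (n : ℝ) := by exact_mod_cast hn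
  have hn0 : (0 : ℝ) < (n : ℝ) := by linarith
  have hlim := hp (pcvPsi f g n) (pcv_psi_continuous hT hg hn) (pcv_psi_compact f g hn)
  have ev1 : ∀ᶠ δ in 𝓝[>] (0 : ℝ),
      |∫ p, pcvPsi f g n (δ⁻¹ • p) * (plnSq p / δ ^ 2) ∂Cf - c * ∫ p, pcvPsi f g n p| < 1 / (n : ℝ) := by
    have := (Metric.tendsto_nhds.1 hlim) (1 / (n : ℝ)) (by positivity)
    simpa only [Real.dist_eq] using this
  have ev2 : ∀ᶠ δ in 𝓝[>] (0 : ℝ), δ < 1 / (2 * (n : ℝ) ^ 6) := by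
    have : Set.Ioo (0 : ℝ) (1 / (2 * (n : ℝ) ^ 6)) ∈ 𝓝[>] (0 : ℝ) := Ioo_mem_nhdsGT (by positivity)
    filter_upwards [this] with δ hδ using hδ.2
  filter_upwards [ev1, ev2, self_mem_nhdsWithin] with δ h1 h2 hδ
  have hδ0 : 0 < δ := hδ
  have h3 : (n : ℝ) ^ 5 * δ ≤ 1 / (2 * (n : ℝ)) := by
    have : (n : ℝ) ^ 5 * δ ≤ (n : ℝ) ^ 5 * (1 / (2 * (n : ℝ) ^ 6)) := mul_le_mul_of_nonneg_left h2.le (by positivity)
    refine this.trans (le_of_eq ?_)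
    field_simp
  have hnδ : (n : ℝ) * δ ≤ 1 / 2 := by
    have a1 : (n : ℝ) * δ ≤ (n : ℝ) ^ 5 * δ := by
      refine mul_le_mul_of_nonneg_right ?_ hδ0.le
      calc (n : ℝ) = (n : ℝ) ^ 1 := (pow_one _).symm
        _ ≤ (n : ℝ) ^ 5 := pow_le_pow_right₀ hn' (by norm_num)
    have a2 : 1 / (2 * (n : ℝ)) ≤ 1 / 2 := by
      rw [div_le_div_iff₀ (by positivity) (by norm_num)]
      linarith
    linarith
  obtain ⟨i1, i2⟩ := E n hn δ hδ0 hnδ
  have tf : latTot (plnW δ f) = 0 := by rw [pcv_W_tot hδ0 hT, hf0]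
  have tg : latTot (plnW δ g) = 0 := by rw [pcv_W_tot hδ0 hg, hg0]
  have iΦ := pcv_phi_integrable hs tf tg
  have e1 : ∀ p, pcvPsi f g n (δ⁻¹ • p) * (plnSq p / δ ^ 2) = pcvPhi0 f g (δ⁻¹ • p) * pcvTh n (δ⁻¹ • p) := by
    intro p
    rw [← pcv_psi_mul f g hn (δ⁻¹ • p), pcv_sq_smul]
    congr 1
    field_simp
  have i3 : Integrable (fun p => pcvPsi f g n (δ⁻¹ • p) * (plnSq p / δ ^ 2)) Cf := by
    refine (iΦ.sub i1).congr (Filter.Eventually.of_forall fun p => ?_)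
    simp only [Pi.sub_apply, e1]
    ring
  have e2 : ∫ p, pcvPhi (plnW δ f) (plnW δ g) p ∂Cf
      = (∫ p, (pcvPhi (plnW δ f) (plnW δ g) p - pcvPhi0 f g (δ⁻¹ • p) * pcvTh n (δ⁻¹ • p)) ∂Cf)
        + ∫ p, pcvPsi f g n (δ⁻¹ • p) * (plnSq p / δ ^ 2) ∂Cf := by
    rw [← integral_add i1 i3]
    refine integral_congr_ae (Filter.Eventually.of_forall fun p => ?_)
    simp only [e1]
    ring
  rw [pcv_rep h hs tf tg, e2]
  set D := ∫ p, (pcvPhi (plnW δ f) (plnW δ g) p - pcvPhi0 f g (δ⁻¹ • p) * pcvTh n (δ⁻¹ • p)) ∂Cf with hD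
  set P := ∫ p, pcvPsi f g n (δ⁻¹ • p) * (plnSq p / δ ^ 2) ∂Cf with hP
  have b1 : |D + P - c * ∫ ζ, pcvPsi f g n ζ| ≤ |D| + |P - c * ∫ ζ, pcvPsi f g n ζ| := by
    have : D + P - c * ∫ ζ, pcvPsi f g n ζ = D + (P - c * ∫ ζ, pcvPsi f g n ζ) := by ring
    rw [this]
    exact abs_add_le _ _
  have b2 : M / (n : ℝ) ^ 2 ≤ M / (n : ℝ) := by
    refine div_le_div_of_nonneg_left hM hn0 ?_
    calc (n : ℝ) = (n : ℝ) ^ 1 := (pow_one _).symm
      _ ≤ (n : ℝ) ^ 2 := pow_le_pow_right₀ hn' (by norm_num)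
  have b3 : M * (n : ℝ) ^ 5 * δ ≤ M / (n : ℝ) := by
    have : M * (n : ℝ) ^ 5 * δ = M * ((n : ℝ) ^ 5 * δ) := by ring
    rw [this]
    refine (mul_le_mul_of_nonneg_left h3 hM).trans ?_
    rw [mul_one_div]
    exact div_le_div_of_nonneg_left hM hn0 (by linarith)
  have b4 : (2 * M + 1) / (n : ℝ) = M / (n : ℝ) + M / (n : ℝ) + 1 / (n : ℝ) := by ring
  rw [b4]
  linarith

end Claimed.Agent.R291
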