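import Claimed.Agent.R291.Pln.PncDefs

/-!
# Row 291 (S0539), Sec. 4, unit PLN-B3 : measure facts of `PncIn`, summable defect, bands, endcaps      (helper140; prefix `pnc`)

TeX: `04-plane.tex` l.331-505 (Lemma 4.5 `plane:lem:defect`, Lemma 4.6 `lem:endcaps`).
All statements are for an arbitrary `I : PncIn` (`Pln/PncDefs.lean`).      Dyadic sums over the annuli `I.ann`; the exact mixture `I.mix`; the rotation `I.rot`.
-/

set_option autoImplicit false

namespace Claimed.Agent.R291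

open MeasureTheory Filter Topology
open scoped ENNReal Real

variable (I : PncIn)

/-! ### A. rotation, annuli -/

theorem pnc_rot_lintegral {G : ℝ × ℝ → ℝ≥0∞} (hG : Measurable G) : ∫⁻ p, G (pncRot p) ∂I.C0 = ∫⁻ p, G p ∂I.C0 := by
  conv_rhs => rw [← I.rot]
  rw [lintegral_map hG pnc_rot_continuous.measurable]

theorem pnc_rot_integral {G : ℝ × ℝ → ℝ} (hG : Measurable G) : ∫ p, G (pncRot p) ∂I.C0 = ∫ p, G p ∂I.C0 := by
  conv_rhs => rw [← I.rot]
  rw [integral_map pnc_rot_continuous.measurable.aemeasurable hG.aestronglyMeasurable]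

theorem pnc_rot_measure {S : Set (ℝ × ℝ)} (hS : MeasurableSet S) : I.C0 (pncRot ⁻¹' S) = I.C0 S := by
  conv_rhs => rw [← I.rot]
  rw [Measure.map_apply pnc_rot_continuous.measurable hS]

theorem pnc_rotI_integral {G : ℝ × ℝ → ℝ} (hG : Measurable G) : ∫ p, G (pncRotI p) ∂I.C0 = ∫ p, G p ∂I.C0 := by
  have h := pnc_rot_integral I (G := fun p => G (pncRotI p)) (hG.comp pnc_rotI_continuous.measurable)
  simp only [pnc_rotI_rot] at h
  exact h.symm

/-- a.e. point of `C0` lies in the punctured disc -/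
theorem pnc_ae_disc : ∀ᵐ p ∂I.C0, 0 < pncN p ∧ pncN p < I.r0 := by
  filter_upwards [measure_eq_zero_iff_ae_notMem.1 I.supp] with p hp
  by_contra h
  exact hp h

theorem pnc_meas_shell (a b : ℝ) : MeasurableSet {p | a ≤ pncN p ∧ pncN p ≤ b} :=
  (measurableSet_le measurable_const pnc_N_continuous.measurable).inter (measurableSet_le pnc_N_continuous.measurable measurable_const)

theorem pnc_shell_pow {a : ℝ} (ha : 0 < a) (n : ℕ) : I.C0 {p | a ≤ pncN p ∧ pncN p ≤ a * 2 ^ n} ≤ (n + 1 : ℕ) * ENNReal.ofReal I.K := by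
  induction n with
  | zero =>
    simp only [pow_zero, mul_one, zero_add, Nat.cast_one, one_mul]
    refine (measure_mono fun p hp => ?_).trans (I.ann a ha)
    exact ⟨hp.1, hp.2.trans (by linarith)⟩
  | succ n ih =>
    have hsub : {p | a ≤ pncN p ∧ pncN p ≤ a * 2 ^ (n + 1)} ⊆ {p | a ≤ pncN p ∧ pncN p ≤ a * 2 ^ n}
        ∪ {p | a * 2 ^ n ≤ pncN p ∧ pncN p ≤ 2 * (a * 2 ^ n)} := by
      intro p hp
      by_cases h : pncN p ≤ a * 2 ^ n
      · exact Or.inl ⟨hp.1, h⟩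
      · exact Or.inr ⟨(not_le.1 h).le, hp.2.trans (le_of_eq (by ring))⟩
    refine (measure_mono hsub).trans ((measure_union_le _ _).trans ?_)
    have := I.ann (a * 2 ^ n) (by positivity)
    calc _ ≤ (n + 1 : ℕ) * ENNReal.ofReal I.K + ENNReal.ofReal I.K := add_le_add ih this
      _ = ((n + 1 + 1 : ℕ) : ℝ≥0∞) * ENNReal.ofReal I.K := by push_cast; ring

/-- a shell of bounded ratio has bounded mass, uniformly in the scale -/
theorem pnc_shell {α R : ℝ} (hα : 0 < α) : ∃ M : ℝ, ∀ δ : ℝ, 0 < δ → I.C0 {p | α * δ ≤ pncN p ∧ pncN p ≤ R * δ} ≤ ENNReal.ofReal M := by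
  obtain ⟨n, hn⟩ := pow_unbounded_of_one_lt (R / α) (one_lt_two : (1 : ℝ) < 2)
  refine ⟨(n + 1 : ℕ) * max I.K 0, fun δ hδ => ?_⟩
  have h1 : {p | α * δ ≤ pncN p ∧ pncN p ≤ R * δ} ⊆ {p | α * δ ≤ pncN p ∧ pncN p ≤ α * δ * 2 ^ n} := by
    intro p hp
    refine ⟨hp.1, hp.2.trans ?_⟩
    rw [div_lt_iff₀ hα] at hn
    nlinarith
  refine (measure_mono h1).trans ((pnc_shell_pow I (by positivity) n).trans ?_)
  rw [ENNReal.ofReal_mul (by positivity), ENNReal.ofReal_natCast]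
  gcongr
  exact le_max_left _ _

/-- finite mass away from the origin -/
theorem pnc_far_lt_top {ρ : ℝ} (hρ : 0 < ρ) : I.C0 {p | ρ ≤ pncN p} < ∞ := by
  obtain ⟨n, hn⟩ := pow_unbounded_of_one_lt (I.r0 / ρ) (one_lt_two : (1 : ℝ) < 2)
  have h1 : I.C0 {p | ρ ≤ pncN p} ≤ I.C0 {p | ρ ≤ pncN p ∧ pncN p ≤ ρ * 2 ^ n} := by
    refine measure_mono_ae ?_
    filter_upwards [pnc_ae_disc I] with p hp h
    refine ⟨h, hp.2.le.trans ?_⟩
    rw [div_lt_iff₀ hρ] at hn
    linarith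
  refine h1.trans_lt ((pnc_shell_pow I hρ n).trans_lt ?_)
  exact ENNReal.mul_lt_top (ENNReal.natCast_lt_top _) ENNReal.ofReal_lt_top

/-- dyadic sum towards the origin -/
theorem pnc_dyadic (f : ℝ × ℝ → ℝ≥0∞) {R : ℝ} (hR : 0 < R) (φ : ℕ → ℝ≥0∞)
    (h : ∀ (j : ℕ) (p : ℝ × ℝ), R / 2 ^ (j + 1) ≤ pncN p → pncN p ≤ R / 2 ^ j → f p ≤ φ j) :
    ∫⁻ p in {p | pncN p ≤ R}, f p ∂I.C0 ≤ ∑' j, φ j * ENNReal.ofReal I.K := by
  set S : ℕ → Set (ℝ × ℝ) := fun j => {p | R / 2 ^ (j + 1) ≤ pncN p ∧ pncN p ≤ R / 2 ^ j} with hS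
  have hcov : ∀ᵐ p ∂I.C0, p ∈ {p | pncN p ≤ R} → p ∈ ⋃ j, S j := by
    filter_upwards [pnc_ae_disc I] with p hp hpR
    have hpR : pncN p ≤ R := hpR
    obtain ⟨n, hn1, hn2⟩ := exists_nat_pow_near_of_lt_one (x := pncN p / R) (y := 1 / 2) (by have := hp.1; positivity)
      (by rw [div_le_one hR]; exact hpR) (by norm_num) (by norm_num)
    refine Set.mem_iUnion.2 ⟨n, ?_, ?_⟩
    · rw [lt_div_iff₀ hR] at hn1
      rw [one_div, inv_pow] at hn1
      rw [div_eq_mul_inv]; linarith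
    · rw [div_le_iff₀ hR] at hn2
      rw [one_div, inv_pow] at hn2
      rw [div_eq_mul_inv]; linarith
  calc ∫⁻ p in {p | pncN p ≤ R}, f p ∂I.C0 ≤ ∫⁻ p in ⋃ j, S j, f p ∂I.C0 :=
        lintegral_mono' (Measure.restrict_mono_ae hcov) le_rfl
    _ ≤ ∑' j, ∫⁻ p in S j, f p ∂I.C0 := lintegral_iUnion_le _ _
    _ ≤ ∑' j, φ j * ENNReal.ofReal I.K := by
        refine ENNReal.tsum_le_tsum fun j => ?_
        calc ∫⁻ p in S j, f p ∂I.C0 ≤ ∫⁻ _ in S j, φ j ∂I.C0 :=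
              setLIntegral_mono' (pnc_meas_shell _ _) fun p hp => h j p hp.1 hp.2
          _ = φ j * I.C0 (S j) := setLIntegral_const _ _
          _ ≤ φ j * ENNReal.ofReal I.K := by
              gcongr
              refine (measure_mono fun p hp => ?_).trans (I.ann (R / 2 ^ (j + 1)) (by positivity))
              refine ⟨hp.1, hp.2.trans (le_of_eq ?_)⟩
              rw [pow_succ]; field_simp

/-- dyadic sum away from the origin -/
theorem pnc_dyadic_up (f : ℝ × ℝ → ℝ≥0∞) {R : ℝ} (hR : 0 < R) (φ : ℕ → ℝ≥0∞)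
    (h : ∀ (j : ℕ) (p : ℝ × ℝ), R * 2 ^ j ≤ pncN p → pncN p ≤ R * 2 ^ (j + 1) → f p ≤ φ j) :
    ∫⁻ p in {p | R ≤ pncN p}, f p ∂I.C0 ≤ ∑' j, φ j * ENNReal.ofReal I.K := by
  set S : ℕ → Set (ℝ × ℝ) := fun j => {p | R * 2 ^ j ≤ pncN p ∧ pncN p ≤ R * 2 ^ (j + 1)} with hS
  have hcov : {p | R ≤ pncN p} ⊆ ⋃ j, S j := by
    intro p hpR
    have hpR : R ≤ pncN p := hpR
    obtain ⟨n, hn1, hn2⟩ := exists_nat_pow_near (x := pncN p / R) (y := 2) (by rw [le_div_iff₀ hR]; linarith) (by norm_num)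
    refine Set.mem_iUnion.2 ⟨n, ?_, ?_⟩
    · rw [le_div_iff₀ hR] at hn1; linarith
    · rw [div_lt_iff₀ hR] at hn2; linarith
  calc ∫⁻ p in {p | R ≤ pncN p}, f p ∂I.C0 ≤ ∫⁻ p in ⋃ j, S j, f p ∂I.C0 := lintegral_mono_set hcov
    _ ≤ ∑' j, ∫⁻ p in S j, f p ∂I.C0 := lintegral_iUnion_le _ _
    _ ≤ ∑' j, φ j * ENNReal.ofReal I.K := by
        refine ENNReal.tsum_le_tsum fun j => ?_
        calc ∫⁻ p in S j, f p ∂I.C0 ≤ ∫⁻ _ in S j, φ j ∂I.C0 :=
              setLIntegral_mono' (pnc_meas_shell _ _) fun p hp => h j p hp.1 hp.2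
          _ = φ j * I.C0 (S j) := setLIntegral_const _ _
          _ ≤ φ j * ENNReal.ofReal I.K := by
              gcongr
              refine (measure_mono fun p hp => ?_).trans (I.ann (R * 2 ^ j) (by positivity))
              refine ⟨hp.1, hp.2.trans (le_of_eq ?_)⟩
              rw [pow_succ]; ring

/-- `∫_{|p| ≤ R} |p|² dC0 ≤ 2 K R²` (dyadic sum) -/
theorem pnc_ball_Q {R : ℝ} (hR : 0 < R) : ∫⁻ p in {p | pncN p ≤ R}, ENNReal.ofReal (pncQ p) ∂I.C0 ≤ ENNReal.ofReal (2 * I.K * R ^ 2) := by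
  refine (pnc_dyadic I _ hR (fun j => ENNReal.ofReal (R ^ 2) * (1 / 4 : ℝ≥0∞) ^ j) fun j p _ h2 => ?_).trans ?_
  · have e : (1 / 4 : ℝ≥0∞) ^ j = ENNReal.ofReal ((1 / 4) ^ j) := by
      rw [ENNReal.ofReal_pow (by norm_num)]
      congr 1
      rw [ENNReal.ofReal_div_of_pos (by norm_num)]
      simp
    rw [e, ← ENNReal.ofReal_mul (by positivity)]
    refine ENNReal.ofReal_le_ofReal ?_
    rw [← pnc_N_sq]
    calc pncN p ^ 2 ≤ (R / 2 ^ j) ^ 2 := pow_le_pow_left₀ (pnc_N_nonneg p) h2 2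
      _ = R ^ 2 * (1 / 4) ^ j := by
          rw [div_pow, ← pow_mul, mul_comm j 2, pow_mul, one_div, inv_pow]
          norm_num
          rfl
  · have e0 : ∀ j : ℕ, ENNReal.ofReal (R ^ 2) * (1 / 4 : ℝ≥0∞) ^ j * ENNReal.ofReal I.K
        = ENNReal.ofReal (R ^ 2) * (ENNReal.ofReal I.K * (1 / 4 : ℝ≥0∞) ^ j) := fun j => by ring
    simp_rw [e0]
    rw [ENNReal.tsum_mul_left, ENNReal.tsum_mul_left, ENNReal.tsum_geometric]
    have e : (1 - 1 / 4 : ℝ≥0∞)⁻¹ ≤ 2 := by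
      rw [ENNReal.inv_le_iff_inv_le]
      refine ENNReal.le_sub_of_add_le_left (by simp) ?_
      rw [one_div, ← ENNReal.inv_two_add_inv_two]
      gcongr
      norm_num
    calc _ ≤ ENNReal.ofReal (R ^ 2) * (ENNReal.ofReal I.K * 2) := by gcongr
      _ = ENNReal.ofReal (2 * I.K * R ^ 2) := by
          rw [show 2 * I.K * R ^ 2 = R ^ 2 * (2 * I.K) by ring, ENNReal.ofReal_mul (by positivity), ENNReal.ofReal_mul (by norm_num)]
          simp [mul_comm]

theorem pnc_restrict_ball : I.C0.restrict {p | pncN p ≤ I.r0} = I.C0 :=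
  Measure.restrict_eq_self_of_ae_mem (by filter_upwards [pnc_ae_disc I] with p hp using hp.2.le)

theorem pnc_Q_integrable : Integrable pncQ I.C0 := by
  refine ⟨pnc_Q_continuous.aestronglyMeasurable, ?_⟩
  rw [hasFiniteIntegral_iff_norm]
  simp only [Real.norm_eq_abs, abs_of_nonneg (pnc_Q_nonneg _)]
  rw [← pnc_restrict_ball I]
  exact (pnc_ball_Q I I.r0_pos).trans_lt ENNReal.ofReal_lt_top

/-- `∫ |p| dC0 < ∞` (dyadic sum) -/
theorem pnc_N_integrable : Integrable pncN I.C0 := by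
  refine ⟨pnc_N_continuous.aestronglyMeasurable, ?_⟩
  rw [hasFiniteIntegral_iff_norm]
  simp only [Real.norm_eq_abs, abs_of_nonneg (pnc_N_nonneg _)]
  rw [← pnc_restrict_ball I]
  refine (pnc_dyadic I _ I.r0_pos (fun j => ENNReal.ofReal I.r0 * (1 / 2 : ℝ≥0∞) ^ j) fun j p _ h2 => ?_).trans_lt ?_
  · have e : (1 / 2 : ℝ≥0∞) ^ j = ENNReal.ofReal ((1 / 2) ^ j) := by
      rw [ENNReal.ofReal_pow (by norm_num)]
      congr 1
      rw [ENNReal.ofReal_div_of_pos (by norm_num)]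
      simp
    rw [e, ← ENNReal.ofReal_mul I.r0_pos.le]
    refine ENNReal.ofReal_le_ofReal (h2.trans (le_of_eq ?_))
    rw [one_div, inv_pow, div_eq_mul_inv]
  · simp_rw [mul_assoc, mul_comm _ (ENNReal.ofReal I.K)]
    rw [ENNReal.tsum_mul_left, ENNReal.tsum_mul_left, ENNReal.tsum_geometric]
    refine ENNReal.mul_lt_top ENNReal.ofReal_lt_top (ENNReal.mul_lt_top ENNReal.ofReal_lt_top ?_)
    rw [ENNReal.inv_lt_top]
    simp

/-! ### B. consequences of the mixture -/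

/-- `nu` lives on `k ≠ 0`, `s ≥ 0` -/
theorem pnc_ae_nu : ∀ᵐ x ∂I.nu, x.1 ≠ 0 ∧ 0 ≤ x.2 := by
  have := I.nu0
  filter_upwards [measure_eq_zero_iff_ae_notMem.1 this] with x hx
  simp only [not_or, not_lt] at hx
  exact hx

theorem pnc_ae_E : ∀ᵐ x ∂I.E, x.1 ≠ 0 := measure_eq_zero_iff_ae_notMem.1 I.E0

theorem pnc_Pr_nonneg {g : ℝ × ℝ → ℝ} (h0 : ∀ x, 0 ≤ g x) {x : ℝ × ℝ} (hx : 0 ≤ x.2) : 0 ≤ pncPr g x := by
  unfold pncPr
  split_ifs
  · exact h0 _
  · exact integral_nonneg fun t => mul_nonneg (h0 _) (pnc_cd_nonneg hx t)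

/-- the mixture for nonnegative bounded tests which vanish on `|k| < ε` -/
theorem pnc_mix_nonneg {g : ℝ × ℝ → ℝ} (hm : Measurable g) {B ε : ℝ} (hε : 0 < ε) (h0 : ∀ x, 0 ≤ g x) (hb : ∀ x, g x ≤ B)
    (hoff : ∀ x : ℝ × ℝ, |x.1| < ε → g x = 0) :
    Integrable (pncPr g) I.nu ∧ Integrable (fun p => g (pncCh p)) I.C0 ∧ Integrable g I.E ∧
      ∫ x, pncPr g x ∂I.nu = ∫ p, g (pncCh p) ∂I.C0 + ∫ x, g x ∂I.E := by
  have := I.Efin
  have hmO : Measurable fun y => ENNReal.ofReal (g y) := hm.ennreal_ofReal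
  have L1 : ∫⁻ p, ENNReal.ofReal (g (pncCh p)) ∂I.C0 < ∞ := by
    have : ∀ p, ENNReal.ofReal (g (pncCh p)) ≤ Set.indicator {p | ε ≤ pncN p} (fun _ => ENNReal.ofReal B) p := by
      intro p
      by_cases hp : ε ≤ pncN p
      · rw [Set.indicator_of_mem (show p ∈ {p | ε ≤ pncN p} from hp)]
        exact ENNReal.ofReal_le_ofReal (hb _)
      · rw [hoff (pncCh p) (lt_of_le_of_lt (pnc_abs_fst_le p) (not_le.1 hp))]
        simp
    refine (lintegral_mono this).trans_lt ?_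
    rw [lintegral_indicator (measurableSet_le measurable_const pnc_N_continuous.measurable), setLIntegral_const]
    exact ENNReal.mul_lt_top ENNReal.ofReal_lt_top (pnc_far_lt_top I hε)
  have L2 : ∫⁻ x, ENNReal.ofReal (g x) ∂I.E < ∞ := by
    refine (lintegral_mono fun x => ENNReal.ofReal_le_ofReal (hb x)).trans_lt ?_
    rw [lintegral_const]
    exact ENNReal.mul_lt_top ENNReal.ofReal_lt_top (measure_lt_top _ _)
  have hmix := I.mix _ hmO
  have e1 : ∫⁻ p in {p : ℝ × ℝ | p.1 ≠ 0}, ENNReal.ofReal (g (pncCh p)) ∂I.C0 = ∫⁻ p, ENNReal.ofReal (g (pncCh p)) ∂I.C0 := by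
    have hT : MeasurableSet {p : ℝ × ℝ | p.1 ≠ 0} := (measurableSet_eq_fun measurable_fst measurable_const).compl
    rw [← lintegral_indicator hT]
    refine lintegral_congr fun p => ?_
    by_cases hp : p.1 = 0
    · rw [Set.indicator_of_notMem (by simpa using hp), hoff (pncCh p) (by show |p.1| < ε; rw [hp, abs_zero]; exact hε)]
      simp
    · rw [Set.indicator_of_mem (by simpa using hp)]
  have e2 : ∫⁻ x, pncP (fun y => ENNReal.ofReal (g y)) x ∂I.nu = ∫⁻ x, ENNReal.ofReal (pncPr g x) ∂I.nu := by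
    refine lintegral_congr_ae ?_
    filter_upwards [pnc_ae_nu I] with x hx
    exact pnc_P_ofReal hm h0 hb hx.2
  rw [e1, e2] at hmix
  have hPm : AEStronglyMeasurable (pncPr g) I.nu := by
    refine AEMeasurable.aestronglyMeasurable ⟨fun x => (pncP (fun y => ENNReal.ofReal (g y)) x).toReal,
      (pnc_P_measurable hmO).ennreal_toReal, ?_⟩
    filter_upwards [pnc_ae_nu I] with x hx
    rw [pnc_P_ofReal hm h0 hb hx.2, ENNReal.toReal_ofReal (pnc_Pr_nonneg h0 hx.2)]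
  have hP0 : 0 ≤ᵐ[I.nu] pncPr g := by
    filter_upwards [pnc_ae_nu I] with x hx using pnc_Pr_nonneg h0 hx.2
  have i1 : Integrable (pncPr g) I.nu := by
    refine ⟨hPm, ?_⟩
    rw [hasFiniteIntegral_iff_ofReal hP0, hmix]
    exact ENNReal.add_lt_top.2 ⟨L1, L2⟩
  have i2 : Integrable (fun p => g (pncCh p)) I.C0 := by
    refine ⟨(hm.comp pnc_ch_measurable).aestronglyMeasurable, ?_⟩
    rw [hasFiniteIntegral_iff_ofReal (Eventually.of_forall fun p => h0 _)]
    exact L1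
  have i3 : Integrable g I.E := by
    refine ⟨hm.aestronglyMeasurable, ?_⟩
    rw [hasFiniteIntegral_iff_ofReal (Eventually.of_forall fun p => h0 _)]
    exact L2
  refine ⟨i1, i2, i3, ?_⟩
  rw [integral_eq_lintegral_of_nonneg_ae hP0 hPm, integral_eq_lintegral_of_nonneg_ae (Eventually.of_forall fun p => h0 _) i2.1,
    integral_eq_lintegral_of_nonneg_ae (Eventually.of_forall fun p => h0 _) i3.1, hmix, ENNReal.toReal_add L1.ne L2.ne]

theorem pnc_Pr_fst_mul (a : ℝ → ℝ) (G : ℝ × ℝ → ℝ) (x : ℝ × ℝ) : pncPr (fun y => a y.1 * G y) x = a x.1 * pncPr G x := by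
  unfold pncPr
  split_ifs
  · rfl
  · rw [← integral_const_mul]
    congr 1
    funext t
    ring

theorem pnc_Pr_one {x : ℝ × ℝ} (hx : 0 ≤ x.2) : pncPr (fun _ => 1) x = 1 := by
  unfold pncPr
  split_ifs with h
  · rfl
  · simp only [one_mul]
    exact pnc_cd_integral (lt_of_le_of_ne hx (Ne.symm h))

/-- `nu` is finite on `|k| ≥ ε` -/
theorem pnc_nu_far {ε : ℝ} (hε : 0 < ε) : I.nu {x | ε ≤ |x.1|} < ∞ := by
  have hS : MeasurableSet {x : ℝ × ℝ | ε ≤ |x.1|} := measurableSet_le measurable_const measurable_fst.abs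
  have hS1 : MeasurableSet {k : ℝ | ε ≤ |k|} := measurableSet_le measurable_const measurable_id.abs
  set a : ℝ → ℝ := Set.indicator {k : ℝ | ε ≤ |k|} fun _ => 1 with ha
  have ham : Measurable a := measurable_const.indicator hS1
  have a01 : ∀ k, 0 ≤ a k ∧ a k ≤ 1 := fun k => by
    by_cases hk : ε ≤ |k|
    · rw [ha, Set.indicator_of_mem (show k ∈ {k : ℝ | ε ≤ |k|} from hk)]; exact ⟨zero_le_one, le_rfl⟩
    · rw [ha, Set.indicator_of_notMem (by simpa using hk)]; exact ⟨le_rfl, zero_le_one⟩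
  obtain ⟨h1, -, -, -⟩ := pnc_mix_nonneg I (g := fun y => a y.1 * 1) ((ham.comp measurable_fst).mul_const 1) hε (B := 1)
    (fun x => by rw [mul_one]; exact (a01 _).1) (fun x => by rw [mul_one]; exact (a01 _).2)
    (fun x hx => by rw [mul_one, ha, Set.indicator_of_notMem (by simpa using hx)])
  have h2 : Integrable (Set.indicator {x : ℝ × ℝ | ε ≤ |x.1|} fun _ => (1 : ℝ)) I.nu := by
    refine h1.congr ?_
    filter_upwards [pnc_ae_nu I] with x hx
    rw [pnc_Pr_fst_mul a (fun _ => 1) x, pnc_Pr_one hx.2, mul_one]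
    rfl
  rw [integrable_indicator_iff hS, integrableOn_const_iff] at h2
  simpa using h2

/-- additivity of the real Cauchy average on bounded measurable functions -/
theorem pnc_Pr_sub {g1 g2 : ℝ × ℝ → ℝ} (hm1 : Measurable g1) (hm2 : Measurable g2) {B : ℝ} (hb1 : ∀ x, |g1 x| ≤ B) (hb2 : ∀ x, |g2 x| ≤ B)
    {x : ℝ × ℝ} (hx : 0 ≤ x.2) : pncPr (fun y => g1 y - g2 y) x = pncPr g1 x - pncPr g2 x := by
  unfold pncPr
  split_ifs with h
  · rfl
  · have hs : 0 < x.2 := lt_of_le_of_ne hx (Ne.symm h)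
    have hi : ∀ {g : ℝ × ℝ → ℝ}, Measurable g → (∀ x, |g x| ≤ B) → Integrable fun t => g (x.1, t) * pncCd x.2 t := by
      intro g hm hb
      refine (pnc_cd_integrable hs).bdd_mul (c := B) (hm.comp (measurable_const.prodMk measurable_id)).aestronglyMeasurable ?_
      exact Eventually.of_forall fun t => by rw [Real.norm_eq_abs]; exact hb _
    rw [← integral_sub (hi hm1 hb1) (hi hm2 hb2)]
    congr 1
    funext t
    ring

/-- **the mixture for signed bounded tests** which vanish on `|k| < ε` (apply `mix` to `G + M 1_{|k| ≥ ε}` and to `M 1_{|k| ≥ ε}`) -/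
theorem pnc_mix_real {G : ℝ × ℝ → ℝ} (hm : Measurable G) {M ε : ℝ} (hε : 0 < ε) (hb : ∀ x, |G x| ≤ M) (h0 : ∀ x : ℝ × ℝ, |x.1| < ε → G x = 0) :
    Integrable (pncPr G) I.nu ∧ Integrable (fun p => G (pncCh p)) I.C0 ∧
      ∫ x, pncPr G x ∂I.nu = ∫ p, G (pncCh p) ∂I.C0 + ∫ x, G x ∂I.E := by
  have hM : 0 ≤ M := (abs_nonneg _).trans (hb 0)
  have hS : MeasurableSet {x : ℝ × ℝ | ε ≤ |x.1|} := measurableSet_le measurable_const measurable_fst.abs
  set g2 : ℝ × ℝ → ℝ := Set.indicator {x : ℝ × ℝ | ε ≤ |x.1|} fun _ => M with hg2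
  set g1 : ℝ × ℝ → ℝ := fun x => G x + g2 x with hg1
  have hm2 : Measurable g2 := measurable_const.indicator hS
  have hm1 : Measurable g1 := hm.add hm2
  have v2 : ∀ x : ℝ × ℝ, ε ≤ |x.1| → g2 x = M := fun x hx => Set.indicator_of_mem (show x ∈ {x : ℝ × ℝ | ε ≤ |x.1|} from hx) _
  have w2 : ∀ x : ℝ × ℝ, |x.1| < ε → g2 x = 0 := fun x hx => Set.indicator_of_notMem (by simpa using hx) _
  have n2 : ∀ x, 0 ≤ g2 x ∧ g2 x ≤ M := fun x => by
    by_cases hx : ε ≤ |x.1|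
    · rw [v2 x hx]; exact ⟨hM, le_rfl⟩
    · rw [w2 x (not_le.1 hx)]; exact ⟨le_rfl, hM⟩
  have n1 : ∀ x, 0 ≤ g1 x ∧ g1 x ≤ 2 * M := fun x => by
    have := abs_le.1 (hb x)
    by_cases hx : ε ≤ |x.1|
    · simp only [hg1, v2 x hx]; constructor <;> linarith
    · simp only [hg1, w2 x (not_le.1 hx), h0 x (not_le.1 hx)]; constructor <;> linarith
  obtain ⟨a1, a2, a3, a4⟩ := pnc_mix_nonneg I hm1 hε (fun x => (n1 x).1) (fun x => (n1 x).2)
    (fun x hx => by simp only [hg1, w2 x hx, h0 x hx, add_zero])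
  obtain ⟨b1, b2, b3, b4⟩ := pnc_mix_nonneg I hm2 hε (fun x => (n2 x).1) (fun x => (n2 x).2) w2
  have eG : G = fun y => g1 y - g2 y := by funext y; simp [hg1]
  have eP : pncPr G =ᵐ[I.nu] fun x => pncPr g1 x - pncPr g2 x := by
    filter_upwards [pnc_ae_nu I] with x hx
    conv_lhs => rw [eG]
    exact pnc_Pr_sub hm1 hm2 (B := 2 * M) (fun x => abs_le.2 ⟨by linarith [(n1 x).1], (n1 x).2⟩)
      (fun x => abs_le.2 ⟨by linarith [(n2 x).1], by linarith [(n2 x).2]⟩) hx.2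
  refine ⟨(a1.sub b1).congr eP.symm, ?_, ?_⟩
  · have := a2.sub b2
    refine this.congr (Eventually.of_forall fun p => ?_)
    simp [hg1]
  · rw [integral_congr_ae eP, integral_sub a1 b1, a4, b4]
    have e1 : ∫ p, G (pncCh p) ∂I.C0 = ∫ p, g1 (pncCh p) ∂I.C0 - ∫ p, g2 (pncCh p) ∂I.C0 := by
      rw [← integral_sub a2 b2]
      refine integral_congr_ae (Eventually.of_forall fun p => ?_)
      simp [hg1]
    have e2 : ∫ x, G x ∂I.E = ∫ x, g1 x ∂I.E - ∫ x, g2 x ∂I.E := by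
      rw [← integral_sub a3 b3]
      refine integral_congr_ae (Eventually.of_forall fun p => ?_)
      simp [hg1]
    rw [e1, e2]
    ring

/-! ### C. the summable defect -/

/-- bounded, measurable, zero near the origin: integrable for `C0` -/
theorem pnc_int_far {F : ℝ × ℝ → ℝ} (hm : Measurable F) {M ε : ℝ} (hε : 0 < ε) (hb : ∀ p, |F p| ≤ M) (h0 : ∀ p, pncN p < ε → F p = 0) :
    Integrable F I.C0 := by
  have hS : MeasurableSet {p | ε ≤ pncN p} := measurableSet_le measurable_const pnc_N_continuous.measurable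
  have h1 : IntegrableOn F {p | ε ≤ pncN p} I.C0 :=
    Measure.integrableOn_of_bounded (pnc_far_lt_top I hε).ne hm.aestronglyMeasurable (M := M)
      (Eventually.of_forall fun p => by rw [Real.norm_eq_abs]; exact hb p)
  rw [← integrable_indicator_iff hS] at h1
  refine h1.congr (Eventually.of_forall fun p => ?_)
  by_cases hp : ε ≤ pncN p
  · exact Set.indicator_of_mem (show p ∈ {p | ε ≤ pncN p} from hp) _
  · simp only [Set.indicator_of_notMem (show p ∉ {p | ε ≤ pncN p} from hp), h0 p (not_le.1 hp)]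

/-- a radial multiple of `χ` which vanishes near the origin has integral zero (`pnc_chi_three` + `rot`).      TEX[04-plane l.436] -/
theorem pnc_chi_rad {ρ : ℝ → ℝ} (hm : Measurable ρ) {M ε : ℝ} (hε : 0 < ε) (hb : ∀ r, |ρ r| ≤ M) (h0 : ∀ r, 0 ≤ r → r < ε → ρ r = 0) :
    ∫ p, pncChi p * ρ (pncN p) ∂I.C0 = 0 := by
  set F : ℝ × ℝ → ℝ := fun p => pncChi p * ρ (pncN p) with hF
  have hFm : Measurable F := pnc_chi_measurable.mul (hm.comp pnc_N_continuous.measurable)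
  have hFb : ∀ p, |F p| ≤ M := fun p => by
    rw [hF]; simp only [abs_mul]
    calc |pncChi p| * |ρ (pncN p)| ≤ 1 * M := mul_le_mul (pnc_chi_abs_le p) (hb _) (abs_nonneg _) zero_le_one
      _ = M := one_mul _
  have hF0 : ∀ p, pncN p < ε → F p = 0 := fun p hp => by rw [hF]; simp only [h0 _ (pnc_N_nonneg p) hp, mul_zero]
  have i0 := pnc_int_far I hFm hε hFb hF0
  have hR := pnc_rot_continuous.measurable
  have i1 : Integrable (fun p => F (pncRot p)) I.C0 :=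
    pnc_int_far I (hFm.comp hR) hε (fun p => hFb _) fun p hp => hF0 _ (by rw [pnc_N_rot]; exact hp)
  have i2 : Integrable (fun p => F (pncRot (pncRot p))) I.C0 :=
    pnc_int_far I (hFm.comp (hR.comp hR)) hε (fun p => hFb _) fun p hp => hF0 _ (by rw [pnc_N_rot, pnc_N_rot]; exact hp)
  have e1 : ∫ p, F (pncRot p) ∂I.C0 = ∫ p, F p ∂I.C0 := pnc_rot_integral I hFm
  have e2 : ∫ p, F (pncRot (pncRot p)) ∂I.C0 = ∫ p, F p ∂I.C0 := by
    rw [pnc_rot_integral I (G := fun p => F (pncRot p)) (hFm.comp hR), e1]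
  have e3 : ∫ p, (F p + F (pncRot p) + F (pncRot (pncRot p))) ∂I.C0 = 0 := by
    rw [← integral_zero (ℝ × ℝ) ℝ (μ := I.C0)]
    refine integral_congr_ae ?_
    filter_upwards [pnc_ae_disc I] with p hp
    have hp0 : p ≠ 0 := by
      rintro rfl
      have := hp.1
      simp [pncN, pncQ] at this
    simp only [hF, pnc_N_rot]
    rw [← add_mul, ← add_mul, pnc_chi_three p hp0, zero_mul]
  have e4 : ∫ p, (F p + F (pncRot p) + F (pncRot (pncRot p))) ∂I.C0
      = ∫ p, F p ∂I.C0 + ∫ p, F (pncRot p) ∂I.C0 + ∫ p, F (pncRot (pncRot p)) ∂I.C0 := by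
    rw [← integral_add i0 i1]
    exact integral_add (i0.add i1) i2
  rw [e4, e1, e2] at e3
  linarith

/-- the cap: `∫_{|k| > ε} χ dC0 ≤ 2K`  (full annulus `= 0`; in the deleted cap the negative part of `χ` sits in `ε < |p| ≤ 3ε`).      TEX[04-plane l.430-446] -/
theorem pnc_cap_le {ε : ℝ} (hε : 0 < ε) : ∫ p in {p : ℝ × ℝ | ε < |p.1|}, pncChi p ∂I.C0 ≤ 2 * max I.K 0 := by
  have hA : MeasurableSet {p : ℝ × ℝ | ε < |p.1|} := measurableSet_lt measurable_const measurable_fst.abs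
  have hC : MeasurableSet {p : ℝ × ℝ | |p.1| ≤ ε ∧ ε < pncN p} :=
    (measurableSet_le measurable_fst.abs measurable_const).inter (measurableSet_lt measurable_const pnc_N_continuous.measurable)
  have hT : MeasurableSet {p : ℝ × ℝ | ε ≤ pncN p ∧ pncN p ≤ 3 * ε} := pnc_meas_shell _ _
  set FA : ℝ × ℝ → ℝ := Set.indicator {p : ℝ × ℝ | ε < |p.1|} pncChi with hFA
  set FC : ℝ × ℝ → ℝ := Set.indicator {p : ℝ × ℝ | |p.1| ≤ ε ∧ ε < pncN p} pncChi with hFC
  set ρ : ℝ → ℝ := Set.indicator (Set.Ioi ε) fun _ => 1 with hρ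
  have hind : ∀ (S : Set (ℝ × ℝ)) (p : ℝ × ℝ), |Set.indicator S pncChi p| ≤ 1 := fun S p => by
    by_cases h : p ∈ S
    · rw [Set.indicator_of_mem h]; exact pnc_chi_abs_le p
    · rw [Set.indicator_of_notMem h]; simp
  have iA : Integrable FA I.C0 := pnc_int_far I (pnc_chi_measurable.indicator hA) hε (hind _) fun p hp =>
    Set.indicator_of_notMem (show p ∉ {p : ℝ × ℝ | ε < |p.1|} from
      fun h : ε < |p.1| => absurd (h.trans_le (pnc_abs_fst_le p)) (not_lt.2 hp.le)) _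
  have iC : Integrable FC I.C0 := pnc_int_far I (pnc_chi_measurable.indicator hC) hε (hind _) fun p hp =>
    Set.indicator_of_notMem (show p ∉ {p : ℝ × ℝ | |p.1| ≤ ε ∧ ε < pncN p} from
      fun h : |p.1| ≤ ε ∧ ε < pncN p => absurd h.2 (not_lt.2 hp.le)) _
  have h0 := pnc_chi_rad I (ρ := ρ) (measurable_const.indicator measurableSet_Ioi) (M := 1) hε
    (fun r => by
      by_cases h : r ∈ Set.Ioi ε
      · rw [hρ, Set.indicator_of_mem h]; simp
      · rw [hρ, Set.indicator_of_notMem h]; simp)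
    (fun r _ hr => Set.indicator_of_notMem (by simpa using hr.le) _)
  have hsum : ∀ p, pncChi p * ρ (pncN p) = FA p + FC p := by
    intro p
    by_cases h1 : ε < |p.1|
    · have h2 : ε < pncN p := h1.trans_le (pnc_abs_fst_le p)
      rw [hρ, Set.indicator_of_mem (show pncN p ∈ Set.Ioi ε from h2), hFA, Set.indicator_of_mem (show p ∈ {p : ℝ × ℝ | ε < |p.1|} from h1),
        hFC, Set.indicator_of_notMem (show p ∉ {p : ℝ × ℝ | |p.1| ≤ ε ∧ ε < pncN p} from
          fun h : |p.1| ≤ ε ∧ ε < pncN p => absurd h.1 (not_le.2 h1))]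
      ring
    · by_cases h2 : ε < pncN p
      · rw [hρ, Set.indicator_of_mem (show pncN p ∈ Set.Ioi ε from h2), hFA, Set.indicator_of_notMem (show p ∉ {p : ℝ × ℝ | ε < |p.1|} from h1),
          hFC, Set.indicator_of_mem (show p ∈ {p : ℝ × ℝ | |p.1| ≤ ε ∧ ε < pncN p} from ⟨not_lt.1 h1, h2⟩)]
        ring
      · rw [hρ, Set.indicator_of_notMem (show pncN p ∉ Set.Ioi ε from h2), hFA, Set.indicator_of_notMem (show p ∉ {p : ℝ × ℝ | ε < |p.1|} from h1),
          hFC, Set.indicator_of_notMem (show p ∉ {p : ℝ × ℝ | |p.1| ≤ ε ∧ ε < pncN p} from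
            fun h : |p.1| ≤ ε ∧ ε < pncN p => h2 h.2)]
        ring
  simp_rw [hsum] at h0
  rw [integral_add iA iC] at h0
  rw [← integral_indicator hA]
  have hTfin : I.C0 {p : ℝ × ℝ | ε ≤ pncN p ∧ pncN p ≤ 3 * ε} ≤ 2 * ENNReal.ofReal I.K := by
    have hsub : {p : ℝ × ℝ | ε ≤ pncN p ∧ pncN p ≤ 3 * ε} ⊆ {p | ε ≤ pncN p ∧ pncN p ≤ ε * 2 ^ 1} ∪ {p | ε * 2 ≤ pncN p ∧ pncN p ≤ 2 * (ε * 2)} := by
      intro p hp
      by_cases h : pncN p ≤ ε * 2
      · exact Or.inl ⟨hp.1, by simpa using h⟩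
      · exact Or.inr ⟨(not_le.1 h).le, hp.2.trans (by linarith)⟩
    refine (measure_mono hsub).trans ((measure_union_le _ _).trans ?_)
    have a1 := I.ann ε hε
    have a2 := I.ann (ε * 2) (by positivity)
    rw [two_mul (ENNReal.ofReal I.K)]
    refine add_le_add ((measure_mono fun p hp => ?_).trans a1) a2
    exact ⟨hp.1, hp.2.trans (le_of_eq (by ring))⟩
  have iT : Integrable (Set.indicator {p : ℝ × ℝ | ε ≤ pncN p ∧ pncN p ≤ 3 * ε} fun _ => (1 : ℝ)) I.C0 := by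
    rw [integrable_indicator_iff hT, integrableOn_const_iff]
    exact Or.inr (hTfin.trans_lt (ENNReal.mul_lt_top (by simp) ENNReal.ofReal_lt_top))
  have hle : ∫ p, -FC p ∂I.C0 ≤ ∫ p, Set.indicator {p : ℝ × ℝ | ε ≤ pncN p ∧ pncN p ≤ 3 * ε} (fun _ => (1 : ℝ)) p ∂I.C0 := by
    refine integral_mono iC.neg iT fun p => ?_
    by_cases h : |p.1| ≤ ε ∧ ε < pncN p
    · simp only [hFC, Set.indicator_of_mem (show p ∈ {p : ℝ × ℝ | |p.1| ≤ ε ∧ ε < pncN p} from h)]
      by_cases hχ : pncChi p < 0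
      · have : pncN p ≤ 3 * ε := (pnc_chi_neg hχ).trans (by linarith [h.1])
        rw [Set.indicator_of_mem (show p ∈ {p : ℝ × ℝ | ε ≤ pncN p ∧ pncN p ≤ 3 * ε} from ⟨h.2.le, this⟩)]
        linarith [(abs_le.1 (pnc_chi_abs_le p)).1]
      · exact (neg_nonpos.2 (not_lt.1 hχ)).trans (Set.indicator_nonneg (fun _ _ => zero_le_one) _)
    · simp only [hFC, Set.indicator_of_notMem (show p ∉ {p : ℝ × ℝ | |p.1| ≤ ε ∧ ε < pncN p} from h), neg_zero]
      exact Set.indicator_nonneg (fun _ _ => zero_le_one) _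
  rw [integral_neg, integral_indicator hT, setIntegral_const, smul_eq_mul, mul_one] at hle
  have hreal : I.C0.real {p : ℝ × ℝ | ε ≤ pncN p ∧ pncN p ≤ 3 * ε} ≤ 2 * max I.K 0 := by
    unfold Measure.real
    refine (ENNReal.toReal_mono (ENNReal.mul_ne_top (by simp) ENNReal.ofReal_ne_top) hTfin).trans (le_of_eq ?_)
    rw [ENNReal.toReal_mul, ENNReal.toReal_ofReal']
    simp
  linarith

/-- the truncated defect is bounded uniformly in `ε`:  `M = E(univ) + 12 ∫ |p|² dC0 + 2K` -/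
theorem pnc_defect_trunc : ∃ M : ℝ, ∀ ε : ℝ, 0 < ε → ∫ x in {x : ℝ × ℝ | ε < |x.1|}, pncD x ∂I.nu ≤ M := by
  have := I.Efin
  refine ⟨I.E.real Set.univ + 12 * ∫ p, pncQ p ∂I.C0 + 2 * max I.K 0, fun ε hε => ?_⟩
  have hS1 : MeasurableSet {k : ℝ | ε < |k|} := measurableSet_lt measurable_const measurable_id.abs
  have hS : MeasurableSet {x : ℝ × ℝ | ε < |x.1|} := measurableSet_lt measurable_const measurable_fst.abs
  set a : ℝ → ℝ := Set.indicator {k : ℝ | ε < |k|} fun _ => 1 with ha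
  have ham : Measurable a := measurable_const.indicator hS1
  have a1 : ∀ k, ε < |k| → a k = 1 := fun k hk => Set.indicator_of_mem (show k ∈ {k : ℝ | ε < |k|} from hk) _
  have a0 : ∀ k, ¬ ε < |k| → a k = 0 := fun k hk => Set.indicator_of_notMem (show k ∉ {k : ℝ | ε < |k|} from hk) _
  have a01 : ∀ k, 0 ≤ a k ∧ a k ≤ 1 := fun k => by
    by_cases hk : ε < |k|
    · rw [a1 k hk]; exact ⟨zero_le_one, le_rfl⟩
    · rw [a0 k hk]; exact ⟨le_rfl, zero_le_one⟩
  have hGm : Measurable fun y : ℝ × ℝ => a y.1 * pncChi y := (ham.comp measurable_fst).mul pnc_chi_measurable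
  have hGb : ∀ y : ℝ × ℝ, |a y.1 * pncChi y| ≤ 1 := fun y => by
    rw [abs_mul, abs_of_nonneg (a01 _).1]
    calc a y.1 * |pncChi y| ≤ 1 * 1 := mul_le_mul (a01 _).2 (pnc_chi_abs_le y) (abs_nonneg _) zero_le_one
      _ = 1 := one_mul 1
  obtain ⟨i1, i2, hmix⟩ := pnc_mix_real I hGm hε hGb (fun x hx => by rw [a0 _ (not_lt.2 hx.le), zero_mul])
  have e1 : ∫ x in {x : ℝ × ℝ | ε < |x.1|}, pncD x ∂I.nu = ∫ x, pncPr (fun y : ℝ × ℝ => a y.1 * pncChi y) x ∂I.nu := by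
    rw [← integral_indicator hS]
    refine integral_congr_ae ?_
    filter_upwards [pnc_ae_nu I] with x hx
    rw [pnc_Pr_fst_mul, pnc_ang hx.1 hx.2]
    by_cases h : ε < |x.1|
    · rw [Set.indicator_of_mem (show x ∈ {x : ℝ × ℝ | ε < |x.1|} from h), a1 _ h, one_mul]
    · rw [Set.indicator_of_notMem (show x ∉ {x : ℝ × ℝ | ε < |x.1|} from h), a0 _ h, zero_mul]
  rw [e1, hmix]
  have b1 : ∫ x : ℝ × ℝ, a x.1 * pncChi x ∂I.E ≤ I.E.real Set.univ := by
    calc ∫ x : ℝ × ℝ, a x.1 * pncChi x ∂I.E ≤ ∫ _, (1 : ℝ) ∂I.E :=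
          integral_mono (Integrable.of_bound hGm.aestronglyMeasurable 1 (Eventually.of_forall fun x => by rw [Real.norm_eq_abs]; exact hGb x))
            (integrable_const _) fun x => (le_abs_self _).trans (hGb x)
      _ = I.E.real Set.univ := by simp
  have iA : Integrable (fun p : ℝ × ℝ => a p.1 * pncChi p) I.C0 := pnc_int_far I hGm hε hGb fun p hp => by
    rw [a0 _ (not_lt.2 ((pnc_abs_fst_le p).trans hp.le)), zero_mul]
  have b2 : ∫ p, a (pncCh p).1 * pncChi (pncCh p) ∂I.C0 ≤ ∫ p : ℝ × ℝ, a p.1 * pncChi p ∂I.C0 + 12 * ∫ p, pncQ p ∂I.C0 := by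
    rw [← integral_const_mul, ← integral_add iA ((pnc_Q_integrable I).const_mul 12)]
    refine integral_mono_ae i2 (iA.add ((pnc_Q_integrable I).const_mul 12)) ?_
    filter_upwards [pnc_ae_disc I] with p hp
    have h1 := (abs_le.1 (pnc_chi_dist (hp.2.le.trans I.r0_le))).2
    have h2 := a01 p.1
    have h3 := pnc_Q_nonneg p
    show a p.1 * pncChi (pncCh p) ≤ a p.1 * pncChi p + 12 * pncQ p
    nlinarith
  have b3 : ∫ p : ℝ × ℝ, a p.1 * pncChi p ∂I.C0 ≤ 2 * max I.K 0 := by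
    refine le_trans (le_of_eq ?_) (pnc_cap_le I hε)
    rw [← integral_indicator hS]
    refine integral_congr_ae (Eventually.of_forall fun p => ?_)
    by_cases h : ε < |p.1|
    · simp only [Set.indicator_of_mem (show p ∈ {x : ℝ × ℝ | ε < |x.1|} from h), a1 _ h, one_mul]
    · simp only [Set.indicator_of_notMem (show p ∉ {x : ℝ × ℝ | ε < |x.1|} from h), a0 _ h, zero_mul]
  linarith

/-- **the summable dispersion defect**.      TEX[04-plane (4.13) `plane:eq:defect`] -/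
theorem pnc_defect : ∫⁻ x, ENNReal.ofReal (pncD x) ∂I.nu < ∞ := by
  obtain ⟨M, hM⟩ := pnc_defect_trunc I
  set S : ℕ → Set (ℝ × ℝ) := fun n => {x : ℝ × ℝ | 1 / ((n : ℝ) + 1) < |x.1|} with hS
  have hSm : ∀ n, MeasurableSet (S n) := fun n => measurableSet_lt measurable_const measurable_fst.abs
  have hD : Measurable fun x => ENNReal.ofReal (pncD x) := pnc_D_measurable.ennreal_ofReal
  have h1 : ∀ n, ∫⁻ x in S n, ENNReal.ofReal (pncD x) ∂I.nu ≤ ENNReal.ofReal M := by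
    intro n
    have hpos : (0 : ℝ) < 1 / ((n : ℝ) + 1) := by positivity
    have hfin : I.nu (S n) < ∞ := (measure_mono fun x hx => (le_of_lt hx : 1 / ((n : ℝ) + 1) ≤ |x.1|)).trans_lt (pnc_nu_far I hpos)
    have hint : IntegrableOn pncD (S n) I.nu := by
      refine Measure.integrableOn_of_bounded hfin.ne pnc_D_measurable.aestronglyMeasurable (M := 1) ?_
      filter_upwards [ae_restrict_of_ae (pnc_ae_nu I)] with x hx
      rw [Real.norm_eq_abs, abs_of_nonneg (pnc_D_nonneg x)]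
      exact pnc_D_le_one hx.2
    rw [← ofReal_integral_eq_lintegral_ofReal hint (Eventually.of_forall pnc_D_nonneg)]
    exact ENNReal.ofReal_le_ofReal (hM _ hpos)
  have hmono : Monotone S := by
    intro n m hnm x hx
    have hx : 1 / ((n : ℝ) + 1) < |x.1| := hx
    show 1 / ((m : ℝ) + 1) < |x.1|
    refine lt_of_le_of_lt ?_ hx
    have : (n : ℝ) ≤ m := by exact_mod_cast hnm
    exact one_div_le_one_div_of_le (by positivity) (by linarith)
  have hU : ∀ᵐ x ∂I.nu, x ∈ ⋃ n, S n := by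
    filter_upwards [pnc_ae_nu I] with x hx
    obtain ⟨n, hn⟩ := exists_nat_one_div_lt (abs_pos.2 hx.1)
    exact Set.mem_iUnion.2 ⟨n, hn⟩
  rw [← Measure.restrict_eq_self_of_ae_mem hU, setLIntegral_iUnion_of_directed _ (directed_of_isDirected_le hmono)]
  exact (iSup_le h1).trans_lt ENNReal.ofReal_lt_top

theorem pnc_D_integrable : Integrable pncD I.nu := by
  refine ⟨pnc_D_measurable.aestronglyMeasurable, ?_⟩
  rw [hasFiniteIntegral_iff_norm]
  simpa only [Real.norm_eq_abs, abs_of_nonneg (pnc_D_nonneg _)] using pnc_defect I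

/-- the defect of the small bands tends to zero -/
theorem pnc_defect_small : Tendsto (fun r : ℝ => ∫ x in {x : ℝ × ℝ | |x.1| ≤ r}, pncD x ∂I.nu) (𝓝[>] 0) (𝓝 0) := by
  have hS : ∀ r : ℝ, MeasurableSet {x : ℝ × ℝ | |x.1| ≤ r} := fun r => measurableSet_le measurable_fst.abs measurable_const
  simp_rw [← integral_indicator (hS _)]
  suffices h : Tendsto (fun r : ℝ => ∫ x, Set.indicator {x : ℝ × ℝ | |x.1| ≤ r} pncD x ∂I.nu) (𝓝[>] 0) (𝓝 (∫ _, (0 : ℝ) ∂I.nu)) by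
    simpa using h
  refine tendsto_integral_filter_of_dominated_convergence pncD ?_ ?_ (pnc_D_integrable I) ?_
  · exact Eventually.of_forall fun r => (pnc_D_measurable.indicator (hS r)).aestronglyMeasurable
  · refine Eventually.of_forall fun r => Eventually.of_forall fun x => ?_
    rw [Real.norm_eq_abs, abs_of_nonneg (Set.indicator_nonneg (fun y _ => pnc_D_nonneg y) x)]
    exact Set.indicator_le_self' (fun y _ => pnc_D_nonneg y) x
  · filter_upwards [pnc_ae_nu I] with x hx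
    refine tendsto_const_nhds.congr' ?_
    have : ∀ᶠ r : ℝ in 𝓝[>] 0, r < |x.1| := nhdsWithin_le_nhds (Iio_mem_nhds (abs_pos.2 hx.1))
    filter_upwards [this] with r hr
    exact (Set.indicator_of_notMem (show x ∉ {x : ℝ × ℝ | |x.1| ≤ r} from not_le.2 hr) _).symm

theorem pnq_N_le_add (p : ℝ × ℝ) : pncN p ≤ |p.1| + |p.2| := by
  unfold pncN pncQ
  rw [Real.sqrt_le_iff]
  refine ⟨by positivity, ?_⟩
  nlinarith [abs_nonneg p.1, abs_nonneg p.2, sq_abs p.1, sq_abs p.2]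

theorem pnq_meas_band (a b : ℝ) : MeasurableSet {x : ℝ × ℝ | a ≤ |x.1| ∧ |x.1| ≤ b} :=
  (measurableSet_le measurable_const measurable_fst.abs).inter (measurableSet_le measurable_fst.abs measurable_const)

/-- off `s ∈ [r/2, 4r]` the defect of a point of the band is at least `1/9` -/
theorem pnq_D_ninth {x : ℝ × ℝ} {r : ℝ} (hr : 0 < r) (h1 : r ≤ |x.1|) (h2 : |x.1| ≤ 2 * r) (hs : 0 ≤ x.2) (h : x.2 < r / 2 ∨ 4 * r < x.2) :
    1 / 9 ≤ pncD x := by
  unfold pncD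
  have hpos : 0 < |x.1| + x.2 := by linarith
  rw [div_pow, le_div_iff₀ (by positivity)]
  rcases h with h | h
  · nlinarith
  · nlinarith

/-- lower bound of the Cauchy density on the box -/
theorem pnq_cd_lb {r s t : ℝ} (hr : 0 < r) (h1 : r / 2 ≤ s) (h2 : s ≤ 4 * r) (ht : |t| ≤ 2 * r) : 1 / (40 * π * r) ≤ pncCd s t := by
  unfold pncCd
  have hs : 0 < s := by linarith
  have ht2 : t ^ 2 ≤ (2 * r) ^ 2 := by
    rw [← sq_abs t]
    exact pow_le_pow_left₀ (abs_nonneg _) ht 2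
  rw [div_le_div_iff₀ (by positivity) (by positivity)]
  have h3 : s ^ 2 + t ^ 2 ≤ 40 * r * s := by nlinarith
  calc 1 * (π * (s ^ 2 + t ^ 2)) = π * (s ^ 2 + t ^ 2) := one_mul _
    _ ≤ π * (40 * r * s) := mul_le_mul_of_nonneg_left h3 Real.pi_pos.le
    _ = s * (40 * π * r) := by ring

/-- **bands**.      TEX[04-plane (4.14) `plane:eq:bands`]      (`D ≥ 1/9` off `s ∈ [r/2, 4r]`; there `Cauchy_s{|t| ≤ 2r} ≥ 1/(10π)`.) -/
theorem pnc_bands : ∃ K1 : ℝ, ∀ r : ℝ, 0 < r → I.nu {x | r ≤ |x.1| ∧ |x.1| ≤ 2 * r} ≤ ENNReal.ofReal K1 := by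
  have := I.Efin
  set c1 : ℝ≥0∞ := (∫⁻ x, ENNReal.ofReal (pncD x) ∂I.nu) / ENNReal.ofReal (1 / 9) with hc1
  set c2 : ℝ≥0∞ := ((2 + 1 : ℕ) * ENNReal.ofReal I.K + I.E Set.univ) / ENNReal.ofReal (1 / (10 * π)) with hc2
  have hc1' : c1 ≠ ∞ := ENNReal.div_ne_top (pnc_defect I).ne (by simp)
  have hc2' : c2 ≠ ∞ := by
    refine ENNReal.div_ne_top (ENNReal.add_ne_top.2 ⟨ENNReal.mul_ne_top (ENNReal.natCast_ne_top _) ENNReal.ofReal_ne_top, measure_ne_top _ _⟩) ?_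
    simp only [ne_eq, ENNReal.ofReal_eq_zero, not_le]
    positivity
  refine ⟨(c1 + c2).toReal, fun r hr => ?_⟩
  rw [ENNReal.ofReal_toReal (ENNReal.add_ne_top.2 ⟨hc1', hc2'⟩)]
  -- the two parts
  have hsub : ∀ᵐ x ∂I.nu, x ∈ {x : ℝ × ℝ | r ≤ |x.1| ∧ |x.1| ≤ 2 * r} →
      x ∈ {x : ℝ × ℝ | ENNReal.ofReal (1 / 9) ≤ ENNReal.ofReal (pncD x)} ∪
        {x : ℝ × ℝ | (r ≤ |x.1| ∧ |x.1| ≤ 2 * r) ∧ r / 2 ≤ x.2 ∧ x.2 ≤ 4 * r} := by
    filter_upwards [pnc_ae_nu I] with x hx hB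
    by_cases h : x.2 < r / 2 ∨ 4 * r < x.2
    · exact Or.inl (ENNReal.ofReal_le_ofReal (pnq_D_ninth hr hB.1 hB.2 hx.2 h))
    · push Not at h
      exact Or.inr ⟨hB, h.1, h.2⟩
  refine (measure_mono_ae hsub).trans ((measure_union_le _ _).trans (add_le_add ?_ ?_))
  · exact meas_ge_le_lintegral_div pnc_D_measurable.ennreal_ofReal.aemeasurable (by simp) ENNReal.ofReal_ne_top
  · -- the box test
    have hA : MeasurableSet {y : ℝ × ℝ | (r ≤ |y.1| ∧ |y.1| ≤ 2 * r) ∧ |y.2| ≤ 2 * r} :=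
      (pnq_meas_band _ _).inter (measurableSet_le measurable_snd.abs measurable_const)
    have hB2 : MeasurableSet {x : ℝ × ℝ | (r ≤ |x.1| ∧ |x.1| ≤ 2 * r) ∧ r / 2 ≤ x.2 ∧ x.2 ≤ 4 * r} :=
      (pnq_meas_band _ _).inter ((measurableSet_le measurable_const measurable_snd).inter (measurableSet_le measurable_snd measurable_const))
    set G : ℝ × ℝ → ℝ≥0∞ := Set.indicator {y : ℝ × ℝ | (r ≤ |y.1| ∧ |y.1| ≤ 2 * r) ∧ |y.2| ≤ 2 * r} (fun _ => 1) with hG
    have hGm : Measurable G := measurable_const.indicator hA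
    have hmix := I.mix G hGm
    have hG1 : ∀ y, G y ≤ 1 := fun y => Set.indicator_le' (fun _ _ => le_rfl) (fun _ _ => zero_le) y
    -- lower bound of the left side
    have hlow : ENNReal.ofReal (1 / (10 * π)) * I.nu {x : ℝ × ℝ | (r ≤ |x.1| ∧ |x.1| ≤ 2 * r) ∧ r / 2 ≤ x.2 ∧ x.2 ≤ 4 * r} ≤ ∫⁻ x, pncP G x ∂I.nu := by
      rw [← setLIntegral_const, ← lintegral_indicator hB2]
      apply lintegral_mono
      intro x
      by_cases hx : (r ≤ |x.1| ∧ |x.1| ≤ 2 * r) ∧ r / 2 ≤ x.2 ∧ x.2 ≤ 4 * r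
      · rw [Set.indicator_of_mem (show x ∈ {x : ℝ × ℝ | (r ≤ |x.1| ∧ |x.1| ≤ 2 * r) ∧ r / 2 ≤ x.2 ∧ x.2 ≤ 4 * r} from hx)]
        unfold pncP
        rw [if_neg (by linarith [hx.2.1] : x.2 ≠ 0)]
        calc ENNReal.ofReal (1 / (10 * π)) = ENNReal.ofReal (1 / (40 * π * r)) * ENNReal.ofReal (4 * r) := by
              rw [← ENNReal.ofReal_mul (by positivity)]
              congr 1
              field_simp
              ring
          _ = ∫⁻ _ in Set.Icc (-(2 * r)) (2 * r), ENNReal.ofReal (1 / (40 * π * r)) := by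
              rw [setLIntegral_const, Real.volume_Icc]
              congr 2
              ring
          _ = ∫⁻ t, Set.indicator (Set.Icc (-(2 * r)) (2 * r)) (fun _ => ENNReal.ofReal (1 / (40 * π * r))) t :=
              (lintegral_indicator measurableSet_Icc _).symm
          _ ≤ ∫⁻ t, G (x.1, t) * ENNReal.ofReal (pncCd x.2 t) := by
              apply lintegral_mono
              intro t
              beta_reduce
              by_cases ht : t ∈ Set.Icc (-(2 * r)) (2 * r)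
              · rw [Set.indicator_of_mem ht, hG,
                  Set.indicator_of_mem (show (x.1, t) ∈ {y : ℝ × ℝ | (r ≤ |y.1| ∧ |y.1| ≤ 2 * r) ∧ |y.2| ≤ 2 * r} from ⟨hx.1, abs_le.2 ht⟩), one_mul]
                exact ENNReal.ofReal_le_ofReal (pnq_cd_lb hr hx.2.1 hx.2.2 (abs_le.2 ht))
              · rw [Set.indicator_of_notMem ht]
                exact zero_le
      · rw [Set.indicator_of_notMem (show x ∉ {x : ℝ × ℝ | (r ≤ |x.1| ∧ |x.1| ≤ 2 * r) ∧ r / 2 ≤ x.2 ∧ x.2 ≤ 4 * r} from hx)]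
        exact zero_le
    -- upper bound of the right side
    have hup1 : ∫⁻ p in {p : ℝ × ℝ | p.1 ≠ 0}, G (pncCh p) ∂I.C0 ≤ (2 + 1 : ℕ) * ENNReal.ofReal I.K := by
      refine le_trans ?_ (pnc_shell_pow I hr 2)
      rw [← lintegral_indicator_one (pnc_meas_shell _ _)]
      refine (setLIntegral_le_lintegral _ _).trans (lintegral_mono_ae ?_)
      filter_upwards [pnc_ae_disc I] with p hp
      by_cases hq : (r ≤ |(pncCh p).1| ∧ |(pncCh p).1| ≤ 2 * r) ∧ |(pncCh p).2| ≤ 2 * r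
      · have hp2 : |p.2| ≤ 2 * r := le_trans (pnc_lt_ge (le_trans (pnc_abs_snd_le p) (le_trans hp.2.le I.r0_le))) hq.2
        have hmem : p ∈ {p : ℝ × ℝ | r ≤ pncN p ∧ pncN p ≤ r * 2 ^ 2} := by
          refine ⟨le_trans hq.1.1 (pnc_abs_fst_le p), le_trans (pnq_N_le_add p) ?_⟩
          have : |p.1| ≤ 2 * r := hq.1.2
          linarith
        rw [Set.indicator_of_mem hmem]
        exact hG1 _
      · rw [hG, Set.indicator_of_notMem (show pncCh p ∉ {y : ℝ × ℝ | (r ≤ |y.1| ∧ |y.1| ≤ 2 * r) ∧ |y.2| ≤ 2 * r} from hq)]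
        exact zero_le
    have hup2 : ∫⁻ x, G x ∂I.E ≤ I.E Set.univ := by
      calc ∫⁻ x, G x ∂I.E ≤ ∫⁻ _, 1 ∂I.E := lintegral_mono hG1
        _ = I.E Set.univ := by simp
    rw [hc2, ENNReal.le_div_iff_mul_le (Or.inl (by
      simp only [ne_eq, ENNReal.ofReal_eq_zero, not_le]
      positivity)) (Or.inl ENNReal.ofReal_ne_top), mul_comm]
    calc _ ≤ ∫⁻ x, pncP G x ∂I.nu := hlow
      _ = _ := hmix
      _ ≤ _ := add_le_add hup1 hup2

theorem pnq_bands_pow {K1 : ℝ} (hK : ∀ r : ℝ, 0 < r → I.nu {x | r ≤ |x.1| ∧ |x.1| ≤ 2 * r} ≤ ENNReal.ofReal K1) {a : ℝ} (ha : 0 < a) (n : ℕ) :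
    I.nu {x | a ≤ |x.1| ∧ |x.1| ≤ a * 2 ^ n} ≤ (n + 1 : ℕ) * ENNReal.ofReal K1 := by
  induction n with
  | zero =>
    simp only [pow_zero, mul_one, zero_add, Nat.cast_one, one_mul]
    refine (measure_mono fun p hp => ?_).trans (hK a ha)
    exact ⟨hp.1, hp.2.trans (by linarith)⟩
  | succ n ih =>
    have hsub : {x : ℝ × ℝ | a ≤ |x.1| ∧ |x.1| ≤ a * 2 ^ (n + 1)} ⊆ {x | a ≤ |x.1| ∧ |x.1| ≤ a * 2 ^ n}
        ∪ {x | a * 2 ^ n ≤ |x.1| ∧ |x.1| ≤ 2 * (a * 2 ^ n)} := by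
      intro p hp
      by_cases h : |p.1| ≤ a * 2 ^ n
      · exact Or.inl ⟨hp.1, h⟩
      · exact Or.inr ⟨(not_le.1 h).le, hp.2.trans (le_of_eq (by ring))⟩
    refine (measure_mono hsub).trans ((measure_union_le _ _).trans ?_)
    have := hK (a * 2 ^ n) (by positivity)
    calc _ ≤ (n + 1 : ℕ) * ENNReal.ofReal K1 + ENNReal.ofReal K1 := add_le_add ih this
      _ = ((n + 1 + 1 : ℕ) : ℝ≥0∞) * ENNReal.ofReal K1 := by push_cast; ring

/-- bands of bounded ratio, uniformly in the scale -/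
theorem pnc_bands' {α β : ℝ} (hα : 0 < α) : ∃ M : ℝ, ∀ δ : ℝ, 0 < δ → I.nu {x | α * δ ≤ |x.1| ∧ |x.1| ≤ β * δ} ≤ ENNReal.ofReal M := by
  obtain ⟨K1, hK⟩ := pnc_bands I
  obtain ⟨n, hn⟩ := pow_unbounded_of_one_lt (β / α) (one_lt_two : (1 : ℝ) < 2)
  refine ⟨(n + 1 : ℕ) * max K1 0, fun δ hδ => ?_⟩
  have h1 : {x : ℝ × ℝ | α * δ ≤ |x.1| ∧ |x.1| ≤ β * δ} ⊆ {x | α * δ ≤ |x.1| ∧ |x.1| ≤ α * δ * 2 ^ n} := by
    intro p hp
    refine ⟨hp.1, hp.2.trans ?_⟩
    rw [div_lt_iff₀ hα] at hn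
    nlinarith
  refine (measure_mono h1).trans ((pnq_bands_pow I hK (by positivity) n).trans ?_)
  rw [ENNReal.ofReal_mul (by positivity), ENNReal.ofReal_natCast]
  gcongr
  exact le_max_left _ _

/-! ### D. endcaps -/

theorem pnc_sqrt3_bd2 : 1.732 < Real.sqrt 3 ∧ Real.sqrt 3 < 1.733 := by
  have h3 : Real.sqrt 3 ^ 2 = 3 := Real.sq_sqrt (by norm_num)
  have h0 : 0 ≤ Real.sqrt 3 := Real.sqrt_nonneg 3
  constructor
  · by_contra h
    nlinarith [not_lt.1 h]
  · by_contra h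
    nlinarith [not_lt.1 h]

/-- geometry of the rotated cap.      TEX[04-plane l.482-486] -/
theorem pnc_ec_geo {q : ℝ × ℝ} {b h : ℝ} (hh : 0 < h) (hb : h < b / 10) (h1 : b < pncN q) (h2 : pncN q ≤ 2 * b)
    (h3 : |(pncRot q).1| ≤ h) : 0.8 * b ≤ |q.1| ∧ |q.1| ≤ 1.8 * b ∧ 0.4 * b ≤ |q.2| := by
  obtain ⟨s1, s2⟩ := pnc_sqrt3_bd2
  have hb0 : 0 < b := by linarith
  set u := (pncRot q).1 with hu
  set v := (pncRot q).2 with hv
  have hQ : u ^ 2 + v ^ 2 = pncN q ^ 2 := by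
    rw [pnc_N_sq, ← pnc_Q_rot q]; rfl
  have e := pnc_rotI_rot q
  have e1 : q.1 = u / 2 + Real.sqrt 3 / 2 * v := by
    conv_lhs => rw [← e]
    rfl
  have e2 : q.2 = -(Real.sqrt 3 / 2 * u) + v / 2 := by
    conv_lhs => rw [← e]
    rfl
  have hu2 : u ^ 2 ≤ h ^ 2 := by
    rw [← sq_abs u]; exact pow_le_pow_left₀ (abs_nonneg _) h3 2
  have hv1 : 0.99 * b ≤ |v| := by
    have : (0.99 * b) ^ 2 ≤ v ^ 2 := by nlinarith
    have := sq_le_sq.1 this
    rwa [abs_of_pos (by positivity)] at this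
  have hv2 : |v| ≤ 2 * b := by
    have : v ^ 2 ≤ (2 * b) ^ 2 := by nlinarith [sq_nonneg u, pnc_N_nonneg q]
    have := sq_le_sq.1 this
    rwa [abs_of_pos (by positivity : (0 : ℝ) < 2 * b)] at this
  have hs : (0 : ℝ) ≤ Real.sqrt 3 / 2 := by positivity
  have a1 : Real.sqrt 3 / 2 * |v| ≤ |q.1| + |u| / 2 := by
    have : Real.sqrt 3 / 2 * v = q.1 - u / 2 := by rw [e1]; ring
    calc Real.sqrt 3 / 2 * |v| = |Real.sqrt 3 / 2 * v| := by rw [abs_mul, abs_of_nonneg hs]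
      _ = |q.1 - u / 2| := by rw [this]
      _ ≤ |q.1| + |u / 2| := abs_sub _ _
      _ = |q.1| + |u| / 2 := by rw [abs_div, abs_of_pos (by norm_num : (0 : ℝ) < 2)]
  have a2 : |q.1| ≤ |u| / 2 + Real.sqrt 3 / 2 * |v| := by
    rw [e1]
    calc |u / 2 + Real.sqrt 3 / 2 * v| ≤ |u / 2| + |Real.sqrt 3 / 2 * v| := abs_add_le _ _
      _ = |u| / 2 + Real.sqrt 3 / 2 * |v| := by rw [abs_div, abs_of_pos (by norm_num : (0 : ℝ) < 2), abs_mul, abs_of_nonneg hs]
  have a3 : |v| / 2 ≤ |q.2| + Real.sqrt 3 / 2 * |u| := by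
    have : v / 2 = q.2 + Real.sqrt 3 / 2 * u := by rw [e2]; ring
    calc |v| / 2 = |v / 2| := by rw [abs_div, abs_of_pos (by norm_num : (0 : ℝ) < 2)]
      _ = |q.2 + Real.sqrt 3 / 2 * u| := by rw [this]
      _ ≤ |q.2| + |Real.sqrt 3 / 2 * u| := abs_add_le _ _
      _ = |q.2| + Real.sqrt 3 / 2 * |u| := by rw [abs_mul, abs_of_nonneg hs]
  have hv0 := abs_nonneg v
  have hu0 := abs_nonneg u
  refine ⟨?_, ?_, ?_⟩
  · nlinarith
  · nlinarith
  · nlinarith

/-- the Cayley variable is monotone and `2`-Lipschitz on `|l| ≤ 0.6` -/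
theorem pnc_lt_lip {l1 l2 : ℝ} (h12 : l1 ≤ l2) (h1 : |l1| ≤ 0.6) (h2 : |l2| ≤ 0.6) :
    pncLt l1 ≤ pncLt l2 ∧ pncLt l2 - pncLt l1 ≤ 2 * (l2 - l1) := by
  obtain ⟨s1, s2⟩ := pnc_sqrt3_bd2
  have hs : (0 : ℝ) < Real.sqrt 3 := by positivity
  set x1 := Real.sqrt 3 / 2 * l1 with hx1
  set x2 := Real.sqrt 3 / 2 * l2 with hx2
  have b1 : |x1| ≤ 0.52 := by
    rw [hx1, abs_mul, abs_of_pos (by positivity)]
    nlinarith [abs_nonneg l1]
  have b2 : |x2| ≤ 0.52 := by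
    rw [hx2, abs_mul, abs_of_pos (by positivity)]
    nlinarith [abs_nonneg l2]
  have c1 : 0.86 ≤ Real.cos x1 := by
    have := Real.one_sub_sq_div_two_le_cos (x := x1)
    have h : x1 ^ 2 ≤ 0.52 ^ 2 := by rw [← sq_abs x1]; exact pow_le_pow_left₀ (abs_nonneg _) b1 2
    nlinarith
  have c2 : 0.86 ≤ Real.cos x2 := by
    have := Real.one_sub_sq_div_two_le_cos (x := x2)
    have h : x2 ^ 2 ≤ 0.52 ^ 2 := by rw [← sq_abs x2]; exact pow_le_pow_left₀ (abs_nonneg _) b2 2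
    nlinarith
  have hd : 0 ≤ x2 - x1 := by
    rw [hx1, hx2, ← mul_sub]; exact mul_nonneg (by positivity) (by linarith)
  have hd2 : x2 - x1 ≤ π := by
    have := Real.pi_gt_three
    have := abs_le.1 b1
    have := abs_le.1 b2
    linarith
  have et : Real.tan x2 - Real.tan x1 = Real.sin (x2 - x1) / (Real.cos x1 * Real.cos x2) := by
    rw [Real.tan_eq_sin_div_cos, Real.tan_eq_sin_div_cos, Real.sin_sub]
    have : Real.cos x1 ≠ 0 := by linarith
    have : Real.cos x2 ≠ 0 := by linarith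
    field_simp
  have hprod : 0.7 ≤ Real.cos x1 * Real.cos x2 := by nlinarith
  have s0 : 0 ≤ Real.sin (x2 - x1) := Real.sin_nonneg_of_nonneg_of_le_pi hd hd2
  have s3 : Real.sin (x2 - x1) ≤ x2 - x1 := Real.sin_le hd
  have t0 : 0 ≤ Real.tan x2 - Real.tan x1 := by rw [et]; exact div_nonneg s0 (by linarith)
  have t1 : Real.tan x2 - Real.tan x1 ≤ 2 * (x2 - x1) := by
    rw [et, div_le_iff₀ (by linarith)]
    nlinarith
  have e : pncLt l2 - pncLt l1 = 2 / Real.sqrt 3 * (Real.tan x2 - Real.tan x1) := by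
    unfold pncLt; ring
  have hc : (0 : ℝ) < 2 / Real.sqrt 3 := by positivity
  constructor
  · have : 0 ≤ pncLt l2 - pncLt l1 := by rw [e]; exact mul_nonneg hc.le t0
    linarith
  · rw [e]
    calc 2 / Real.sqrt 3 * (Real.tan x2 - Real.tan x1) ≤ 2 / Real.sqrt 3 * (2 * (x2 - x1)) := by gcongr
      _ = 2 * (l2 - l1) := by
          rw [hx1, hx2]; field_simp

/-- **endcaps**.      TEX[04-plane (4.17) `plane:eq:endcaps`]      Rotate the cap by `π/3` (`pnc_rot_measure`): there `0.8 b ≤ |k'| ≤ 1.8 b`, `0.4 b ≤ |l'| ≤ 1.1 b`,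
and at fixed `k'` the section in `l'` is an interval of length `4h/√3`; its image by `pncLt` has length `≤ 8h/√3`; the Cauchy density is `≤ 1/(0.8 π b)` (`pnc_cd_le`), the atom `s = 0` misses it;
`mix` (inequality, `E ≥ 0`) + `pnc_bands`. -/
theorem pnc_endcaps : ∃ K3 : ℝ, ∀ b h : ℝ, 0 < h → h < b / 10 →
    I.C0 {p | b < pncN p ∧ pncN p ≤ 2 * b ∧ |p.1| ≤ h} ≤ ENNReal.ofReal (K3 * h / b) := by
  obtain ⟨K1, hK1⟩ := pnc_bands I
  obtain ⟨s1, s2⟩ := pnc_sqrt3_bd2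
  have hs0 : (0 : ℝ) < Real.sqrt 3 := by positivity
  refine ⟨4 * max K1 0, fun b h hh hb => ?_⟩
  have hb0 : 0 < b := by linarith
  by_cases hbig : 1 / 2 ≤ b
  · have : I.C0 {p | b < pncN p ∧ pncN p ≤ 2 * b ∧ |p.1| ≤ h} = 0 := by
      rw [measure_eq_zero_iff_ae_notMem]
      filter_upwards [pnc_ae_disc I] with p hp hmem
      have := I.r0_le
      have h1 : b < pncN p := hmem.1
      linarith [hp.2]
    rw [this]; exact zero_le
  have hb2 : b < 1 / 2 := not_le.1 hbig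
  have hcapm : MeasurableSet {p : ℝ × ℝ | b < pncN p ∧ pncN p ≤ 2 * b ∧ |p.1| ≤ h} :=
    (measurableSet_lt measurable_const pnc_N_continuous.measurable).inter
      ((measurableSet_le pnc_N_continuous.measurable measurable_const).inter (measurableSet_le measurable_fst.abs measurable_const))
  rw [← pnc_rot_measure I hcapm]
  set lm : ℝ → ℝ := fun k => pncLt ((k - 2 * h) / Real.sqrt 3) with hlm
  set lp : ℝ → ℝ := fun k => pncLt ((k + 2 * h) / Real.sqrt 3) with hlp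
  have hlmm : Measurable lm := pnc_lt_measurable.comp (by fun_prop)
  have hlpm : Measurable lp := pnc_lt_measurable.comp (by fun_prop)
  set T : Set (ℝ × ℝ) := {x | 0.8 * b ≤ |x.1| ∧ |x.1| ≤ 1.8 * b ∧ 0.4 * b ≤ |x.2| ∧ lm x.1 ≤ x.2 ∧ x.2 ≤ lp x.1} with hT
  have hTm : MeasurableSet T :=
    (measurableSet_le measurable_const measurable_fst.abs).inter ((measurableSet_le measurable_fst.abs measurable_const).inter
      ((measurableSet_le measurable_const measurable_snd.abs).inter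
        ((measurableSet_le (hlmm.comp measurable_fst) measurable_snd).inter (measurableSet_le measurable_snd (hlpm.comp measurable_fst)))))
  have hkm : MeasurableSet {p : ℝ × ℝ | p.1 ≠ 0} := (measurableSet_eq_fun measurable_fst measurable_const).compl
  have hbd : ∀ k : ℝ, |k| ≤ 1.8 * b → |(k - 2 * h) / Real.sqrt 3| ≤ 0.6 ∧ |(k + 2 * h) / Real.sqrt 3| ≤ 0.6 := by
    intro k hk
    have := abs_le.1 hk
    constructor
    · rw [abs_div, abs_of_pos hs0, div_le_iff₀ hs0, abs_le]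
      constructor <;> nlinarith
    · rw [abs_div, abs_of_pos hs0, div_le_iff₀ hs0, abs_le]
      constructor <;> nlinarith
  -- step 1
  have st1 : I.C0 (pncRot ⁻¹' {p | b < pncN p ∧ pncN p ≤ 2 * b ∧ |p.1| ≤ h}) ≤ I.C0 (pncCh ⁻¹' T ∩ {p : ℝ × ℝ | p.1 ≠ 0}) := by
    refine measure_mono_ae ?_
    filter_upwards [pnc_ae_disc I] with q hq hmem
    obtain ⟨m1, m2, m3⟩ : b < pncN (pncRot q) ∧ pncN (pncRot q) ≤ 2 * b ∧ |(pncRot q).1| ≤ h := hmem
    rw [pnc_N_rot] at m1 m2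
    obtain ⟨g1, g2, g3⟩ := pnc_ec_geo hh hb m1 m2 m3
    have hq2 : |q.2| ≤ 1 / 2 := (pnc_abs_snd_le q).trans (hq.2.le.trans I.r0_le)
    have hq1 : q.1 ≠ 0 := by
      intro h0
      rw [h0, abs_zero] at g1
      linarith
    obtain ⟨d1, d2⟩ := hbd q.1 g2
    have m3' := abs_le.1 m3
    have er : (pncRot q).1 = q.1 / 2 - Real.sqrt 3 / 2 * q.2 := rfl
    rw [er] at m3'
    have o1 : (q.1 - 2 * h) / Real.sqrt 3 ≤ q.2 := by
      rw [div_le_iff₀ hs0]; linarith [m3'.2]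
    have o2 : q.2 ≤ (q.1 + 2 * h) / Real.sqrt 3 := by
      rw [le_div_iff₀ hs0]; linarith [m3'.1]
    have hq2' : |q.2| ≤ 0.6 := hq2.trans (by norm_num)
    refine ⟨⟨g1, g2, g3.trans (pnc_lt_ge hq2), (pnc_lt_lip o1 d1 hq2').1, (pnc_lt_lip o2 hq2' d2).1⟩, hq1⟩
  -- step 2
  have hGm : Measurable (Set.indicator T fun _ => (1 : ℝ≥0∞)) := measurable_const.indicator hTm
  have st2 : I.C0 (pncCh ⁻¹' T ∩ {p : ℝ × ℝ | p.1 ≠ 0}) ≤ ∫⁻ x, pncP (Set.indicator T fun _ => 1) x ∂I.nu := by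
    rw [I.mix _ hGm]
    refine le_trans (le_of_eq ?_) le_self_add
    have : (fun p => Set.indicator T (fun _ => (1 : ℝ≥0∞)) (pncCh p)) = Set.indicator (pncCh ⁻¹' T) fun _ => 1 := by
      funext p
      by_cases hp : pncCh p ∈ T
      · rw [Set.indicator_of_mem hp, Set.indicator_of_mem (show p ∈ pncCh ⁻¹' T from hp)]
      · rw [Set.indicator_of_notMem hp, Set.indicator_of_notMem (show p ∉ pncCh ⁻¹' T from hp)]
    rw [this, lintegral_indicator (pnc_ch_measurable hTm), setLIntegral_const, one_mul, Measure.restrict_apply (pnc_ch_measurable hTm)]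
  -- step 3
  set Bd : Set (ℝ × ℝ) := {x | 0.8 * b ≤ |x.1| ∧ |x.1| ≤ 1.8 * b} with hBd
  have hBdm : MeasurableSet Bd := (measurableSet_le measurable_const measurable_fst.abs).inter (measurableSet_le measurable_fst.abs measurable_const)
  have st3 : ∀ x : ℝ × ℝ, 0 ≤ x.2 → pncP (Set.indicator T fun _ => 1) x ≤ Set.indicator Bd (fun _ => ENNReal.ofReal (2 * h / b)) x := by
    intro x hx
    unfold pncP
    split_ifs with h0
    · rw [Set.indicator_of_notMem (show (x.1, (0 : ℝ)) ∉ T from fun hm => by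
        have : 0.4 * b ≤ |(0 : ℝ)| := hm.2.2.1
        rw [abs_zero] at this; linarith)]
      exact zero_le
    · by_cases hxB : x ∈ Bd
      · rw [Set.indicator_of_mem hxB]
        have hle : ∀ t, Set.indicator T (fun _ => (1 : ℝ≥0∞)) (x.1, t) * ENNReal.ofReal (pncCd x.2 t)
            ≤ Set.indicator (Set.Icc (lm x.1) (lp x.1)) (fun _ => ENNReal.ofReal (1 / (0.8 * π * b))) t := by
          intro t
          by_cases ht : (x.1, t) ∈ T
          · rw [Set.indicator_of_mem ht, one_mul, Set.indicator_of_mem (show t ∈ Set.Icc (lm x.1) (lp x.1) from ⟨ht.2.2.2.1, ht.2.2.2.2⟩)]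
            refine ENNReal.ofReal_le_ofReal ?_
            have ht3 : 0.4 * b ≤ |t| := ht.2.2.1
            have ht0 : t ≠ 0 := by
              intro h0; rw [h0, abs_zero] at ht3; linarith
            refine (pnc_cd_le hx ht0).trans ?_
            apply one_div_le_one_div_of_le (by positivity)
            have := Real.pi_pos
            nlinarith
          · rw [Set.indicator_of_notMem ht, zero_mul]; exact zero_le
        refine (lintegral_mono hle).trans ?_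
        rw [lintegral_indicator measurableSet_Icc, setLIntegral_const, Real.volume_Icc, ← ENNReal.ofReal_mul (by positivity)]
        refine ENNReal.ofReal_le_ofReal ?_
        obtain ⟨d1, d2⟩ := hbd x.1 hxB.2
        have hl := (pnc_lt_lip (l1 := (x.1 - 2 * h) / Real.sqrt 3) (l2 := (x.1 + 2 * h) / Real.sqrt 3)
          (by gcongr; linarith) d1 d2).2
        have e : (x.1 + 2 * h) / Real.sqrt 3 - (x.1 - 2 * h) / Real.sqrt 3 = 4 * h / Real.sqrt 3 := by ring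
        rw [e] at hl
        have hl2 : lp x.1 - lm x.1 ≤ 4.62 * h := by
          refine hl.trans ?_
          rw [mul_div_assoc', div_le_iff₀ hs0]
          nlinarith
        have hπ := Real.pi_gt_three
        calc 1 / (0.8 * π * b) * (lp x.1 - lm x.1) ≤ 1 / (0.8 * π * b) * (4.62 * h) := by gcongr
          _ ≤ 2 * h / b := by
              rw [div_mul_eq_mul_div, one_mul, div_le_div_iff₀ (by positivity) hb0]
              nlinarith [mul_pos hh hb0]
      · rw [Set.indicator_of_notMem hxB]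
        have : ∀ t, Set.indicator T (fun _ => (1 : ℝ≥0∞)) (x.1, t) * ENNReal.ofReal (pncCd x.2 t) = 0 := by
          intro t
          rw [Set.indicator_of_notMem (show (x.1, t) ∉ T from fun hm => hxB ⟨hm.1, hm.2.1⟩), zero_mul]
        simp only [this, lintegral_zero, le_refl]
  -- step 4
  have st4 : ∫⁻ x, pncP (Set.indicator T fun _ => 1) x ∂I.nu ≤ ENNReal.ofReal (2 * h / b) * (2 * ENNReal.ofReal K1) := by
    calc ∫⁻ x, pncP (Set.indicator T fun _ => 1) x ∂I.nu ≤ ∫⁻ x, Set.indicator Bd (fun _ => ENNReal.ofReal (2 * h / b)) x ∂I.nu := by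
          refine lintegral_mono_ae ?_
          filter_upwards [pnc_ae_nu I] with x hx using st3 x hx.2
      _ = ENNReal.ofReal (2 * h / b) * I.nu Bd := by rw [lintegral_indicator hBdm, setLIntegral_const]
      _ ≤ ENNReal.ofReal (2 * h / b) * (2 * ENNReal.ofReal K1) := by
          gcongr
          have hsub : Bd ⊆ {x | 0.8 * b ≤ |x.1| ∧ |x.1| ≤ 2 * (0.8 * b)} ∪ {x | 1.6 * b ≤ |x.1| ∧ |x.1| ≤ 2 * (1.6 * b)} := by
            intro x hx
            by_cases hc : |x.1| ≤ 1.6 * b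
            · exact Or.inl ⟨hx.1, hc.trans (le_of_eq (by ring))⟩
            · exact Or.inr ⟨(not_le.1 hc).le, hx.2.trans (by linarith)⟩
          refine (measure_mono hsub).trans ((measure_union_le _ _).trans ?_)
          rw [two_mul (ENNReal.ofReal K1)]
          exact add_le_add (hK1 _ (by positivity)) (hK1 _ (by positivity))
  refine st1.trans (st2.trans (st4.trans (le_of_eq ?_)))
  rw [show (2 : ℝ≥0∞) = ENNReal.ofReal 2 by simp, ← ENNReal.ofReal_mul (by norm_num), ← ENNReal.ofReal_mul (by positivity)]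
  rcases le_total 0 K1 with hK | hK
  · rw [max_eq_left hK]; congr 1; ring
  · rw [max_eq_right hK, ENNReal.ofReal_of_nonpos (by
      have : 0 ≤ 2 * h / b := by positivity
      nlinarith)]
    simp

theorem pnq_meas_cap (a b h : ℝ) : MeasurableSet {p : ℝ × ℝ | a < pncN p ∧ pncN p ≤ b ∧ |p.1| ≤ h} :=
  (measurableSet_lt measurable_const pnc_N_continuous.measurable).inter
    ((measurableSet_le pnc_N_continuous.measurable measurable_const).inter (measurableSet_le measurable_fst.abs measurable_const))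

theorem pnq_cap_split (b h : ℝ) (n : ℕ) : {p : ℝ × ℝ | b < pncN p ∧ pncN p ≤ b * 2 ^ (n + 1) ∧ |p.1| ≤ h} ⊆
    {p | b < pncN p ∧ pncN p ≤ 2 * b ∧ |p.1| ≤ h} ∪ {p | 2 * b < pncN p ∧ pncN p ≤ 2 * b * 2 ^ n ∧ |p.1| ≤ h} := by
  intro p hp
  by_cases h1 : pncN p ≤ 2 * b
  · exact Or.inl ⟨hp.1, h1, hp.2.2⟩
  · exact Or.inr ⟨not_le.1 h1, hp.2.1.trans (le_of_eq (by ring)), hp.2.2⟩

theorem pnq_two_sub_nonneg (n : ℕ) : (0 : ℝ) ≤ 2 - 2 / 2 ^ n := by
  have h1 : (1 : ℝ) ≤ 2 ^ n := one_le_pow₀ (by norm_num)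
  have h2 : (2 : ℝ) / 2 ^ n ≤ 2 := by
    rw [div_le_iff₀ (by positivity)]
    linarith
  linarith

/-- finite dyadic sum of the endcaps, mass -/
theorem pnq_caps_pow {K3 : ℝ} (hK0 : 0 ≤ K3) (hK : ∀ b h : ℝ, 0 < h → h < b / 10 →
    I.C0 {p | b < pncN p ∧ pncN p ≤ 2 * b ∧ |p.1| ≤ h} ≤ ENNReal.ofReal (K3 * h / b)) {h : ℝ} (hh : 0 < h) (n : ℕ) :
    ∀ b : ℝ, h < b / 10 → I.C0 {p | b < pncN p ∧ pncN p ≤ b * 2 ^ n ∧ |p.1| ≤ h} ≤ ENNReal.ofReal (K3 * h / b * (2 - 2 / 2 ^ n)) := by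
  induction n with
  | zero =>
    intro b _
    have : {p : ℝ × ℝ | b < pncN p ∧ pncN p ≤ b * 2 ^ 0 ∧ |p.1| ≤ h} = ∅ := by
      ext p
      simp only [pow_zero, mul_one, Set.mem_ofPred_eq, Set.mem_empty_iff_false, iff_false, not_and]
      intro h1 h2
      linarith
    rw [this, measure_empty]
    exact zero_le
  | succ n ih =>
    intro b hb
    have hb0 : 0 < b := by linarith
    refine (measure_mono (pnq_cap_split b h n)).trans ((measure_union_le _ _).trans ?_)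
    refine (add_le_add (hK b h hh hb) (ih (2 * b) (by linarith))).trans ?_
    rw [← ENNReal.ofReal_add (by positivity) (mul_nonneg (by positivity) (pnq_two_sub_nonneg n))]
    apply ENNReal.ofReal_le_ofReal
    apply le_of_eq
    rw [pow_succ]
    field_simp
    ring

/-- finite dyadic sum of the endcaps, weighted by `|p/δ|²` -/
theorem pnq_strip_pow {K3 : ℝ} (hK0 : 0 ≤ K3) (hK : ∀ b h : ℝ, 0 < h → h < b / 10 →
    I.C0 {p | b < pncN p ∧ pncN p ≤ 2 * b ∧ |p.1| ≤ h} ≤ ENNReal.ofReal (K3 * h / b)) {h δ : ℝ} (hh : 0 < h) (hδ : 0 < δ) (n : ℕ) :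
    ∀ b : ℝ, h < b / 10 → ∫⁻ p in {p | b < pncN p ∧ pncN p ≤ b * 2 ^ n ∧ |p.1| ≤ h}, ENNReal.ofReal (pncQ (pncSc δ p)) ∂I.C0 ≤
      ENNReal.ofReal (4 * K3 * h * b * (2 ^ n - 1) / δ ^ 2) := by
  induction n with
  | zero =>
    intro b _
    have : {p : ℝ × ℝ | b < pncN p ∧ pncN p ≤ b * 2 ^ 0 ∧ |p.1| ≤ h} = ∅ := by
      ext p
      simp only [pow_zero, mul_one, Set.mem_ofPred_eq, Set.mem_empty_iff_false, iff_false, not_and]
      intro h1 h2
      linarith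
    rw [this, Measure.restrict_empty, lintegral_zero_measure]
    exact zero_le
  | succ n ih =>
    intro b hb
    have hb0 : 0 < b := by linarith
    have h2n : (1 : ℝ) ≤ 2 ^ n := one_le_pow₀ (by norm_num)
    refine (lintegral_mono_set (pnq_cap_split b h n)).trans ((lintegral_union_le _ _ _).trans ?_)
    have h1 : ∫⁻ p in {p | b < pncN p ∧ pncN p ≤ 2 * b ∧ |p.1| ≤ h}, ENNReal.ofReal (pncQ (pncSc δ p)) ∂I.C0 ≤ ENNReal.ofReal (4 * K3 * h * b / δ ^ 2) := by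
      calc _ ≤ ∫⁻ _ in {p | b < pncN p ∧ pncN p ≤ 2 * b ∧ |p.1| ≤ h}, ENNReal.ofReal ((2 * b) ^ 2 / δ ^ 2) ∂I.C0 := by
            refine setLIntegral_mono' (pnq_meas_cap _ _ _) fun p hp => ENNReal.ofReal_le_ofReal ?_
            rw [pnc_Q_sc, ← pnc_N_sq]
            exact div_le_div_of_nonneg_right (pow_le_pow_left₀ (pnc_N_nonneg p) hp.2.1 2) (by positivity)
        _ = ENNReal.ofReal ((2 * b) ^ 2 / δ ^ 2) * I.C0 {p | b < pncN p ∧ pncN p ≤ 2 * b ∧ |p.1| ≤ h} := setLIntegral_const _ _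
        _ ≤ ENNReal.ofReal ((2 * b) ^ 2 / δ ^ 2) * ENNReal.ofReal (K3 * h / b) := mul_le_mul_right (hK b h hh hb) _
        _ = ENNReal.ofReal (4 * K3 * h * b / δ ^ 2) := by
            rw [← ENNReal.ofReal_mul (by positivity)]
            congr 1
            field_simp
            ring
    refine (add_le_add h1 (ih (2 * b) (by linarith))).trans ?_
    rw [← ENNReal.ofReal_add (by positivity) (div_nonneg (mul_nonneg (by positivity) (by linarith)) (by positivity))]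
    apply ENNReal.ofReal_le_ofReal
    apply le_of_eq
    rw [pow_succ]
    field_simp
    ring

theorem pnq_endcaps_pos : ∃ K3 : ℝ, 0 ≤ K3 ∧ ∀ b h : ℝ, 0 < h → h < b / 10 →
    I.C0 {p | b < pncN p ∧ pncN p ≤ 2 * b ∧ |p.1| ≤ h} ≤ ENNReal.ofReal (K3 * h / b) := by
  obtain ⟨K3, hK⟩ := pnc_endcaps I
  refine ⟨max K3 0, le_max_right _ _, fun b h hh hb => (hK b h hh hb).trans (ENNReal.ofReal_le_ofReal ?_)⟩
  have hb0 : 0 < b := by linarith
  apply div_le_div_of_nonneg_right _ hb0.le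
  exact mul_le_mul_of_nonneg_right (le_max_left _ _) hh.le

/-- the thin strip at scale `δ`, weighted by `|p/δ|²` (ball `|p| ≤ 11 hδ` by `pnc_ball_Q`, dyadic annuli above by `pnc_endcaps`) -/
theorem pnc_strip : ∃ K4 : ℝ, ∀ R h δ : ℝ, 1 ≤ R → 0 < h → h ≤ 1 → 0 < δ →
    ∫⁻ p in {p : ℝ × ℝ | |p.1| ≤ h * δ ∧ pncN p ≤ R * δ}, ENNReal.ofReal (pncQ (pncSc δ p)) ∂I.C0 ≤ ENNReal.ofReal (K4 * R * h) := by
  obtain ⟨K3, hK0, hK⟩ := pnq_endcaps_pos I
  refine ⟨242 * max I.K 0 + 96 * K3, fun R h δ hR hh hh1 hδ => ?_⟩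
  have hK' : 0 ≤ max I.K 0 := le_max_right _ _
  have hb0 : 0 < 11 * (h * δ) := by positivity
  obtain ⟨m, hm1, hm2⟩ := exists_nat_pow_near (x := max 1 (R / (11 * h))) (y := 2) (le_max_left _ _) (by norm_num)
  have hsub : {p : ℝ × ℝ | |p.1| ≤ h * δ ∧ pncN p ≤ R * δ} ⊆ {p | pncN p ≤ 11 * (h * δ)} ∪
      {p | 11 * (h * δ) < pncN p ∧ pncN p ≤ 11 * (h * δ) * 2 ^ (m + 1) ∧ |p.1| ≤ h * δ} := by
    intro p hp
    by_cases h1 : pncN p ≤ 11 * (h * δ)
    · exact Or.inl h1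
    · refine Or.inr ⟨not_le.1 h1, hp.2.trans ?_, hp.1⟩
      have h2 : R / (11 * h) < 2 ^ (m + 1) := lt_of_le_of_lt (le_max_right _ _) hm2
      rw [div_lt_iff₀ (by positivity)] at h2
      nlinarith
  refine (lintegral_mono_set hsub).trans ((lintegral_union_le _ _ _).trans ?_)
  have h1 : ∫⁻ p in {p | pncN p ≤ 11 * (h * δ)}, ENNReal.ofReal (pncQ (pncSc δ p)) ∂I.C0 ≤ ENNReal.ofReal (242 * max I.K 0 * R * h) := by
    have e : ∀ p, ENNReal.ofReal (pncQ (pncSc δ p)) = ENNReal.ofReal (1 / δ ^ 2) * ENNReal.ofReal (pncQ p) := by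
      intro p
      rw [← ENNReal.ofReal_mul (by positivity), pnc_Q_sc]
      congr 1
      ring
    simp_rw [e]
    rw [lintegral_const_mul' _ _ ENNReal.ofReal_ne_top]
    refine (mul_le_mul_right (pnc_ball_Q I hb0) _).trans ?_
    rw [← ENNReal.ofReal_mul (by positivity)]
    apply ENNReal.ofReal_le_ofReal
    have e2 : 1 / δ ^ 2 * (2 * I.K * (11 * (h * δ)) ^ 2) = 242 * I.K * h ^ 2 := by
      field_simp
      ring
    rw [e2]
    have h3 : h ^ 2 ≤ R * h := by nlinarith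
    have h4 : I.K ≤ max I.K 0 := le_max_left _ _
    calc 242 * I.K * h ^ 2 ≤ 242 * max I.K 0 * h ^ 2 := by
          apply mul_le_mul_of_nonneg_right _ (by positivity)
          linarith
      _ ≤ 242 * max I.K 0 * (R * h) := mul_le_mul_of_nonneg_left h3 (by positivity)
      _ = 242 * max I.K 0 * R * h := by ring
  have h2 := pnq_strip_pow I hK0 hK (h := h * δ) (δ := δ) (by positivity) hδ (m + 1) (11 * (h * δ)) (by linarith [mul_pos hh hδ])
  have h3 : 4 * K3 * (h * δ) * (11 * (h * δ)) * (2 ^ (m + 1) - 1) / δ ^ 2 ≤ 96 * K3 * R * h := by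
    have e3 : 4 * K3 * (h * δ) * (11 * (h * δ)) * (2 ^ (m + 1) - 1) / δ ^ 2 = 4 * K3 * h * (11 * h * (2 ^ (m + 1) - 1)) := by
      field_simp
    rw [e3]
    have h5 : 11 * h * (2 : ℝ) ^ m ≤ 12 * R := by
      have h6 : (2 : ℝ) ^ m ≤ 1 + R / (11 * h) := by
        refine hm1.trans (max_le (by have : 0 ≤ R / (11 * h) := by positivity
                                     linarith) (by linarith))
      have h7 : 11 * h * (1 + R / (11 * h)) = 11 * h + R := by
        field_simp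
      have h8 : 11 * h * (2 : ℝ) ^ m ≤ 11 * h * (1 + R / (11 * h)) := mul_le_mul_of_nonneg_left h6 (by positivity)
      rw [h7] at h8
      linarith
    have h9 : 11 * h * ((2 : ℝ) ^ (m + 1) - 1) ≤ 24 * R := by
      rw [pow_succ]
      nlinarith
    calc 4 * K3 * h * (11 * h * (2 ^ (m + 1) - 1)) ≤ 4 * K3 * h * (24 * R) := mul_le_mul_of_nonneg_left h9 (by positivity)
      _ = 96 * K3 * R * h := by ring
  refine (add_le_add h1 (h2.trans (ENNReal.ofReal_le_ofReal h3))).trans ?_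
  rw [← ENNReal.ofReal_add (by positivity) (by positivity)]
  apply ENNReal.ofReal_le_ofReal
  apply le_of_eq
  ring

/-- the far part of the strip `|k| ≤ h` (dyadic sum of `pnc_endcaps`).      TEX[04-plane l.640-646] -/
theorem pnc_cap_tail : ∃ K5 : ℝ, ∀ R h : ℝ, 20 < R → 0 < h → I.C0 {p | R * h ≤ pncN p ∧ |p.1| ≤ h} ≤ ENNReal.ofReal (K5 / R) := by
  obtain ⟨K3, hK0, hK⟩ := pnq_endcaps_pos I
  refine ⟨4 * K3, fun R h hR hh => ?_⟩
  have hb0 : 0 < R * h / 2 := by positivity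
  obtain ⟨n, hn⟩ := pow_unbounded_of_one_lt (1 / 2 / (R * h / 2)) (one_lt_two : (1 : ℝ) < 2)
  have h1 : I.C0 {p | R * h ≤ pncN p ∧ |p.1| ≤ h} ≤ I.C0 {p | R * h / 2 < pncN p ∧ pncN p ≤ R * h / 2 * 2 ^ n ∧ |p.1| ≤ h} := by
    refine measure_mono_ae ?_
    filter_upwards [pnc_ae_disc I] with p hp hmem
    refine ⟨lt_of_lt_of_le (by linarith) hmem.1, ?_, hmem.2⟩
    rw [div_lt_iff₀ hb0] at hn
    linarith [hp.2, I.r0_le]
  refine h1.trans ((pnq_caps_pow I hK0 hK hh n (R * h / 2) (by nlinarith)).trans (ENNReal.ofReal_le_ofReal ?_))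
  have h2 : (0 : ℝ) ≤ 2 / 2 ^ n := by positivity
  calc K3 * h / (R * h / 2) * (2 - 2 / 2 ^ n) ≤ K3 * h / (R * h / 2) * 2 := mul_le_mul_of_nonneg_left (by linarith) (by positivity)
    _ = 4 * K3 / R := by
        field_simp
        ring

end Claimed.Agent.R291
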