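import Mathlib

/-!
# Row 291 (S0539), Sec. 4 (plane normalization), unit PLN-B3 (helper140; prefix `pnc`, `Pnc`)

TeX: `04-plane.tex` l.331-766 (Lemmas 4.5-4.8, proof of Prop 4.1).      MODEL FREE, TORUS FREE.

**Contract `PncIn`** = what is left of the spectral measure `C` of the height increments near the origin of the reciprocal torus,
in PHYSICAL coordinates `p = (k, l) ∈ ℝ × ℝ` (`k` tangential, `l` normal to the horizontal site row):
* `C0` = `C` restricted to the punctured round disc `0 < |p| < r0`; invariant under the rotation by `π/3`; annuli `C0{r ≤ |p| ≤ 2r} ≤ K`;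
* `nu` = the mixing measure in `(k, s)`, `k ≠ 0`, `s ≥ 0`;      `E` = finite measure = image of the rest of the torus (other sheet included);
* `mix` : on `k ≠ 0`, in the CAYLEY normal variable `lt = (2/√3) tan(√3 l/2)`, the image of `C` is EXACTLY the Cauchy mixture
  `∫ δ_k ⊗ Cauchy_s  nu(dk, ds)`  (`Cauchy_0 = δ_0`).      (The periodized Cauchy kernel `Q_s` of the paper is the Poisson kernel of the disc in `φ = √3 l`; the Cayley map
  turns it into the Cauchy law of scale `st = (2/√3)(1-λ)/(1+λ)` on the line: no periodization error.)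

Route (no vague limits, no subsequences, no distributions):
`pnc_ang` (exact angular identity) → `pnc_defect` (summable defect) → `pnc_bands` → `pnc_endcaps` → `pnc_KL` (the mixing mass sits on `s = |k|` at small scales)
→ `pnc_prod` (test `a(k₁) b(k₂)` in two charts: `|k| η(dk)` is asymptotically Lebesgue) → `pnc_lam` (`Λ_δ Ψ - c_δ ∫ Ψ → 0`) → `pnc_J_lim`, `pnc_J_asymp`, `pnc_IXi` (cutoff identity: `c_δ` converges) → `pnc_main`.
-/

set_option autoImplicit false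

namespace Claimed.Agent.R291

open MeasureTheory Filter Topology
open scoped ENNReal Real

/-- Euclidean norm squared on `ℝ × ℝ` -/
def pncQ (p : ℝ × ℝ) : ℝ := p.1 ^ 2 + p.2 ^ 2

/-- Euclidean norm on `ℝ × ℝ` -/
noncomputable def pncN (p : ℝ × ℝ) : ℝ := Real.sqrt (pncQ p)

/-- rotation by `π/3` -/
noncomputable def pncRot (p : ℝ × ℝ) : ℝ × ℝ := (p.1 / 2 - Real.sqrt 3 / 2 * p.2, Real.sqrt 3 / 2 * p.1 + p.2 / 2)

/-- rotation by `-π/3` -/
noncomputable def pncRotI (p : ℝ × ℝ) : ℝ × ℝ := (p.1 / 2 + Real.sqrt 3 / 2 * p.2, -(Real.sqrt 3 / 2 * p.1) + p.2 / 2)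

/-- dilation by `1/δ` -/
noncomputable def pncSc (δ : ℝ) (p : ℝ × ℝ) : ℝ × ℝ := (p.1 / δ, p.2 / δ)

/-- the Cayley normal variable `lt = (2/√3) tan(√3 l/2)` -/
noncomputable def pncLt (l : ℝ) : ℝ := 2 / Real.sqrt 3 * Real.tan (Real.sqrt 3 / 2 * l)

/-- the chart `(k, l) ↦ (k, lt)` -/
noncomputable def pncCh (p : ℝ × ℝ) : ℝ × ℝ := (p.1, pncLt p.2)

/-- the fourth angular harmonic `cos(4 arg(k + i l)) = 1 - 8 k² l²/(k²+l²)²` (value `1` at the origin) -/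
noncomputable def pncChi (p : ℝ × ℝ) : ℝ := 1 - 8 * p.1 ^ 2 * p.2 ^ 2 / (p.1 ^ 2 + p.2 ^ 2) ^ 2

/-- the dispersion defect `((|k| - s)/(|k| + s))²` -/
noncomputable def pncD (x : ℝ × ℝ) : ℝ := ((|x.1| - x.2) / (|x.1| + x.2)) ^ 2

/-- the Cauchy density of scale `s` -/
noncomputable def pncCd (s t : ℝ) : ℝ := s / (π * (s ^ 2 + t ^ 2))

/-- Cauchy average of `G (k, ·)` at scale `s` (`s = 0`: evaluation at `0`), `ℝ≥0∞` version; `x = (k, s)` -/
noncomputable def pncP (G : ℝ × ℝ → ℝ≥0∞) (x : ℝ × ℝ) : ℝ≥0∞ :=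
  if x.2 = 0 then G (x.1, 0) else ∫⁻ t, G (x.1, t) * ENNReal.ofReal (pncCd x.2 t)

/-- Cauchy average, real version -/
noncomputable def pncPr (G : ℝ × ℝ → ℝ) (x : ℝ × ℝ) : ℝ :=
  if x.2 = 0 then G (x.1, 0) else ∫ t, G (x.1, t) * pncCd x.2 t

/-- the piecewise linear cutoff: `1` on `[-1/2, 1/2]`, `0` outside `(-1, 1)` -/
noncomputable def pncq0 (x : ℝ) : ℝ := max 0 (min 1 (2 - 2 * |x|))

/-- the reference tent: support `[1, 3]`, integral `1` -/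
noncomputable def pncb0 (x : ℝ) : ℝ := max 0 (1 - |x - 2|)

/-- **the local spectral contract** (see the header) -/
structure PncIn where
  C0 : Measure (ℝ × ℝ)
  nu : Measure (ℝ × ℝ)
  E : Measure (ℝ × ℝ)
  r0 : ℝ
  K : ℝ
  r0_pos : 0 < r0
  r0_le : r0 ≤ 1 / 2
  supp : C0 {p | ¬ (0 < pncN p ∧ pncN p < r0)} = 0
  rot : C0.map pncRot = C0
  ann : ∀ r : ℝ, 0 < r → C0 {p | r ≤ pncN p ∧ pncN p ≤ 2 * r} ≤ ENNReal.ofReal K
  Efin : IsFiniteMeasure E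
  E0 : E {x | x.1 = 0} = 0
  nu0 : nu {x | x.1 = 0 ∨ x.2 < 0} = 0
  mix : ∀ G : ℝ × ℝ → ℝ≥0∞, Measurable G →
    ∫⁻ x, pncP G x ∂nu = ∫⁻ p in {p : ℝ × ℝ | p.1 ≠ 0}, G (pncCh p) ∂C0 + ∫⁻ x, G x ∂E

/-- `Λ_δ Ψ = ∫ Ψ(p/δ) |p/δ|² C0(dp)` -/
noncomputable def pncLam (I : PncIn) (δ : ℝ) (Ψ : ℝ × ℝ → ℝ) : ℝ := ∫ p, Ψ (pncSc δ p) * pncQ (pncSc δ p) ∂I.C0

/-- `N_δ a = ∫ a(k/δ) |k|/δ nu(dk, ds)` -/
noncomputable def pncNn (I : PncIn) (δ : ℝ) (a : ℝ → ℝ) : ℝ := ∫ x, a (x.1 / δ) * (|x.1| / δ) ∂I.nu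

/-- the running coefficient `c_δ = N_δ(b0)/π` -/
noncomputable def pncc (I : PncIn) (δ : ℝ) : ℝ := pncNn I δ pncb0 / π

/-- the cutoff functional (4.22), with `Q = 1` on the disc -/
noncomputable def pncJ (I : PncIn) (h : ℝ) : ℝ := ∫ p, pncChi p * (pncq0 (pncN p / h) - pncq0 (p.1 / h)) ∂I.C0

/-- the scale free integrand of `J` divided by `|ζ|²` -/
noncomputable def pncXi (z : ℝ × ℝ) : ℝ := pncChi z * (pncq0 (pncN z) - pncq0 z.1) / pncQ z


theorem pnc_eqns_cite : True := by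
  have := @pncQ.eq_1
  have := @pncN.eq_1
  have := @pncRot.eq_1
  have := @pncRotI.eq_1
  have := @pncSc.eq_1
  have := @pncLt.eq_1
  have := @pncCh.eq_1
  have := @pncChi.eq_1
  have := @pncD.eq_1
  have := @pncCd.eq_1
  have := @pncP.eq_1
  have := @pncPr.eq_1
  have := @pncq0.eq_1
  have := @pncb0.eq_1
  have := @pncLam.eq_1
  have := @pncNn.eq_1
  have := @pncc.eq_1
  have := @pncJ.eq_1
  have := @pncXi.eq_1
  trivial

/-! ### A. elementary geometry -/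

theorem pnc_Q_nonneg (p : ℝ × ℝ) : 0 ≤ pncQ p := by unfold pncQ; positivity

theorem pnc_N_nonneg (p : ℝ × ℝ) : 0 ≤ pncN p := Real.sqrt_nonneg _

theorem pnc_N_sq (p : ℝ × ℝ) : pncN p ^ 2 = pncQ p := Real.sq_sqrt (pnc_Q_nonneg p)

theorem pnc_abs_fst_le (p : ℝ × ℝ) : |p.1| ≤ pncN p := by
  unfold pncN pncQ
  exact Real.abs_le_sqrt (by nlinarith [sq_nonneg p.2])

theorem pnc_abs_snd_le (p : ℝ × ℝ) : |p.2| ≤ pncN p := by
  unfold pncN pncQ
  exact Real.abs_le_sqrt (by nlinarith [sq_nonneg p.1])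

theorem pnc_Q_rot (p : ℝ × ℝ) : pncQ (pncRot p) = pncQ p := by
  have h3 : Real.sqrt 3 ^ 2 = 3 := Real.sq_sqrt (by norm_num)
  unfold pncQ pncRot
  simp only
  nlinarith [h3]

theorem pnc_N_rot (p : ℝ × ℝ) : pncN (pncRot p) = pncN p := by unfold pncN; rw [pnc_Q_rot]

theorem pnc_rot_rotI (p : ℝ × ℝ) : pncRot (pncRotI p) = p := by
  have h3 : Real.sqrt 3 * Real.sqrt 3 = 3 := Real.mul_self_sqrt (by norm_num)
  unfold pncRot pncRotI
  ext
  · simp only; linear_combination (p.1 / 4) * h3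
  · simp only; linear_combination (p.2 / 4) * h3

theorem pnc_rotI_rot (p : ℝ × ℝ) : pncRotI (pncRot p) = p := by
  have h3 : Real.sqrt 3 * Real.sqrt 3 = 3 := Real.mul_self_sqrt (by norm_num)
  unfold pncRot pncRotI
  ext
  · simp only; linear_combination (p.1 / 4) * h3
  · simp only; linear_combination (p.2 / 4) * h3

theorem pnc_rot_continuous : Continuous pncRot := by unfold pncRot; fun_prop

theorem pnc_rotI_continuous : Continuous pncRotI := by unfold pncRotI; fun_prop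

theorem pnc_Q_continuous : Continuous pncQ := by unfold pncQ; fun_prop

theorem pnc_N_continuous : Continuous pncN := by unfold pncN; exact pnc_Q_continuous.sqrt

theorem pnc_Q_sc (δ : ℝ) (p : ℝ × ℝ) : pncQ (pncSc δ p) = pncQ p / δ ^ 2 := by
  unfold pncQ pncSc
  simp only [div_pow]
  ring

theorem pnc_N_sc {δ : ℝ} (hδ : 0 < δ) (p : ℝ × ℝ) : pncN (pncSc δ p) = pncN p / δ := by
  unfold pncN
  rw [pnc_Q_sc, Real.sqrt_div (pnc_Q_nonneg p), Real.sqrt_sq hδ.le]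

/-- `χ` is bounded by one -/
theorem pnc_chi_abs_le (p : ℝ × ℝ) : |pncChi p| ≤ 1 := by
  unfold pncChi
  by_cases h : p.1 ^ 2 + p.2 ^ 2 = 0
  · simp [h]
  have hp : 0 < (p.1 ^ 2 + p.2 ^ 2) ^ 2 := by positivity
  rw [abs_le]
  constructor
  · rw [neg_le_sub_iff_le_add, div_le_iff₀ hp]
    nlinarith [sq_nonneg (p.1 ^ 2 - p.2 ^ 2)]
  · have : 0 ≤ 8 * p.1 ^ 2 * p.2 ^ 2 / (p.1 ^ 2 + p.2 ^ 2) ^ 2 := by positivity
    linarith

/-- `χ` is homogeneous of degree zero -/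
theorem pnc_chi_sc {δ : ℝ} (hδ : δ ≠ 0) (p : ℝ × ℝ) : pncChi (pncSc δ p) = pncChi p := by
  unfold pncChi pncSc
  simp only
  by_cases h : p.1 ^ 2 + p.2 ^ 2 = 0
  · have h1 : (p.1 / δ) ^ 2 + (p.2 / δ) ^ 2 = 0 := by
      rw [div_pow, div_pow, ← add_div, h, zero_div]
    rw [h, h1]
    simp
  · have h1 : (p.1 / δ) ^ 2 + (p.2 / δ) ^ 2 = (p.1 ^ 2 + p.2 ^ 2) / δ ^ 2 := by
      rw [div_pow, div_pow, ← add_div]
    rw [h1]
    field_simp

/-- **the three mirror identity** `cos 4θ + cos 4(θ+π/3) + cos 4(θ+2π/3) = 0`.      TEX[04-plane l.437] -/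
theorem pnc_rot_md (p : ℝ × ℝ) :
    (pncRot p).1 * (pncRot p).2 = Real.sqrt 3 / 4 * (p.1 ^ 2 - p.2 ^ 2) - p.1 * p.2 / 2 ∧
      (pncRot p).1 ^ 2 - (pncRot p).2 ^ 2 = -(p.1 ^ 2 - p.2 ^ 2) / 2 - Real.sqrt 3 * (p.1 * p.2) := by
  have h3 : Real.sqrt 3 * Real.sqrt 3 = 3 := Real.mul_self_sqrt (by norm_num)
  unfold pncRot
  constructor
  · simp only; linear_combination (-(p.1 * p.2) / 4) * h3
  · simp only; linear_combination ((p.2 ^ 2 - p.1 ^ 2) / 4) * h3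

theorem pnc_chi_three (p : ℝ × ℝ) (hp : p ≠ 0) : pncChi p + pncChi (pncRot p) + pncChi (pncRot (pncRot p)) = 0 := by
  have h3 : Real.sqrt 3 * Real.sqrt 3 = 3 := Real.mul_self_sqrt (by norm_num)
  have hQ : p.1 ^ 2 + p.2 ^ 2 ≠ 0 := by
    intro h
    apply hp
    have h1 : p.1 = 0 := by nlinarith [sq_nonneg p.1, sq_nonneg p.2]
    have h2 : p.2 = 0 := by nlinarith [sq_nonneg p.1, sq_nonneg p.2]
    exact Prod.ext h1 h2
  have q1 : (pncRot p).1 ^ 2 + (pncRot p).2 ^ 2 = p.1 ^ 2 + p.2 ^ 2 := pnc_Q_rot p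
  have q2 : (pncRot (pncRot p)).1 ^ 2 + (pncRot (pncRot p)).2 ^ 2 = p.1 ^ 2 + p.2 ^ 2 := (pnc_Q_rot _).trans (pnc_Q_rot p)
  obtain ⟨m1, d1⟩ := pnc_rot_md p
  obtain ⟨m2, _⟩ := pnc_rot_md (pncRot p)
  rw [m1, d1] at m2
  have m2' : (pncRot (pncRot p)).1 * (pncRot (pncRot p)).2 = -(Real.sqrt 3 / 4 * (p.1 ^ 2 - p.2 ^ 2)) - p.1 * p.2 / 2 := by
    rw [m2]; linear_combination (-(p.1 * p.2) / 4) * h3
  have key : (p.1 * p.2) ^ 2 + (Real.sqrt 3 / 4 * (p.1 ^ 2 - p.2 ^ 2) - p.1 * p.2 / 2) ^ 2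
      + (-(Real.sqrt 3 / 4 * (p.1 ^ 2 - p.2 ^ 2)) - p.1 * p.2 / 2) ^ 2 = 3 / 8 * (p.1 ^ 2 + p.2 ^ 2) ^ 2 := by
    linear_combination ((p.1 ^ 2 - p.2 ^ 2) ^ 2 / 8) * h3
  have e : ∀ q : ℝ × ℝ, pncChi q = 1 - 8 * (q.1 * q.2) ^ 2 / (q.1 ^ 2 + q.2 ^ 2) ^ 2 := by
    intro q; unfold pncChi; rw [mul_pow]; ring
  rw [e p, e (pncRot p), e (pncRot (pncRot p)), q1, q2, m1, m2']
  have e2 : ∀ a b c Q : ℝ, 1 - 8 * a / Q + (1 - 8 * b / Q) + (1 - 8 * c / Q) = 3 - 8 * (a + b + c) / Q := by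
    intro a b c Q; ring
  rw [e2, key]
  field_simp
  ring

theorem pnc_chi_measurable : Measurable pncChi := by
  unfold pncChi
  fun_prop

/-- `χ` is continuous off the origin -/
theorem pnc_chi_continuousOn : ContinuousOn pncChi {0}ᶜ := by
  unfold pncChi
  refine continuousOn_const.sub (ContinuousOn.div (by fun_prop) (by fun_prop) fun p hp => ?_)
  have hQ : p.1 ^ 2 + p.2 ^ 2 ≠ 0 := by
    intro h
    apply hp
    have h1 : p.1 = 0 := by nlinarith [sq_nonneg p.1, sq_nonneg p.2]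
    have h2 : p.2 = 0 := by nlinarith [sq_nonneg p.1, sq_nonneg p.2]
    exact Prod.ext h1 h2
  exact pow_ne_zero 2 hQ

/-- `χ < 0` forces `|l| < (1+√2)|k|`, hence `|p| ≤ 3 |k|`.      TEX[04-plane l.439] -/
theorem pnc_chi_neg {p : ℝ × ℝ} (h : pncChi p < 0) : pncN p ≤ 3 * |p.1| := by
  unfold pncChi at h
  have hQ : p.1 ^ 2 + p.2 ^ 2 ≠ 0 := by
    intro h0
    rw [h0] at h
    simp at h
    linarith
  have hp : 0 < (p.1 ^ 2 + p.2 ^ 2) ^ 2 := by positivity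
  have h1 : (p.1 ^ 2 + p.2 ^ 2) ^ 2 < 8 * p.1 ^ 2 * p.2 ^ 2 := by
    have : 1 < 8 * p.1 ^ 2 * p.2 ^ 2 / (p.1 ^ 2 + p.2 ^ 2) ^ 2 := by linarith
    rwa [lt_div_iff₀ hp, one_mul] at this
  have h2 : p.2 ^ 2 ≤ 8 * p.1 ^ 2 := by
    by_contra hc
    rw [not_le] at hc
    nlinarith [sq_nonneg p.1, sq_nonneg p.2, mul_nonneg (sq_nonneg p.1) (sq_nonneg p.2), sq_nonneg (p.1 ^ 2)]
  unfold pncN pncQ
  rw [show 3 * |p.1| = Real.sqrt ((3 * |p.1|) ^ 2) from (Real.sqrt_sq (by positivity)).symm]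
  refine Real.sqrt_le_sqrt ?_
  rw [mul_pow, sq_abs]
  linarith

/-- the Cayley variable: `|l| ≤ |lt| ≤ |l| + (3/4)|l|³ ` on `|l| ≤ 1/2`, same sign, strictly monotone -/
theorem pnc_tan_aux {x : ℝ} (h0 : 0 ≤ x) (h1 : x ≤ 1 / 2) : x ≤ Real.tan x ∧ Real.tan x - x ≤ x ^ 3 := by
  have hpi : (1 : ℝ) / 2 < π / 2 := by linarith [Real.pi_gt_three]
  have hc1 : 1 - x ^ 2 / 2 ≤ Real.cos x := Real.one_sub_sq_div_two_le_cos
  have hx2 : x ^ 2 ≤ 1 / 4 := by nlinarith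
  have hc : 0 < Real.cos x := by linarith
  refine ⟨Real.le_tan h0 (by linarith), ?_⟩
  have hs : Real.sin x ≤ x := Real.sin_le h0
  rw [Real.tan_eq_sin_div_cos, sub_le_iff_le_add, div_le_iff₀ hc]
  have h3 : 0 ≤ x ^ 3 + x := by positivity
  have h4 : (x ^ 3 + x) * (1 - x ^ 2 / 2) ≤ (x ^ 3 + x) * Real.cos x := mul_le_mul_of_nonneg_left hc1 h3
  have h5 : x ≤ (x ^ 3 + x) * (1 - x ^ 2 / 2) := by
    have : (x ^ 3 + x) * (1 - x ^ 2 / 2) - x = x ^ 3 * (1 / 2 - x ^ 2 / 2) := by ring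
    have h6 : 0 ≤ x ^ 3 * (1 / 2 - x ^ 2 / 2) := mul_nonneg (by positivity) (by linarith)
    linarith
  linarith

theorem pnc_sqrt3_bd : Real.sqrt 3 ≤ 2 := by
  rw [show (2 : ℝ) = Real.sqrt 4 by
    rw [show (4 : ℝ) = 2 ^ 2 by norm_num]; exact (Real.sqrt_sq (by norm_num)).symm]
  exact Real.sqrt_le_sqrt (by norm_num)

theorem pnc_lt_neg (l : ℝ) : pncLt (-l) = -pncLt l := by
  unfold pncLt
  rw [mul_neg, Real.tan_neg, mul_neg]

/-- the Cayley variable on `[0, 1/2]` -/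
theorem pnc_lt_aux {l : ℝ} (h0 : 0 ≤ l) (h1 : l ≤ 1 / 2) : l ≤ pncLt l ∧ pncLt l - l ≤ 3 / 4 * l ^ 3 := by
  have h3 : Real.sqrt 3 * Real.sqrt 3 = 3 := Real.mul_self_sqrt (by norm_num)
  have hs0 : 0 < Real.sqrt 3 := Real.sqrt_pos.2 (by norm_num)
  have hx0 : 0 ≤ Real.sqrt 3 / 2 * l := by positivity
  have hx1 : Real.sqrt 3 / 2 * l ≤ 1 / 2 := by nlinarith [pnc_sqrt3_bd]
  obtain ⟨a, b⟩ := pnc_tan_aux hx0 hx1
  have e1 : 2 / Real.sqrt 3 * (Real.sqrt 3 / 2 * l) = l := by field_simp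
  have e2 : 2 / Real.sqrt 3 * (Real.sqrt 3 / 2 * l) ^ 3 = 3 / 4 * l ^ 3 := by
    have : Real.sqrt 3 ^ 3 = 3 * Real.sqrt 3 := by rw [pow_succ, pow_two, h3]
    rw [mul_pow, div_pow, this]
    field_simp
    ring
  have hc : 0 < 2 / Real.sqrt 3 := by positivity
  unfold pncLt
  constructor
  · calc l = 2 / Real.sqrt 3 * (Real.sqrt 3 / 2 * l) := e1.symm
      _ ≤ _ := mul_le_mul_of_nonneg_left a hc.le
  · calc 2 / Real.sqrt 3 * Real.tan (Real.sqrt 3 / 2 * l) - l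
        = 2 / Real.sqrt 3 * (Real.tan (Real.sqrt 3 / 2 * l) - Real.sqrt 3 / 2 * l) := by rw [mul_sub, e1]
      _ ≤ 2 / Real.sqrt 3 * (Real.sqrt 3 / 2 * l) ^ 3 := mul_le_mul_of_nonneg_left b hc.le
      _ = _ := e2

theorem pnc_lt_ge {l : ℝ} (hl : |l| ≤ 1 / 2) : |l| ≤ |pncLt l| := by
  rcases abs_cases l with ⟨h, h0⟩ | ⟨h, h0⟩
  · rw [h] at hl ⊢
    exact (pnc_lt_aux h0 hl).1.trans (le_abs_self _)
  · rw [h] at hl ⊢
    have := (pnc_lt_aux (by linarith : 0 ≤ -l) hl).1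
    rw [pnc_lt_neg] at this
    exact this.trans (neg_le_abs _)

theorem pnc_lt_le {l : ℝ} (hl : |l| ≤ 1 / 2) : |pncLt l - l| ≤ 3 / 4 * |l| ^ 3 := by
  rcases abs_cases l with ⟨h, h0⟩ | ⟨h, h0⟩
  · rw [h] at hl ⊢
    obtain ⟨a, b⟩ := pnc_lt_aux h0 hl
    rwa [abs_of_nonneg (by linarith)]
  · rw [h] at hl ⊢
    obtain ⟨a, b⟩ := pnc_lt_aux (by linarith : 0 ≤ -l) hl
    rw [pnc_lt_neg] at a b
    rw [abs_of_nonpos (by linarith)]
    linarith

theorem pnc_lt_measurable : Measurable pncLt := by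
  unfold pncLt
  simp only [Real.tan_eq_sin_div_cos]
  fun_prop

theorem pnc_ch_measurable : Measurable pncCh := by
  unfold pncCh
  exact measurable_fst.prodMk (pnc_lt_measurable.comp measurable_snd)

/-- the price of the Cayley variable is `O(|p|²)`.      (`χ(k,u)-χ(k,v)` has the factor `(u²-v²)(k⁴-u²v²)`.) -/
theorem pnc_chi_diff_le {k u v : ℝ} (huv : |v| ≤ |u|) (hd : |u - v| ≤ 3 / 4 * |v| ^ 3) :
    |pncChi (k, u) - pncChi (k, v)| ≤ 12 * v ^ 2 := by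
  by_cases hu : u = 0
  · have hv : v = 0 := by
      rw [hu, abs_zero] at huv
      exact abs_eq_zero.1 (le_antisymm huv (abs_nonneg _))
    rw [hu, hv]; simp
  by_cases hv : v = 0
  · rw [hv] at hd
    simp at hd
    exact absurd (sub_eq_zero.1 (by simpa using hd) : u = 0) hu
  have hu2 : 0 < u ^ 2 := by positivity
  have hv2 : 0 < v ^ 2 := by positivity
  have hU : 0 < k ^ 2 + u ^ 2 := by positivity
  have hV : 0 < k ^ 2 + v ^ 2 := by positivity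
  have e : pncChi (k, u) - pncChi (k, v)
      = -(8 * k ^ 2 * ((u ^ 2 - v ^ 2) * (k ^ 4 - u ^ 2 * v ^ 2))) / ((k ^ 2 + u ^ 2) ^ 2 * (k ^ 2 + v ^ 2) ^ 2) := by
    unfold pncChi
    simp only
    field_simp
    ring
  have h1 : |k ^ 4 - u ^ 2 * v ^ 2| ≤ (k ^ 2 + u ^ 2) * (k ^ 2 + v ^ 2) := by
    rw [abs_le]
    constructor <;> nlinarith [mul_nonneg (sq_nonneg k) hu2.le, mul_nonneg (sq_nonneg k) hv2.le, mul_pos hu2 hv2,
      sq_nonneg (k ^ 2)]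
  have h2 : |u ^ 2 - v ^ 2| ≤ 3 / 2 * |v| ^ 3 * |u| := by
    have : u ^ 2 - v ^ 2 = (u - v) * (u + v) := by ring
    rw [this, abs_mul]
    have h3 : |u + v| ≤ 2 * |u| := (abs_add_le u v).trans (by linarith)
    calc |u - v| * |u + v| ≤ (3 / 4 * |v| ^ 3) * (2 * |u|) := mul_le_mul hd h3 (abs_nonneg _) (by positivity)
      _ = _ := by ring
  have h4 : |v| * |u| ≤ k ^ 2 + u ^ 2 := by
    have : |v| * |u| ≤ |u| * |u| := mul_le_mul_of_nonneg_right huv (abs_nonneg _)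
    rw [← sq, sq_abs] at this
    nlinarith [sq_nonneg k]
  rw [e, abs_div, abs_neg, abs_of_pos (by positivity : 0 < (k ^ 2 + u ^ 2) ^ 2 * (k ^ 2 + v ^ 2) ^ 2), div_le_iff₀ (by positivity),
    abs_mul (8 * k ^ 2), abs_mul (u ^ 2 - v ^ 2), abs_of_nonneg (by positivity : 0 ≤ 8 * k ^ 2)]
  have h5 : |u ^ 2 - v ^ 2| ≤ 3 / 2 * v ^ 2 * (k ^ 2 + u ^ 2) := by
    refine h2.trans ?_
    have : 3 / 2 * |v| ^ 3 * |u| = 3 / 2 * v ^ 2 * (|v| * |u|) := by rw [← sq_abs v]; ring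
    rw [this]
    exact mul_le_mul_of_nonneg_left h4 (by positivity)
  calc 8 * k ^ 2 * (|u ^ 2 - v ^ 2| * |k ^ 4 - u ^ 2 * v ^ 2|)
      ≤ 8 * (k ^ 2 + v ^ 2) * ((3 / 2 * v ^ 2 * (k ^ 2 + u ^ 2)) * ((k ^ 2 + u ^ 2) * (k ^ 2 + v ^ 2))) := by
        refine mul_le_mul (by nlinarith) (mul_le_mul h5 h1 (abs_nonneg _) (by positivity)) (by positivity) (by positivity)
    _ = 12 * v ^ 2 * ((k ^ 2 + u ^ 2) ^ 2 * (k ^ 2 + v ^ 2) ^ 2) := by ring

theorem pnc_chi_dist {p : ℝ × ℝ} (hp : pncN p ≤ 1 / 2) : |pncChi (pncCh p) - pncChi p| ≤ 12 * pncQ p := by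
  have hl : |p.2| ≤ 1 / 2 := (pnc_abs_snd_le p).trans hp
  have := pnc_chi_diff_le (k := p.1) (pnc_lt_ge hl) (pnc_lt_le hl)
  unfold pncCh
  refine this.trans ?_
  unfold pncQ
  nlinarith [sq_nonneg p.1]

/-! ### B. the Cauchy kernel -/

theorem pnc_cd_nonneg {s : ℝ} (hs : 0 ≤ s) (t : ℝ) : 0 ≤ pncCd s t := by
  unfold pncCd
  positivity

theorem pnc_cd_measurable : Measurable fun x : ℝ × ℝ => pncCd x.1 x.2 := by
  unfold pncCd
  fun_prop

theorem pnc_cd_eq {s : ℝ} (hs : 0 < s) (t : ℝ) : pncCd s t = (π * s)⁻¹ * (1 + (s⁻¹ * t) ^ 2)⁻¹ := by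
  unfold pncCd
  have h1 : s ^ 2 + t ^ 2 ≠ 0 := by positivity
  have hpi := Real.pi_pos
  have h2 : 1 + (s⁻¹ * t) ^ 2 = (s ^ 2 + t ^ 2) / s ^ 2 := by field_simp
  rw [h2]
  field_simp

theorem pnc_cd_integrable {s : ℝ} (hs : 0 < s) : Integrable (pncCd s) := by
  have h := (integrable_inv_one_add_sq.comp_mul_left' (inv_ne_zero hs.ne')).const_mul (π * s)⁻¹
  exact h.congr (Eventually.of_forall fun t => (pnc_cd_eq hs t).symm)

/-- total mass one -/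
theorem pnc_cd_integral {s : ℝ} (hs : 0 < s) : ∫ t, pncCd s t = 1 := by
  simp only [pnc_cd_eq hs]
  rw [integral_const_mul, Measure.integral_comp_mul_left (fun u : ℝ => (1 + u ^ 2)⁻¹) s⁻¹, integral_univ_inv_one_add_sq, inv_inv,
    abs_of_pos hs, smul_eq_mul]
  have hpi := Real.pi_pos
  field_simp

theorem pnc_cd_lintegral {s : ℝ} (hs : 0 < s) : ∫⁻ t, ENNReal.ofReal (pncCd s t) = 1 := by
  rw [← ofReal_integral_eq_lintegral_ofReal (pnc_cd_integrable hs) (Eventually.of_forall (pnc_cd_nonneg hs.le)), pnc_cd_integral hs,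
    ENNReal.ofReal_one]

/-- exact scaling -/
theorem pnc_cd_sc {δ : ℝ} (hδ : 0 < δ) (s t : ℝ) : pncCd (s / δ) (t / δ) = δ * pncCd s t := by
  unfold pncCd
  have hpi := Real.pi_pos
  by_cases h : s ^ 2 + t ^ 2 = 0
  · have h1 : (s / δ) ^ 2 + (t / δ) ^ 2 = 0 := by rw [div_pow, div_pow, ← add_div, h, zero_div]
    rw [h, h1]; simp
  · have h1 : (s / δ) ^ 2 + (t / δ) ^ 2 = (s ^ 2 + t ^ 2) / δ ^ 2 := by rw [div_pow, div_pow, ← add_div]
    rw [h1]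
    field_simp

/-- `sup_s` of the density away from the centre.      TEX[04-plane l.489] -/
theorem pnc_cd_le {s t : ℝ} (_hs : 0 ≤ s) (ht : t ≠ 0) : pncCd s t ≤ 1 / (2 * π * |t|) := by
  unfold pncCd
  have hpi := Real.pi_pos
  have ht' : 0 < |t| := abs_pos.2 ht
  have h1 : 0 < s ^ 2 + t ^ 2 := by positivity
  rw [div_le_div_iff₀ (by positivity) (by positivity)]
  have h2 : 2 * s * |t| ≤ s ^ 2 + t ^ 2 := by
    rw [← sq_abs t]
    nlinarith [sq_nonneg (s - |t|)]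
  calc s * (2 * π * |t|) = π * (2 * s * |t|) := by ring
    _ ≤ π * (s ^ 2 + t ^ 2) := mul_le_mul_of_nonneg_left h2 hpi.le
    _ = _ := by ring

/-- comparison of two scales: `|σ - a| ≤ ε a`, `ε ≤ 1/2` gives a relative error `≤ 8 ε`.      TEX[04-plane l.540] -/
theorem pnc_cd_close {a σ ε t : ℝ} (ha : 0 < a) (hε : 0 ≤ ε) (hε' : ε ≤ 1 / 2) (h : |σ - a| ≤ ε * a) :
    |pncCd σ t - pncCd a t| ≤ 8 * ε * pncCd a t := by
  have hpi := Real.pi_pos
  obtain ⟨h1, h2⟩ := abs_le.1 h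
  have hσ1 : a / 2 ≤ σ := by nlinarith
  have hσ2 : σ ≤ 3 / 2 * a := by nlinarith
  have hσ0 : 0 < σ := by linarith
  have hA : 0 < a ^ 2 + t ^ 2 := by positivity
  have hS : 0 < σ ^ 2 + t ^ 2 := by positivity
  have e : pncCd σ t - pncCd a t = (σ - a) * (t ^ 2 - a * σ) / (π * ((σ ^ 2 + t ^ 2) * (a ^ 2 + t ^ 2))) := by
    unfold pncCd
    field_simp
    ring
  have e2 : 8 * ε * pncCd a t = 8 * ε * a * (σ ^ 2 + t ^ 2) / (π * ((σ ^ 2 + t ^ 2) * (a ^ 2 + t ^ 2))) := by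
    unfold pncCd
    field_simp
  rw [e, e2, abs_div, abs_of_pos (by positivity : 0 < π * ((σ ^ 2 + t ^ 2) * (a ^ 2 + t ^ 2)))]
  refine div_le_div_of_nonneg_right ?_ (by positivity)
  rw [abs_mul]
  have h3 : |t ^ 2 - a * σ| ≤ 8 * (σ ^ 2 + t ^ 2) := by
    rw [abs_le]
    constructor <;> nlinarith [sq_nonneg t, mul_pos ha hσ0]
  calc |σ - a| * |t ^ 2 - a * σ| ≤ (ε * a) * (8 * (σ ^ 2 + t ^ 2)) := mul_le_mul h h3 (abs_nonneg _) (by positivity)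
    _ = _ := by ring

/-- measurability of the Cauchy average -/
theorem pnc_P_measurable {G : ℝ × ℝ → ℝ≥0∞} (hG : Measurable G) : Measurable (pncP G) := by
  unfold pncP
  refine Measurable.ite (measurableSet_eq_fun measurable_snd measurable_const) (hG.comp (measurable_fst.prodMk measurable_const)) ?_
  have h1 : Measurable fun y : (ℝ × ℝ) × ℝ => G (y.1.1, y.2) * ENNReal.ofReal (pncCd y.1.2 y.2) := by
    refine (hG.comp ((measurable_fst.comp measurable_fst).prodMk measurable_snd)).mul ?_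
    exact (pnc_cd_measurable.comp ((measurable_snd.comp measurable_fst).prodMk measurable_snd)).ennreal_ofReal
  exact h1.lintegral_prod_right'

/-- the Cauchy average of a bounded function is bounded -/
theorem pnc_Pr_abs_le {G : ℝ × ℝ → ℝ} {M : ℝ} (hG : ∀ x, |G x| ≤ M) {x : ℝ × ℝ} (hx : 0 ≤ x.2) : |pncPr G x| ≤ M := by
  unfold pncPr
  split_ifs with h
  · exact hG _
  · have hs : 0 < x.2 := lt_of_le_of_ne hx (Ne.symm h)
    have h1 := norm_integral_le_of_norm_le (f := fun t => G (x.1, t) * pncCd x.2 t) ((pnc_cd_integrable hs).const_mul M)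
      (Eventually.of_forall fun t => by
        rw [Real.norm_eq_abs, abs_mul, abs_of_nonneg (pnc_cd_nonneg hs.le t)]
        exact mul_le_mul_of_nonneg_right (hG _) (pnc_cd_nonneg hs.le t))
    rwa [integral_const_mul, pnc_cd_integral hs, mul_one, Real.norm_eq_abs] at h1

/-- `pncP` of `ofReal ∘ G` for `0 ≤ G` bounded measurable -/
theorem pnc_P_ofReal {G : ℝ × ℝ → ℝ} (hm : Measurable G) {M : ℝ} (h0 : ∀ x, 0 ≤ G x) (hG : ∀ x, G x ≤ M) {x : ℝ × ℝ} (hx : 0 ≤ x.2) :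
    pncP (fun y => ENNReal.ofReal (G y)) x = ENNReal.ofReal (pncPr G x) := by
  unfold pncP pncPr
  split_ifs with h
  · rfl
  · have hs : 0 < x.2 := lt_of_le_of_ne hx (Ne.symm h)
    have hi : Integrable (fun t => G (x.1, t) * pncCd x.2 t) := by
      refine ((pnc_cd_integrable hs).const_mul M).mono'
        ((hm.comp (measurable_const.prodMk measurable_id)).aestronglyMeasurable.mul (pnc_cd_integrable hs).aestronglyMeasurable)
        (Eventually.of_forall fun t => ?_)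
      rw [Real.norm_eq_abs, abs_of_nonneg (mul_nonneg (h0 _) (pnc_cd_nonneg hs.le t))]
      exact mul_le_mul_of_nonneg_right (hG _) (pnc_cd_nonneg hs.le t)
    rw [ofReal_integral_eq_lintegral_ofReal hi (Eventually.of_forall fun t => mul_nonneg (h0 _) (pnc_cd_nonneg hs.le t))]
    refine lintegral_congr fun t => ?_
    rw [ENNReal.ofReal_mul (h0 _)]

/-- **the exact angular identity** (line Poisson formula (4.16)): the Cauchy average of `cos(4 arg(k + i t))` at scale `s` is the defect.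
Proofs: partial fractions (`s ≠ |k|`) + continuity in `s`; or `f_a = 4π(a c_a + a² ∂_a c_a)` and `∫ c_a c_s = 1/(π(a+s))`.      TEX[04-plane l.385-395] -/
theorem pnc_tendsto_aux {a s : ℝ} (hs : 0 < s) (l : Filter ℝ) (hl : Tendsto (fun t : ℝ => |t|) l atTop) :
    Tendsto (fun t : ℝ => t / (a ^ 2 + s ^ 2 * t ^ 2)) l (𝓝 0) := by
  have h1 : Tendsto (fun t : ℝ => (s ^ 2)⁻¹ * |t|⁻¹) l (𝓝 ((s ^ 2)⁻¹ * 0)) :=
    (tendsto_inv_atTop_zero.comp hl).const_mul _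
  rw [mul_zero] at h1
  refine squeeze_zero_norm' ?_ h1
  filter_upwards [hl.eventually_gt_atTop 0] with t ht
  have hs2 : 0 < s ^ 2 := by positivity
  have ht2 : 0 < s ^ 2 * t ^ 2 := by
    have : 0 < t ^ 2 := by rw [← sq_abs]; positivity
    positivity
  rw [Real.norm_eq_abs, abs_div, abs_of_pos (by positivity : 0 < a ^ 2 + s ^ 2 * t ^ 2)]
  rw [div_le_iff₀ (by positivity)]
  have e : (s ^ 2)⁻¹ * |t|⁻¹ * (a ^ 2 + s ^ 2 * t ^ 2) = (s ^ 2)⁻¹ * |t|⁻¹ * a ^ 2 + |t| := by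
    rw [← sq_abs t]
    field_simp
  rw [e]
  have : 0 ≤ (s ^ 2)⁻¹ * |t|⁻¹ * a ^ 2 := by positivity
  linarith

theorem pnc_f_le_two (a x : ℝ) : 8 * a ^ 2 * x ^ 2 / (a ^ 2 + x ^ 2) ^ 2 ≤ 2 := by
  by_cases h : a ^ 2 + x ^ 2 = 0
  · simp [h]
  have hp : 0 < (a ^ 2 + x ^ 2) ^ 2 := by positivity
  rw [div_le_iff₀ hp]
  nlinarith [sq_nonneg (a ^ 2 - x ^ 2)]

theorem pnc_f_integrable {a : ℝ} (ha : 0 < a) (s : ℝ) :
    Integrable (fun t : ℝ => 8 * a ^ 2 * (s * t) ^ 2 / (a ^ 2 + (s * t) ^ 2) ^ 2 * (1 + t ^ 2)⁻¹) := by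
  have hc : Continuous (fun t : ℝ => 8 * a ^ 2 * (s * t) ^ 2 / (a ^ 2 + (s * t) ^ 2) ^ 2 * (1 + t ^ 2)⁻¹) := by
    refine Continuous.mul (Continuous.div (by fun_prop) (by fun_prop) fun t => by positivity)
      (Continuous.inv₀ (by fun_prop) fun t => by positivity)
  refine (integrable_inv_one_add_sq.const_mul 2).mono' hc.aestronglyMeasurable (Eventually.of_forall fun t => ?_)
  have h1 : 0 ≤ 8 * a ^ 2 * (s * t) ^ 2 / (a ^ 2 + (s * t) ^ 2) ^ 2 := by positivity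
  have h2 : 0 < (1 + t ^ 2)⁻¹ := by positivity
  rw [Real.norm_eq_abs, abs_of_nonneg (mul_nonneg h1 h2.le)]
  exact mul_le_mul_of_nonneg_right (pnc_f_le_two a _) h2.le

theorem pnc_arctan_lin_top {c : ℝ} (hc : 0 < c) : Tendsto (fun t : ℝ => Real.arctan (c * t)) atTop (𝓝 (π / 2)) :=
  (Real.tendsto_arctan_atTop.mono_right nhdsWithin_le_nhds).comp (tendsto_id.const_mul_atTop hc)

theorem pnc_arctan_lin_bot {c : ℝ} (hc : 0 < c) : Tendsto (fun t : ℝ => Real.arctan (c * t)) atBot (𝓝 (-(π / 2))) :=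
  (Real.tendsto_arctan_atBot.mono_right nhdsWithin_le_nhds).comp (tendsto_id.const_mul_atBot hc)

theorem pnc_cauchy_f_ne {a s : ℝ} (ha : 0 < a) (hs : 0 < s) (hne : a ≠ s) :
    ∫ t : ℝ, 8 * a ^ 2 * (s * t) ^ 2 / (a ^ 2 + (s * t) ^ 2) ^ 2 * (1 + t ^ 2)⁻¹ = π * (4 * a * s / (a + s) ^ 2) := by
  have hd : a ^ 2 - s ^ 2 ≠ 0 := by
    have : a ^ 2 - s ^ 2 = (a - s) * (a + s) := by ring
    rw [this]
    exact mul_ne_zero (sub_ne_zero.2 hne) (by positivity)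
  set A : ℝ := -(8 * a ^ 2 * s ^ 2) / (a ^ 2 - s ^ 2) ^ 2 with hA
  set B : ℝ := 8 * a * s ^ 3 / (a ^ 2 - s ^ 2) ^ 2 + 4 * a * s / (a ^ 2 - s ^ 2) with hB
  set C : ℝ := 4 * a ^ 2 * s ^ 2 / (a ^ 2 - s ^ 2) with hC
  have hder : ∀ t : ℝ, HasDerivAt
      (fun t => A * Real.arctan t + B * Real.arctan (s / a * t) + C * (t / (a ^ 2 + s ^ 2 * t ^ 2)))
      (8 * a ^ 2 * (s * t) ^ 2 / (a ^ 2 + (s * t) ^ 2) ^ 2 * (1 + t ^ 2)⁻¹) t := by
    intro t
    have h1 := (Real.hasDerivAt_arctan t).const_mul A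
    have h0 : HasDerivAt (fun t : ℝ => s / a * t) (s / a) t := by simpa using (hasDerivAt_id t).const_mul (s / a)
    have h2 := (h0.arctan).const_mul B
    have h3 : HasDerivAt (fun t : ℝ => a ^ 2 + s ^ 2 * t ^ 2) (s ^ 2 * (2 * t)) t := by
      have := ((hasDerivAt_pow 2 t).const_mul (s ^ 2)).const_add (a ^ 2)
      simpa using this
    have h4 := (((hasDerivAt_id t).div h3 (by positivity : a ^ 2 + s ^ 2 * t ^ 2 ≠ 0))).const_mul C
    refine ((h1.add h2).add h4).congr_deriv ?_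
    have e1 : (1 + t ^ 2 : ℝ) ≠ 0 := by positivity
    have e2 : (a ^ 2 + s ^ 2 * t ^ 2 : ℝ) ≠ 0 := by positivity
    have e3 : (1 + (s / a * t) ^ 2 : ℝ) = (a ^ 2 + s ^ 2 * t ^ 2) / a ^ 2 := by field_simp
    have e4 : (a ^ 2 + (s * t) ^ 2 : ℝ) = a ^ 2 + s ^ 2 * t ^ 2 := by ring
    rw [e3, e4, hA, hB, hC]
    simp only [id]
    field_simp
    ring
  have hsa : 0 < s / a := by positivity
  have htop : Tendsto (fun t => A * Real.arctan t + B * Real.arctan (s / a * t) + C * (t / (a ^ 2 + s ^ 2 * t ^ 2))) atTop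
      (𝓝 (A * (π / 2) + B * (π / 2) + C * 0)) :=
    (((Real.tendsto_arctan_atTop.mono_right nhdsWithin_le_nhds).const_mul A).add ((pnc_arctan_lin_top hsa).const_mul B)).add
      ((pnc_tendsto_aux hs atTop tendsto_abs_atTop_atTop).const_mul C)
  have hbot : Tendsto (fun t => A * Real.arctan t + B * Real.arctan (s / a * t) + C * (t / (a ^ 2 + s ^ 2 * t ^ 2))) atBot
      (𝓝 (A * (-(π / 2)) + B * (-(π / 2)) + C * 0)) :=
    (((Real.tendsto_arctan_atBot.mono_right nhdsWithin_le_nhds).const_mul A).add ((pnc_arctan_lin_bot hsa).const_mul B)).add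
      ((pnc_tendsto_aux hs atBot tendsto_abs_atBot_atTop).const_mul C)
  rw [integral_of_hasDerivAt_of_tendsto hder (pnc_f_integrable ha s) hbot htop]
  have e5 : A + B = 4 * a * s / (a + s) ^ 2 := by
    have h6 : a ^ 2 - s ^ 2 = (a - s) * (a + s) := by ring
    have h7 : a - s ≠ 0 := sub_ne_zero.2 hne
    have h8 : a + s ≠ 0 := by positivity
    rw [hA, hB, h6]
    field_simp
    ring
  rw [← e5]
  ring

theorem pnc_cauchy_f_eq {a : ℝ} (ha : 0 < a) :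
    ∫ t : ℝ, 8 * a ^ 2 * (a * t) ^ 2 / (a ^ 2 + (a * t) ^ 2) ^ 2 * (1 + t ^ 2)⁻¹ = π * (4 * a * a / (a + a) ^ 2) := by
  have hder : ∀ t : ℝ, HasDerivAt (fun t => Real.arctan t + (t / (1 ^ 2 + 1 ^ 2 * t ^ 2)
        - 2 * (t / (1 ^ 2 + 1 ^ 2 * t ^ 2) * (1 + t ^ 2)⁻¹)))
      (8 * a ^ 2 * (a * t) ^ 2 / (a ^ 2 + (a * t) ^ 2) ^ 2 * (1 + t ^ 2)⁻¹) t := by
    intro t
    have e1 : (1 + t ^ 2 : ℝ) ≠ 0 := by positivity
    have h1 := Real.hasDerivAt_arctan t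
    have h3 : HasDerivAt (fun t : ℝ => 1 + t ^ 2) (2 * t) t := by
      have := (hasDerivAt_pow 2 t).const_add (1 : ℝ)
      simpa using this
    have h0 : HasDerivAt (fun t : ℝ => t) 1 t := hasDerivAt_id t
    have h4 : HasDerivAt (fun t : ℝ => t / (1 ^ 2 + 1 ^ 2 * t ^ 2)) ((1 * (1 + t ^ 2) - t * (2 * t)) / (1 + t ^ 2) ^ 2) t := by
      have h := h0.div h3 e1
      have e : (fun t : ℝ => t / (1 ^ 2 + 1 ^ 2 * t ^ 2)) = (fun t : ℝ => t) / fun t : ℝ => 1 + t ^ 2 := by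
        funext t; simp
      rw [e]; exact h
    have h5 : HasDerivAt (fun t : ℝ => (1 + t ^ 2)⁻¹) (-(2 * t) / (1 + t ^ 2) ^ 2) t := h3.inv e1
    refine (h1.add (h4.sub ((h4.mul h5).const_mul 2))).congr_deriv ?_
    have e4 : (a ^ 2 + (a * t) ^ 2 : ℝ) = a ^ 2 * (1 + t ^ 2) := by ring
    rw [e4]
    simp only [one_pow, one_mul]
    field_simp
    ring
  have hz : ∀ l : Filter ℝ, Tendsto (fun t : ℝ => |t|) l atTop →
      Tendsto (fun t : ℝ => t / (1 ^ 2 + 1 ^ 2 * t ^ 2) - 2 * (t / (1 ^ 2 + 1 ^ 2 * t ^ 2) * (1 + t ^ 2)⁻¹)) l (𝓝 (0 - 2 * 0)) := by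
    intro l hl
    have hu := pnc_tendsto_aux (a := 1) one_pos l hl
    refine hu.sub (Tendsto.const_mul 2 ?_)
    refine squeeze_zero_norm (fun t => ?_) (tendsto_norm_zero.comp hu)
    rw [norm_mul]
    refine mul_le_of_le_one_right (norm_nonneg _) ?_
    rw [Real.norm_eq_abs, abs_of_pos (by positivity)]
    exact inv_le_one_of_one_le₀ (by nlinarith [sq_nonneg t])
  have htop := (Real.tendsto_arctan_atTop.mono_right nhdsWithin_le_nhds).add (hz atTop tendsto_abs_atTop_atTop)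
  have hbot := (Real.tendsto_arctan_atBot.mono_right nhdsWithin_le_nhds).add (hz atBot tendsto_abs_atBot_atTop)
  rw [integral_of_hasDerivAt_of_tendsto hder (pnc_f_integrable ha a) hbot htop]
  field_simp
  ring

theorem pnc_cauchy_f {a s : ℝ} (ha : 0 < a) (hs : 0 ≤ s) :
    ∫ t : ℝ, 8 * a ^ 2 * (s * t) ^ 2 / (a ^ 2 + (s * t) ^ 2) ^ 2 * (1 + t ^ 2)⁻¹ = π * (4 * a * s / (a + s) ^ 2) := by
  rcases hs.eq_or_lt with rfl | hs
  · simp
  by_cases h : a = s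
  · subst h; exact pnc_cauchy_f_eq ha
  · exact pnc_cauchy_f_ne ha hs h

/-- the exact line identity in the standard Cauchy variable -/
theorem pnc_cauchy_chi {k s : ℝ} (hk : k ≠ 0) (hs : 0 ≤ s) :
    ∫ t : ℝ, pncChi (k, s * t) * (π * (1 + t ^ 2))⁻¹ = ((|k| - s) / (|k| + s)) ^ 2 := by
  have ha : 0 < |k| := abs_pos.2 hk
  have hpi := Real.pi_pos
  have e : ∀ t : ℝ, pncChi (k, s * t) * (π * (1 + t ^ 2))⁻¹
      = π⁻¹ * ((1 + t ^ 2)⁻¹ - 8 * |k| ^ 2 * (s * t) ^ 2 / (|k| ^ 2 + (s * t) ^ 2) ^ 2 * (1 + t ^ 2)⁻¹) := by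
    intro t
    unfold pncChi
    rw [sq_abs, mul_inv]
    ring
  simp only [e]
  rw [integral_const_mul, integral_sub integrable_inv_one_add_sq (pnc_f_integrable ha s), integral_univ_inv_one_add_sq,
    pnc_cauchy_f ha hs]
  have h1 : |k| + s ≠ 0 := by positivity
  field_simp
  ring

theorem pnc_ang {x : ℝ × ℝ} (hk : x.1 ≠ 0) (hs : 0 ≤ x.2) : pncPr pncChi x = pncD x := by
  unfold pncPr pncD
  split_ifs with h
  · have ha : |x.1| ≠ 0 := abs_ne_zero.2 hk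
    rw [h]
    unfold pncChi
    simp [ha]
  · have hs' : 0 < x.2 := lt_of_le_of_ne hs (Ne.symm h)
    rw [← pnc_cauchy_chi hk hs]
    have h1 := Measure.integral_comp_mul_left (fun t : ℝ => pncChi (x.1, t) * pncCd x.2 t) x.2
    rw [abs_of_pos (inv_pos.2 hs'), smul_eq_mul] at h1
    have h2 : ∫ t, pncChi (x.1, t) * pncCd x.2 t = x.2 * ∫ u, pncChi (x.1, x.2 * u) * pncCd x.2 (x.2 * u) := by
      rw [h1]; field_simp
    rw [h2, ← integral_const_mul]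
    refine integral_congr_ae (Eventually.of_forall fun u => ?_)
    have hpi := Real.pi_pos
    have h3 : (1 + u ^ 2 : ℝ) ≠ 0 := by positivity
    simp only
    unfold pncCd
    have h4 : x.2 ^ 2 + (x.2 * u) ^ 2 = x.2 ^ 2 * (1 + u ^ 2) := by ring
    rw [h4]
    field_simp

theorem pnc_D_nonneg (x : ℝ × ℝ) : 0 ≤ pncD x := by unfold pncD; positivity

theorem pnc_D_le_one {x : ℝ × ℝ} (hs : 0 ≤ x.2) : pncD x ≤ 1 := by
  unfold pncD
  rw [sq_le_one_iff_abs_le_one, abs_div, abs_of_nonneg (by positivity : 0 ≤ |x.1| + x.2)]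
  refine div_le_one_of_le₀ ?_ (by positivity)
  rw [abs_le]
  constructor <;> linarith [abs_nonneg x.1]

theorem pnc_D_measurable : Measurable pncD := by
  unfold pncD
  fun_prop

/-- off the graph `s = |k|` the defect is bounded below.      TEX[04-plane l.452, l.527] -/
theorem pnc_D_ge {x : ℝ × ℝ} {ε : ℝ} (hk : x.1 ≠ 0) (hs : 0 ≤ x.2) (hε : 0 < ε) (hε' : ε ≤ 1) (h : ε * |x.1| < abs (x.2 - |x.1|)) :
    (ε / 3) ^ 2 ≤ pncD x := by
  have ha : 0 < |x.1| := abs_pos.2 hk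
  have hp : 0 < |x.1| + x.2 := by positivity
  unfold pncD
  rw [← sq_abs ((|x.1| - x.2) / (|x.1| + x.2))]
  refine pow_le_pow_left₀ (by positivity) ?_ 2
  rw [abs_div, abs_of_pos hp, le_div_iff₀ hp, abs_sub_comm]
  rcases le_total x.2 (2 * |x.1|) with h1 | h1
  · nlinarith
  · rw [abs_of_nonneg (by linarith : 0 ≤ x.2 - |x.1|)]
    have h2 : ε / 3 * (|x.1| + x.2) ≤ 1 / 3 * (|x.1| + x.2) := mul_le_mul_of_nonneg_right (by linarith) hp.le
    linarith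

end Claimed.Agent.R291
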