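import Claimed.Agent.R291.Pln.PncDefect

/-!
# Row 291 (S0539), Sec. 4, unit PLN-B3 : the spectral scaling limit, quantitatively      (helper140; prefix `pnc`)

TeX: `04-plane.tex` l.506-585 (Lemma 4.7 `plane:lem:subsequences`), WITHOUT vague limits / subsequences / distributions.

* `pnc_KL` : for `Ψ` continuous, compactly supported, zero near the line `κ = 0`:   `Λ_δ Ψ - π⁻¹ N_δ(Ψ♭) → 0`,   `Ψ♭(κ) = ∫ Ψ(κ, τ) dτ`
  (distortion of the Cayley variable → `mix` → `E` negligible → exact scaling of the Cauchy kernel → the mixing mass off `s = |k|` is killed by the summable defect).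
* `pnc_prod` : `Ψ(ζ) = a(ζ₁) b((Rot ζ)₁)` in the two charts + rotation invariance:   `N_δ(a) ∫ b - N_δ(b) ∫ a → 0`.
* `pnc_lam` : `Λ_δ Ψ - c_δ ∫ Ψ → 0` for every `Ψ ∈ C_c(ℝ²)`  (cut the strip `|κ| ≤ 2h` by `pnc_strip`).
-/

set_option autoImplicit false

namespace Claimed.Agent.R291

open MeasureTheory Filter Topology
open scoped ENNReal Real

/-- planar tests: continuous, compact support, zero near the line `κ = 0` -/
structure PncT (G : ℝ × ℝ → ℝ) : Prop where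
  cont : Continuous G
  cs : HasCompactSupport G
  off : ∃ α : ℝ, 0 < α ∧ ∀ z : ℝ × ℝ, |z.1| < α → G z = 0

/-- tangential tests: continuous, compact support, zero near `0` -/
structure PncT1 (a : ℝ → ℝ) : Prop where
  cont : Continuous a
  cs : HasCompactSupport a
  off : ∃ α : ℝ, 0 < α ∧ ∀ x : ℝ, |x| < α → a x = 0

/-- the normal integral `Ψ♭` -/
noncomputable def pncFl (Ψ : ℝ × ℝ → ℝ) (κ : ℝ) : ℝ := ∫ τ, Ψ (κ, τ)

variable (I : PncIn)

/-! ### tests -/

theorem pnq_N_le_two_norm (z : ℝ × ℝ) : pncN z ≤ 2 * ‖z‖ := by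
  have h1 : |z.1| ≤ ‖z‖ := by
    rw [Prod.norm_def]; exact le_max_left _ _
  have h2 : |z.2| ≤ ‖z‖ := by
    rw [Prod.norm_def]; exact le_max_right _ _
  unfold pncN pncQ
  rw [show (2 * ‖z‖) = Real.sqrt ((2 * ‖z‖) ^ 2) from (Real.sqrt_sq (by positivity)).symm]
  apply Real.sqrt_le_sqrt
  have h3 : z.1 ^ 2 ≤ ‖z‖ ^ 2 := by rw [← sq_abs z.1]; exact pow_le_pow_left₀ (abs_nonneg _) h1 2
  have h4 : z.2 ^ 2 ≤ ‖z‖ ^ 2 := by rw [← sq_abs z.2]; exact pow_le_pow_left₀ (abs_nonneg _) h2 2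
  nlinarith [sq_nonneg ‖z‖]

/-- a compactly supported continuous function is bounded and lives in a Euclidean ball -/
theorem pnc_cs_bound {G : ℝ × ℝ → ℝ} (hc : Continuous G) (hs : HasCompactSupport G) :
    ∃ M R : ℝ, 0 ≤ M ∧ 1 ≤ R ∧ (∀ z, |G z| ≤ M) ∧ ∀ z, R < pncN z → G z = 0 := by
  obtain ⟨C, hC⟩ := hs.exists_bound_of_continuous hc
  obtain ⟨R0, hR0⟩ := hs.isCompact.isBounded.subset_closedBall (0 : ℝ × ℝ)
  refine ⟨max C 0, max 1 (2 * R0), le_max_right _ _, le_max_left _ _, fun z => le_trans (hC z) (le_max_left _ _), fun z hz => ?_⟩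
  apply image_eq_zero_of_notMem_tsupport
  intro hmem
  have h1 := hR0 hmem
  rw [mem_closedBall_zero_iff] at h1
  have h2 := pnq_N_le_two_norm z
  have h3 : 2 * R0 < pncN z := lt_of_le_of_lt (le_max_right _ _) hz
  linarith

/-- one dimensional version -/
theorem pnq_cs_bound1 {a : ℝ → ℝ} (hc : Continuous a) (hs : HasCompactSupport a) :
    ∃ M R : ℝ, 0 ≤ M ∧ 1 ≤ R ∧ (∀ z, |a z| ≤ M) ∧ ∀ z, R < |z| → a z = 0 := by
  obtain ⟨C, hC⟩ := hs.exists_bound_of_continuous hc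
  obtain ⟨R0, hR0⟩ := hs.isCompact.isBounded.subset_closedBall (0 : ℝ)
  refine ⟨max C 0, max 1 R0, le_max_right _ _, le_max_left _ _, fun z => le_trans (hC z) (le_max_left _ _), fun z hz => ?_⟩
  apply image_eq_zero_of_notMem_tsupport
  intro hmem
  have h1 := hR0 hmem
  rw [mem_closedBall_zero_iff, Real.norm_eq_abs] at h1
  have h3 : R0 < |z| := lt_of_le_of_lt (le_max_right _ _) hz
  linarith

theorem PncT.mulQ {Ψ : ℝ × ℝ → ℝ} (h : PncT Ψ) : PncT fun z => Ψ z * pncQ z := by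
  obtain ⟨α, hα, h0⟩ := h.off
  exact ⟨h.cont.mul pnc_Q_continuous, h.cs.mul_right, α, hα, fun z hz => by rw [h0 z hz, zero_mul]⟩

theorem pnq_fl_eq_set {Ψ : ℝ × ℝ → ℝ} {R : ℝ} (hR : ∀ z, R < pncN z → Ψ z = 0) (κ : ℝ) :
    pncFl Ψ κ = ∫ τ in Set.Icc (-R) R, Ψ (κ, τ) := by
  unfold pncFl
  symm
  apply setIntegral_eq_integral_of_forall_compl_eq_zero
  intro τ hτ
  apply hR
  have h1 : R < |τ| := by
    by_contra hcon
    push Not at hcon
    exact hτ (abs_le.1 hcon)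
  exact lt_of_lt_of_le h1 (pnc_abs_snd_le (κ, τ))

/-- `Ψ♭` of a planar test is a tangential test -/
theorem PncT.fl {Ψ : ℝ × ℝ → ℝ} (h : PncT Ψ) : PncT1 (pncFl Ψ) := by
  obtain ⟨M, R, hM, hR1, hb, hR⟩ := pnc_cs_bound h.cont h.cs
  obtain ⟨α, hα, h0⟩ := h.off
  refine ⟨?_, ?_, α, hα, fun x hx => ?_⟩
  · have : pncFl Ψ = fun κ => ∫ τ in Set.Icc (-R) R, Ψ (κ, τ) := funext (pnq_fl_eq_set hR)
    rw [this]
    exact continuous_parametric_integral_of_continuous (f := fun κ τ => Ψ (κ, τ)) (show Continuous (fun z : ℝ × ℝ => Ψ (z.1, z.2)) from h.cont) isCompact_Icc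
  · refine HasCompactSupport.intro (K := Set.Icc (-R) R) isCompact_Icc fun x hx => ?_
    unfold pncFl
    have : ∀ τ, Ψ (x, τ) = 0 := fun τ => by
      apply hR
      have h1 : R < |x| := by
        by_contra hcon
        push Not at hcon
        exact hx (abs_le.1 hcon)
      exact lt_of_lt_of_le h1 (pnc_abs_fst_le (x, τ))
    simp [this]
  · unfold pncFl
    have : ∀ τ, Ψ (x, τ) = 0 := fun τ => h0 (x, τ) hx
    simp [this]

theorem pnc_fl_integral {Ψ : ℝ × ℝ → ℝ} (hc : Continuous Ψ) (hs : HasCompactSupport Ψ) : ∫ κ, pncFl Ψ κ = ∫ z, Ψ z := by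
  unfold pncFl
  rw [Measure.volume_eq_prod, integral_prod]
  rw [← Measure.volume_eq_prod]
  exact hc.integrable_of_hasCompactSupport hs

theorem pnc_b0_T1 : PncT1 pncb0 := by
  refine ⟨by unfold pncb0; fun_prop, ?_, 1, one_pos, fun x hx => ?_⟩
  · refine HasCompactSupport.intro (K := Set.Icc 1 3) isCompact_Icc fun x hx => ?_
    unfold pncb0
    apply max_eq_left
    by_contra hcon
    push Not at hcon
    have h1 : |x - 2| < 1 := by linarith
    rw [abs_lt] at h1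
    exact hx ⟨by linarith [h1.1], by linarith [h1.2]⟩
  · unfold pncb0
    apply max_eq_left
    rw [abs_lt] at hx
    have : 1 ≤ |x - 2| := by
      rw [abs_of_nonpos (by linarith [hx.2])]
      linarith [hx.2]
    linarith

theorem pnc_b0_integral : ∫ x, pncb0 x = 1 := by
  have h0 : ∫ x, pncb0 x = ∫ x in Set.Ioc (1:ℝ) 3, pncb0 x := by
    symm
    apply setIntegral_eq_integral_of_forall_compl_eq_zero
    intro x hx
    unfold pncb0
    apply max_eq_left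
    by_contra hcon
    push Not at hcon
    have h1 : |x - 2| < 1 := by linarith
    rw [abs_lt] at h1
    exact hx ⟨by linarith [h1.1], by linarith [h1.2]⟩
  rw [h0, ← intervalIntegral.integral_of_le (by norm_num : (1:ℝ) ≤ 3)]
  have hint : ∀ a b : ℝ, IntervalIntegrable pncb0 volume a b := fun a b =>
    (show Continuous pncb0 by unfold pncb0; fun_prop).intervalIntegrable a b
  rw [← intervalIntegral.integral_add_adjacent_intervals (hint 1 2) (hint 2 3)]
  have e1 : ∫ x in (1:ℝ)..2, pncb0 x = ∫ x in (1:ℝ)..2, (x - 1) := by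
    apply intervalIntegral.integral_congr
    intro x hx
    rw [Set.uIcc_of_le (by norm_num)] at hx
    simp only [pncb0]
    rw [abs_of_nonpos (by linarith [hx.2]), max_eq_right (by linarith [hx.1])]
    ring
  have e2 : ∫ x in (2:ℝ)..3, pncb0 x = ∫ x in (2:ℝ)..3, (3 - x) := by
    apply intervalIntegral.integral_congr
    intro x hx
    rw [Set.uIcc_of_le (by norm_num)] at hx
    simp only [pncb0]
    rw [abs_of_nonneg (by linarith [hx.1]), max_eq_right (by linarith [hx.2])]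
    ring
  rw [e1, e2]
  have hid : ∀ a b : ℝ, IntervalIntegrable (fun x : ℝ => x) volume a b := fun a b => continuous_id.intervalIntegrable a b
  rw [intervalIntegral.integral_sub (hid _ _) intervalIntegrable_const,
    intervalIntegral.integral_sub intervalIntegrable_const (hid _ _)]
  simp only [intervalIntegral.integral_const, integral_id, smul_eq_mul]
  norm_num

theorem pnc_b0_nonneg (x : ℝ) : 0 ≤ pncb0 x := le_max_left _ _

/-! ### the tangential functional -/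

/-- pointwise bound of the integrand of `N_δ a` by a constant on a band -/
theorem pnq_Nn_bound {a : ℝ → ℝ} {M R α : ℝ} (hM : 0 ≤ M) (hb : ∀ z, |a z| ≤ M) (hR : ∀ z, R < |z| → a z = 0)
    (h0 : ∀ x : ℝ, |x| < α → a x = 0) {δ : ℝ} (hδ : 0 < δ) (x : ℝ × ℝ) :
    ‖a (x.1 / δ) * (|x.1| / δ)‖ ≤ Set.indicator {x : ℝ × ℝ | α * δ ≤ |x.1| ∧ |x.1| ≤ R * δ} (fun _ => M * R) x := by
  have habs : |x.1 / δ| = |x.1| / δ := by rw [abs_div, abs_of_pos hδ]
  by_cases hx : α * δ ≤ |x.1| ∧ |x.1| ≤ R * δ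
  · rw [Set.indicator_of_mem (show x ∈ {x : ℝ × ℝ | α * δ ≤ |x.1| ∧ |x.1| ≤ R * δ} from hx)]
    rw [norm_mul, Real.norm_eq_abs, Real.norm_eq_abs, abs_of_nonneg (div_nonneg (abs_nonneg _) hδ.le)]
    have h1 : |x.1| / δ ≤ R := by rw [div_le_iff₀ hδ]; exact hx.2
    exact mul_le_mul (hb _) h1 (div_nonneg (abs_nonneg _) hδ.le) hM
  · rw [Set.indicator_of_notMem (show x ∉ {x : ℝ × ℝ | α * δ ≤ |x.1| ∧ |x.1| ≤ R * δ} from hx)]
    have : a (x.1 / δ) = 0 := by
      by_cases h1 : α * δ ≤ |x.1|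
      · have h2 : R * δ < |x.1| := by
          by_contra hcon
          push Not at hcon
          exact hx ⟨h1, hcon⟩
        apply hR
        rw [habs, lt_div_iff₀ hδ]
        exact h2
      · push Not at h1
        apply h0
        rw [habs, div_lt_iff₀ hδ]
        exact h1
    rw [this, zero_mul, norm_zero]

theorem pnq_band_measurable (α β : ℝ) : MeasurableSet {x : ℝ × ℝ | α ≤ |x.1| ∧ |x.1| ≤ β} := by
  have hm : Measurable fun x : ℝ × ℝ => |x.1| := by fun_prop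
  exact (measurableSet_le measurable_const hm).inter (measurableSet_le hm measurable_const)

theorem pnq_band_lt_top {α : ℝ} (hα : 0 < α) (β : ℝ) : I.nu {x : ℝ × ℝ | α ≤ |x.1| ∧ |x.1| ≤ β} < ∞ :=
  lt_of_le_of_lt (measure_mono fun _ hx => hx.1) (pnc_nu_far I hα)

theorem pnc_Nn_integrable {a : ℝ → ℝ} (ha : PncT1 a) {δ : ℝ} (hδ : 0 < δ) : Integrable (fun x : ℝ × ℝ => a (x.1 / δ) * (|x.1| / δ)) I.nu := by
  obtain ⟨M, R, hM, hR1, hb, hR⟩ := pnq_cs_bound1 ha.cont ha.cs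
  obtain ⟨α, hα, h0⟩ := ha.off
  refine Integrable.mono' (g := Set.indicator {x : ℝ × ℝ | α * δ ≤ |x.1| ∧ |x.1| ≤ R * δ} (fun _ => M * R)) ?_ ?_
    (Eventually.of_forall (pnq_Nn_bound hM hb hR h0 hδ))
  · rw [integrable_indicator_iff (pnq_band_measurable _ _)]
    exact integrableOn_const (pnq_band_lt_top I (mul_pos hα hδ) _).ne
  · have : Continuous fun x : ℝ × ℝ => a (x.1 / δ) * (|x.1| / δ) := by
      have := ha.cont
      fun_prop
    exact this.aestronglyMeasurable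

/-- `N_δ a` is bounded uniformly in `δ` (`pnc_bands'`) -/
theorem pnc_Nn_bdd {a : ℝ → ℝ} (ha : PncT1 a) : ∃ M : ℝ, ∀ δ : ℝ, 0 < δ → |pncNn I δ a| ≤ M := by
  obtain ⟨M, R, hM, hR1, hb, hR⟩ := pnq_cs_bound1 ha.cont ha.cs
  obtain ⟨α, hα, h0⟩ := ha.off
  obtain ⟨M', hM'⟩ := pnc_bands' I (α := α) (β := R) hα
  refine ⟨M * R * max M' 0, fun δ hδ => ?_⟩
  unfold pncNn
  rw [← Real.norm_eq_abs]
  have hfin := pnq_band_lt_top I (mul_pos hα hδ) (R * δ)
  have h1 := norm_integral_le_of_norm_le (μ := I.nu) (f := fun x : ℝ × ℝ => a (x.1 / δ) * (|x.1| / δ))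
    (g := Set.indicator {x : ℝ × ℝ | α * δ ≤ |x.1| ∧ |x.1| ≤ R * δ} (fun _ => M * R))
    (by rw [integrable_indicator_iff (pnq_band_measurable _ _)]; exact integrableOn_const hfin.ne)
    (Eventually.of_forall (pnq_Nn_bound hM hb hR h0 hδ))
  refine le_trans h1 ?_
  rw [integral_indicator_const _ (pnq_band_measurable _ _), smul_eq_mul, mul_comm]
  apply mul_le_mul_of_nonneg_left _ (mul_nonneg hM (by linarith))
  unfold Measure.real
  calc (I.nu {x : ℝ × ℝ | α * δ ≤ |x.1| ∧ |x.1| ≤ R * δ}).toReal ≤ (ENNReal.ofReal M').toReal :=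
        ENNReal.toReal_mono ENNReal.ofReal_ne_top (hM' δ hδ)
    _ = max M' 0 := ENNReal.toReal_ofReal'

theorem pnc_c_nonneg {δ : ℝ} (hδ : 0 < δ) : 0 ≤ pncc I δ := by
  unfold pncc pncNn
  refine div_nonneg (integral_nonneg fun x => mul_nonneg (pnc_b0_nonneg _) (div_nonneg (abs_nonneg _) hδ.le)) Real.pi_pos.le

theorem pnc_c_bdd : ∃ M : ℝ, ∀ δ : ℝ, 0 < δ → |pncc I δ| ≤ M := by
  obtain ⟨M, hM⟩ := pnc_Nn_bdd I pnc_b0_T1
  refine ⟨M / π, fun δ hδ => ?_⟩
  unfold pncc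
  rw [abs_div, abs_of_pos Real.pi_pos]
  exact div_le_div_of_nonneg_right (hM δ hδ) Real.pi_pos.le

/-! ### the key lemma -/

theorem pnc_Lam_integrable {Ψ : ℝ × ℝ → ℝ} (hc : Continuous Ψ) (hs : HasCompactSupport Ψ) {δ : ℝ} (hδ : 0 < δ) :
    Integrable (fun p => Ψ (pncSc δ p) * pncQ (pncSc δ p)) I.C0 := by
  obtain ⟨M, R, hM, hR1, hb, hR⟩ := pnc_cs_bound hc hs
  refine Integrable.mono' (g := fun p => M / δ ^ 2 * pncQ p) ((pnc_Q_integrable I).const_mul _) ?_ (Eventually.of_forall fun p => ?_)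
  · have : Continuous fun p : ℝ × ℝ => Ψ (pncSc δ p) * pncQ (pncSc δ p) := by
      have h1 : Continuous (pncSc δ) := by unfold pncSc; fun_prop
      exact (hc.comp h1).mul (pnc_Q_continuous.comp h1)
    exact this.aestronglyMeasurable
  · rw [norm_mul, Real.norm_eq_abs, Real.norm_eq_abs, pnc_Q_sc, abs_of_nonneg (div_nonneg (pnc_Q_nonneg p) (by positivity))]
    calc |Ψ (pncSc δ p)| * (pncQ p / δ ^ 2) ≤ M * (pncQ p / δ ^ 2) :=
          mul_le_mul_of_nonneg_right (hb _) (div_nonneg (pnc_Q_nonneg p) (by positivity))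
      _ = M / δ ^ 2 * pncQ p := by ring

theorem pnq_shell_measurable (α β : ℝ) : MeasurableSet {p : ℝ × ℝ | α ≤ pncN p ∧ pncN p ≤ β} :=
  (measurableSet_le measurable_const pnc_N_continuous.measurable).inter (measurableSet_le pnc_N_continuous.measurable measurable_const)

theorem pnq_sc_continuous (δ : ℝ) : Continuous (pncSc δ) := by unfold pncSc; fun_prop

/-- the Cayley chart increases the Euclidean norm on the disc -/
theorem pnq_N_ch_ge {p : ℝ × ℝ} (hp : pncN p ≤ 1 / 2) : pncN p ≤ pncN (pncCh p) := by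
  have h1 : |p.2| ≤ |pncLt p.2| := pnc_lt_ge (le_trans (pnc_abs_snd_le p) hp)
  unfold pncN pncQ pncCh
  apply Real.sqrt_le_sqrt
  have h2 : p.2 ^ 2 ≤ pncLt p.2 ^ 2 := by
    rw [← sq_abs p.2, ← sq_abs (pncLt p.2)]
    exact pow_le_pow_left₀ (abs_nonneg _) h1 2
  simp only
  linarith

/-- both integrands of KL-a vanish off the shell -/
theorem pnq_KL_supp {G : ℝ × ℝ → ℝ} {R α : ℝ} (hR : ∀ z, R < pncN z → G z = 0) (h0 : ∀ z : ℝ × ℝ, |z.1| < α → G z = 0)
    {δ : ℝ} (hδ : 0 < δ) {p : ℝ × ℝ} (hp : pncN p ≤ 1 / 2) (hS : ¬ (α * δ ≤ pncN p ∧ pncN p ≤ R * δ)) :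
    G (pncSc δ p) = 0 ∧ G (pncSc δ (pncCh p)) = 0 := by
  by_cases h1 : α * δ ≤ pncN p
  · have h2 : R * δ < pncN p := by
      by_contra hcon
      push Not at hcon
      exact hS ⟨h1, hcon⟩
    constructor
    · apply hR
      rw [pnc_N_sc hδ, lt_div_iff₀ hδ]
      exact h2
    · apply hR
      rw [pnc_N_sc hδ, lt_div_iff₀ hδ]
      exact lt_of_lt_of_le h2 (pnq_N_ch_ge hp)
  · push Not at h1
    have h2 : |p.1 / δ| < α := by
      rw [abs_div, abs_of_pos hδ, div_lt_iff₀ hδ]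
      exact lt_of_le_of_lt (pnc_abs_fst_le p) h1
    exact ⟨h0 _ h2, h0 _ h2⟩

theorem pnq_shell_lt_top {α : ℝ} (hα : 0 < α) (β : ℝ) : I.C0 {p : ℝ × ℝ | α ≤ pncN p ∧ pncN p ≤ β} < ∞ :=
  lt_of_le_of_lt (measure_mono fun _ hx => hx.1) (pnc_far_lt_top I hα)

theorem pnq_ae_half : ∀ᵐ p ∂I.C0, pncN p ≤ 1 / 2 := by
  filter_upwards [pnc_ae_disc I] with p hp
  exact le_trans hp.2.le I.r0_le

/-- integrability of the two terms of KL-a -/
theorem pnq_KL_dist_int {G : ℝ × ℝ → ℝ} (hG : PncT G) {δ : ℝ} (hδ : 0 < δ) :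
    Integrable (fun p => G (pncSc δ p)) I.C0 ∧ Integrable (fun p => G (pncSc δ (pncCh p))) I.C0 := by
  obtain ⟨M, R, hM, hR1, hb, hR⟩ := pnc_cs_bound hG.cont hG.cs
  obtain ⟨α, hα, h0⟩ := hG.off
  have hg : Integrable (Set.indicator {p : ℝ × ℝ | α * δ ≤ pncN p ∧ pncN p ≤ R * δ} (fun _ => M)) I.C0 := by
    rw [integrable_indicator_iff (pnq_shell_measurable _ _)]
    exact integrableOn_const (pnq_shell_lt_top I (mul_pos hα hδ) _).ne
  constructor
  · refine Integrable.mono' hg (hG.cont.comp (pnq_sc_continuous δ)).aestronglyMeasurable ?_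
    filter_upwards [pnq_ae_half I] with p hp
    by_cases hS : α * δ ≤ pncN p ∧ pncN p ≤ R * δ
    · rw [Set.indicator_of_mem (show p ∈ {p : ℝ × ℝ | α * δ ≤ pncN p ∧ pncN p ≤ R * δ} from hS)]
      exact hb _
    · rw [Set.indicator_of_notMem (show p ∉ {p : ℝ × ℝ | α * δ ≤ pncN p ∧ pncN p ≤ R * δ} from hS), (pnq_KL_supp hR h0 hδ hp hS).1, norm_zero]
  · refine Integrable.mono' hg ((hG.cont.comp (pnq_sc_continuous δ)).measurable.comp pnc_ch_measurable).aestronglyMeasurable ?_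
    filter_upwards [pnq_ae_half I] with p hp
    by_cases hS : α * δ ≤ pncN p ∧ pncN p ≤ R * δ
    · rw [Set.indicator_of_mem (show p ∈ {p : ℝ × ℝ | α * δ ≤ pncN p ∧ pncN p ≤ R * δ} from hS)]
      exact hb _
    · rw [Set.indicator_of_notMem (show p ∉ {p : ℝ × ℝ | α * δ ≤ pncN p ∧ pncN p ≤ R * δ} from hS), (pnq_KL_supp hR h0 hδ hp hS).2, norm_zero]

/-- KL-a. the distortion of the Cayley variable is invisible at small scales (uniform continuity of `G`, `|lt - l| ≤ (3/4)|l|³`, `pnc_shell`) -/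
theorem pnc_KL_dist {G : ℝ × ℝ → ℝ} (hG : PncT G) :
    Tendsto (fun δ : ℝ => ∫ p, G (pncSc δ p) ∂I.C0 - ∫ p, G (pncSc δ (pncCh p)) ∂I.C0) (𝓝[>] 0) (𝓝 0) := by
  obtain ⟨M, R, hM, hR1, hb, hR⟩ := pnc_cs_bound hG.cont hG.cs
  obtain ⟨α, hα, h0⟩ := hG.off
  obtain ⟨Ms, hMs⟩ := pnc_shell I (α := α) (R := R) hα
  have huc : UniformContinuous G := hG.cs.uniformContinuous_of_continuous hG.cont
  rw [Metric.tendsto_nhds]
  intro ε hε
  have hK : 0 < max Ms 0 + 1 := by positivity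
  obtain ⟨η, hη, hη'⟩ := Metric.uniformContinuous_iff.1 huc (ε / (2 * (max Ms 0 + 1))) (by positivity)
  -- smallness of δ
  have hδ0 : 0 < Real.sqrt (η / R ^ 3) := Real.sqrt_pos.2 (by positivity)
  filter_upwards [Ioo_mem_nhdsGT hδ0] with δ hδ
  have hδp : 0 < δ := hδ.1
  have hδ2 : δ ^ 2 < η / R ^ 3 := by
    have := Real.lt_sqrt hδp.le |>.1 hδ.2
    exact this
  have hsmall : 3 / 4 * R ^ 3 * δ ^ 2 < η := by
    have h1 : R ^ 3 * δ ^ 2 < η := by
      rw [lt_div_iff₀ (by positivity)] at hδ2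
      linarith
    have h2 : 0 ≤ R ^ 3 * δ ^ 2 := by positivity
    linarith
  obtain ⟨hi1, hi2⟩ := pnq_KL_dist_int I hG hδp
  rw [dist_zero_right, ← integral_sub hi1 hi2]
  have hfin := pnq_shell_lt_top I (mul_pos hα hδp) (R * δ)
  have h1 := norm_integral_le_of_norm_le (μ := I.C0) (f := fun p => G (pncSc δ p) - G (pncSc δ (pncCh p)))
    (g := Set.indicator {p : ℝ × ℝ | α * δ ≤ pncN p ∧ pncN p ≤ R * δ} (fun _ => ε / (2 * (max Ms 0 + 1))))
    (by rw [integrable_indicator_iff (pnq_shell_measurable _ _)]; exact integrableOn_const hfin.ne) (by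
      filter_upwards [pnq_ae_half I] with p hp
      by_cases hS : α * δ ≤ pncN p ∧ pncN p ≤ R * δ
      · rw [Set.indicator_of_mem (show p ∈ {p : ℝ × ℝ | α * δ ≤ pncN p ∧ pncN p ≤ R * δ} from hS)]
        rw [← dist_eq_norm]
        apply le_of_lt
        apply hη'
        have hl : |p.2| ≤ R * δ := le_trans (pnc_abs_snd_le p) hS.2
        have hl2 : |pncLt p.2 - p.2| ≤ 3 / 4 * |p.2| ^ 3 := pnc_lt_le (le_trans (pnc_abs_snd_le p) hp)
        have hl3 : |p.2| ^ 3 ≤ (R * δ) ^ 3 := pow_le_pow_left₀ (abs_nonneg _) hl 3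
        rw [Prod.dist_eq]
        apply max_lt
        · simp only [pncSc, pncCh, dist_self]
          exact hη
        · simp only [pncSc, pncCh]
          rw [Real.dist_eq, ← sub_div, abs_div, abs_of_pos hδp, abs_sub_comm, div_lt_iff₀ hδp]
          calc |pncLt p.2 - p.2| ≤ 3 / 4 * (R * δ) ^ 3 := le_trans hl2 (by linarith)
            _ = (3 / 4 * R ^ 3 * δ ^ 2) * δ := by ring
            _ < η * δ := mul_lt_mul_of_pos_right hsmall hδp
      · rw [Set.indicator_of_notMem (show p ∉ {p : ℝ × ℝ | α * δ ≤ pncN p ∧ pncN p ≤ R * δ} from hS),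
          (pnq_KL_supp hR h0 hδp hp hS).1, (pnq_KL_supp hR h0 hδp hp hS).2, sub_zero, norm_zero])
  refine lt_of_le_of_lt h1 ?_
  rw [integral_indicator_const _ (pnq_shell_measurable _ _), smul_eq_mul]
  have h2 : I.C0.real {p : ℝ × ℝ | α * δ ≤ pncN p ∧ pncN p ≤ R * δ} ≤ max Ms 0 := by
    unfold Measure.real
    calc (I.C0 {p : ℝ × ℝ | α * δ ≤ pncN p ∧ pncN p ≤ R * δ}).toReal ≤ (ENNReal.ofReal Ms).toReal :=
          ENNReal.toReal_mono ENNReal.ofReal_ne_top (hMs δ hδp)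
      _ = max Ms 0 := ENNReal.toReal_ofReal'
  calc I.C0.real {p : ℝ × ℝ | α * δ ≤ pncN p ∧ pncN p ≤ R * δ} * (ε / (2 * (max Ms 0 + 1)))
      ≤ (max Ms 0 + 1) * (ε / (2 * (max Ms 0 + 1))) := mul_le_mul_of_nonneg_right (by linarith) (by positivity)
    _ = ε / 2 := by field_simp
    _ < ε := by linarith

/-- KL-c. the rest of the torus is invisible at small scales (dominated convergence: `G(x/δ) → 0` pointwise, `G 0 = 0`, `E` finite) -/
theorem pnc_KL_E {G : ℝ × ℝ → ℝ} (hG : PncT G) : Tendsto (fun δ : ℝ => ∫ x, G (pncSc δ x) ∂I.E) (𝓝[>] 0) (𝓝 0) := by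
  obtain ⟨M, R, hM, hR1, hb, hR⟩ := pnc_cs_bound hG.cont hG.cs
  have := I.Efin
  have h := tendsto_integral_filter_of_dominated_convergence (μ := I.E) (l := 𝓝[>] (0:ℝ)) (F := fun δ x => G (pncSc δ x)) (f := fun _ => (0:ℝ))
    (fun _ => M) (Eventually.of_forall fun δ => (hG.cont.comp (pnq_sc_continuous δ)).aestronglyMeasurable)
    (Eventually.of_forall fun δ => Eventually.of_forall fun x => hb _) (integrable_const M) (by
      filter_upwards [pnc_ae_E I] with x hx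
      apply tendsto_const_nhds.congr'
      have hpos : 0 < |x.1| / R := div_pos (abs_pos.2 hx) (by linarith)
      filter_upwards [Ioo_mem_nhdsGT hpos] with δ hδ
      symm
      apply hR
      rw [pnc_N_sc hδ.1, lt_div_iff₀ hδ.1]
      have h1 : δ * R < |x.1| := by
        have := hδ.2
        rwa [lt_div_iff₀ (by linarith)] at this
      calc R * δ = δ * R := mul_comm _ _
        _ < |x.1| := h1
        _ ≤ pncN x := pnc_abs_fst_le x)
  simpa using h

/-- KL-d. exact scaling of the Cauchy average -/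
theorem pnc_Pr_sc (G : ℝ × ℝ → ℝ) {δ : ℝ} (hδ : 0 < δ) (x : ℝ × ℝ) : pncPr (fun y => G (pncSc δ y)) x = pncPr G (pncSc δ x) := by
  unfold pncPr
  by_cases hx : x.2 = 0
  · have h2 : (pncSc δ x).2 = 0 := by simp [pncSc, hx]
    rw [if_pos hx, if_pos h2]
    simp [pncSc]
  · have h2 : (pncSc δ x).2 ≠ 0 := by
      simp only [pncSc]
      exact div_ne_zero hx hδ.ne'
    rw [if_neg hx, if_neg h2]
    have e : ∀ t : ℝ, G (pncSc δ (x.1, t)) * pncCd x.2 t = (fun u => G (x.1 / δ, u) * (pncCd (x.2 / δ) u / δ)) (t / δ) := by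
      intro t
      simp only [pncSc]
      rw [pnc_cd_sc hδ]
      field_simp
    rw [integral_congr_ae (Eventually.of_forall e),
      Measure.integral_comp_div (fun u => G (x.1 / δ, u) * (pncCd (x.2 / δ) u / δ)) δ, abs_of_pos hδ, smul_eq_mul, ← integral_const_mul]
    apply integral_congr_ae
    refine Eventually.of_forall fun u => ?_
    simp only [pncSc]
    field_simp

theorem pnq_Pr_measurable {G : ℝ × ℝ → ℝ} (hG : Measurable G) : Measurable (pncPr G) := by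
  unfold pncPr
  refine Measurable.ite (measurableSet_eq_fun measurable_snd measurable_const) (hG.comp (measurable_fst.prodMk measurable_const)) ?_
  have : StronglyMeasurable (fun q : (ℝ × ℝ) × ℝ => G (q.1.1, q.2) * pncCd q.1.2 q.2) := by
    apply Measurable.stronglyMeasurable
    exact (hG.comp ((measurable_fst.comp measurable_fst).prodMk measurable_snd)).mul
      (pnc_cd_measurable.comp ((measurable_snd.comp measurable_fst).prodMk measurable_snd))
  exact (this.integral_prod_right (ν := volume)).measurable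

theorem pnq_Pr_zero {G : ℝ × ℝ → ℝ} {κ : ℝ} (h : ∀ t, G (κ, t) = 0) (s : ℝ) : pncPr G (κ, s) = 0 := by
  unfold pncPr
  split_ifs
  · exact h 0
  · simp [h]

/-- the column `κ` of a test is zero outside `α ≤ |κ| ≤ R` -/
theorem pnq_col_zero {G : ℝ × ℝ → ℝ} {R α : ℝ} (hR : ∀ z, R < pncN z → G z = 0) (h0 : ∀ z : ℝ × ℝ, |z.1| < α → G z = 0)
    {κ : ℝ} (hκ : ¬ (α ≤ |κ| ∧ |κ| ≤ R)) (t : ℝ) : G (κ, t) = 0 := by
  by_cases h1 : α ≤ |κ|
  · have h2 : R < |κ| := by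
      by_contra hcon
      push Not at hcon
      exact hκ ⟨h1, hcon⟩
    exact hR _ (lt_of_lt_of_le h2 (pnc_abs_fst_le (κ, t)))
  · push Not at h1
    exact h0 _ h1

/-- comparison of the Cauchy averages at two close scales -/
theorem pnq_Pr_close {G : ℝ × ℝ → ℝ} (hm : Measurable G) {M : ℝ} (hb : ∀ z, |G z| ≤ M) {κ a σ ε : ℝ} (ha : 0 < a) (hε : 0 ≤ ε) (hε' : ε ≤ 1 / 2)
    (h : |σ - a| ≤ ε * a) : |pncPr G (κ, σ) - pncPr G (κ, a)| ≤ 8 * ε * M := by
  have hM : 0 ≤ M := (abs_nonneg _).trans (hb 0)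
  have hσ : 0 < σ := by
    have := (abs_le.1 h).1
    nlinarith
  unfold pncPr
  rw [if_neg hσ.ne', if_neg ha.ne']
  have hi : ∀ {s : ℝ}, 0 < s → Integrable fun t => G (κ, t) * pncCd s t := by
    intro s hs
    refine (pnc_cd_integrable hs).bdd_mul (c := M) (hm.comp (measurable_const.prodMk measurable_id)).aestronglyMeasurable ?_
    exact Eventually.of_forall fun t => by rw [Real.norm_eq_abs]; exact hb _
  simp only
  rw [← integral_sub (hi hσ) (hi ha), ← Real.norm_eq_abs]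
  have h1 := norm_integral_le_of_norm_le (μ := volume) (f := fun t => G (κ, t) * pncCd σ t - G (κ, t) * pncCd a t)
    (g := fun t => 8 * ε * M * pncCd a t) ((pnc_cd_integrable ha).const_mul _) (Eventually.of_forall fun t => by
      rw [← mul_sub, norm_mul, Real.norm_eq_abs, Real.norm_eq_abs]
      calc |G (κ, t)| * |pncCd σ t - pncCd a t| ≤ M * (8 * ε * pncCd a t) :=
            mul_le_mul (hb _) (pnc_cd_close ha hε hε' h) (abs_nonneg _) hM
        _ = 8 * ε * M * pncCd a t := by ring)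
  refine le_trans h1 ?_
  rw [integral_const_mul, pnc_cd_integral ha, mul_one]

/-- the pointwise estimate behind KL-e -/
theorem pnq_KL_point {G : ℝ × ℝ → ℝ} (hm : Measurable G) {M R α : ℝ} (hb : ∀ z, |G z| ≤ M) (hR : ∀ z, R < pncN z → G z = 0)
    (h0 : ∀ z : ℝ × ℝ, |z.1| < α → G z = 0) {δ ε : ℝ} (hδ : 0 < δ) (hε : 0 < ε) (hε' : ε ≤ 1 / 2) {x : ℝ × ℝ} (hk : x.1 ≠ 0) (hs : 0 ≤ x.2) :
    ‖pncPr G (pncSc δ x) - pncPr G (x.1 / δ, |x.1| / δ)‖ ≤
      Set.indicator {x : ℝ × ℝ | α * δ ≤ |x.1| ∧ |x.1| ≤ R * δ} (fun _ => 8 * ε * M) x +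
        18 * M / ε ^ 2 * Set.indicator {x : ℝ × ℝ | |x.1| ≤ R * δ} pncD x := by
  have hM : 0 ≤ M := (abs_nonneg _).trans (hb 0)
  have habs : |x.1 / δ| = |x.1| / δ := by rw [abs_div, abs_of_pos hδ]
  have hD0 : 0 ≤ 18 * M / ε ^ 2 * Set.indicator {x : ℝ × ℝ | |x.1| ≤ R * δ} pncD x :=
    mul_nonneg (by positivity) (Set.indicator_nonneg (fun y _ => pnc_D_nonneg y) x)
  by_cases hB : α * δ ≤ |x.1| ∧ |x.1| ≤ R * δ
  · rw [Set.indicator_of_mem (show x ∈ {x : ℝ × ℝ | α * δ ≤ |x.1| ∧ |x.1| ≤ R * δ} from hB),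
      Set.indicator_of_mem (show x ∈ {x : ℝ × ℝ | |x.1| ≤ R * δ} from hB.2), Real.norm_eq_abs]
    have ha : 0 < |x.1| / δ := div_pos (abs_pos.2 hk) hδ
    by_cases hc : |x.2 / δ - |x.1| / δ| ≤ ε * (|x.1| / δ)
    · have := pnq_Pr_close hm hb (κ := x.1 / δ) ha hε.le hε' hc
      have h2 : 0 ≤ 18 * M / ε ^ 2 * pncD x := mul_nonneg (by positivity) (pnc_D_nonneg x)
      show |pncPr G (x.1 / δ, x.2 / δ) - pncPr G (x.1 / δ, |x.1| / δ)| ≤ _
      linarith
    · push Not at hc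
      have hc' : ε * |x.1| < abs (x.2 - |x.1|) := by
        rw [← sub_div, abs_div, abs_of_pos hδ, ← mul_div_assoc, div_lt_div_iff_of_pos_right hδ] at hc
        exact hc
      have hD := pnc_D_ge hk hs hε (by linarith) hc'
      have h1 : |pncPr G (pncSc δ x)| ≤ M := pnc_Pr_abs_le hb (x := pncSc δ x) (by simp only [pncSc]; positivity)
      have h2 : |pncPr G (x.1 / δ, |x.1| / δ)| ≤ M := pnc_Pr_abs_le hb (x := (x.1 / δ, |x.1| / δ)) ha.le
      have h3 : |pncPr G (pncSc δ x) - pncPr G (x.1 / δ, |x.1| / δ)| ≤ 2 * M := by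
        calc _ ≤ |pncPr G (pncSc δ x)| + |pncPr G (x.1 / δ, |x.1| / δ)| := abs_sub _ _
          _ ≤ 2 * M := by linarith
      have h4 : 2 * M ≤ 18 * M / ε ^ 2 * pncD x := by
        calc 2 * M = 18 * M / ε ^ 2 * (ε / 3) ^ 2 := by field_simp; ring
          _ ≤ 18 * M / ε ^ 2 * pncD x := mul_le_mul_of_nonneg_left hD (by positivity)
      have h5 : 0 ≤ 8 * ε * M := by positivity
      linarith
  · rw [Set.indicator_of_notMem (show x ∉ {x : ℝ × ℝ | α * δ ≤ |x.1| ∧ |x.1| ≤ R * δ} from hB)]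
    have hκ : ¬ (α ≤ |x.1 / δ| ∧ |x.1 / δ| ≤ R) := by
      rw [habs, le_div_iff₀ hδ, div_le_iff₀ hδ]
      exact hB
    have e1 : pncPr G (pncSc δ x) = 0 := pnq_Pr_zero (pnq_col_zero hR h0 hκ) _
    have e2 : pncPr G (x.1 / δ, |x.1| / δ) = 0 := pnq_Pr_zero (pnq_col_zero hR h0 hκ) _
    rw [e1, e2, sub_zero, norm_zero, zero_add]
    exact hD0

/-- integrability of the two terms of KL-e -/
theorem pnq_KL_int {G : ℝ × ℝ → ℝ} (hG : PncT G) {δ : ℝ} (hδ : 0 < δ) :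
    Integrable (fun x => pncPr G (pncSc δ x)) I.nu ∧ Integrable (fun x : ℝ × ℝ => pncPr G (x.1 / δ, |x.1| / δ)) I.nu := by
  obtain ⟨M, R, hM, hR1, hb, hR⟩ := pnc_cs_bound hG.cont hG.cs
  obtain ⟨α, hα, h0⟩ := hG.off
  constructor
  · have h := (pnc_mix_real I (G := fun y => G (pncSc δ y)) ((hG.cont.comp (pnq_sc_continuous δ)).measurable) (M := M) (ε := α * δ)
      (by positivity) (fun x => hb _) (fun x hx => h0 _ (by
        simp only [pncSc]
        rw [abs_div, abs_of_pos hδ, div_lt_iff₀ hδ]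
        exact hx))).1
    exact h.congr (Eventually.of_forall fun x => pnc_Pr_sc G hδ x)
  · refine Integrable.mono' (g := Set.indicator {x : ℝ × ℝ | α * δ ≤ |x.1| ∧ |x.1| ≤ R * δ} (fun _ => M)) ?_ ?_ (Eventually.of_forall fun x => ?_)
    · rw [integrable_indicator_iff (pnq_band_measurable _ _)]
      exact integrableOn_const (pnq_band_lt_top I (mul_pos hα hδ) _).ne
    · apply Measurable.aestronglyMeasurable
      exact (pnq_Pr_measurable hG.cont.measurable).comp ((measurable_fst.div_const δ).prodMk (measurable_fst.abs.div_const δ))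
    · by_cases hB : α * δ ≤ |x.1| ∧ |x.1| ≤ R * δ
      · rw [Set.indicator_of_mem (show x ∈ {x : ℝ × ℝ | α * δ ≤ |x.1| ∧ |x.1| ≤ R * δ} from hB)]
        exact pnc_Pr_abs_le hb (x := (x.1 / δ, |x.1| / δ)) (by positivity)
      · rw [Set.indicator_of_notMem (show x ∉ {x : ℝ × ℝ | α * δ ≤ |x.1| ∧ |x.1| ≤ R * δ} from hB)]
        have hκ : ¬ (α ≤ |x.1 / δ| ∧ |x.1 / δ| ≤ R) := by
          rw [abs_div, abs_of_pos hδ, le_div_iff₀ hδ, div_le_iff₀ hδ]
          exact hB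
        rw [pnq_Pr_zero (pnq_col_zero hR h0 hκ) _, norm_zero]

/-- KL-e. **concentration on the graph `s = |k|`**: on `|s/|k| - 1| ≤ ε` use `pnc_cd_close` and `pnc_bands'`; off it `pnc_D_ge` and `pnc_defect_small`.      TEX[04-plane l.520-535] -/
theorem pnc_KL_conc {G : ℝ × ℝ → ℝ} (hG : PncT G) :
    Tendsto (fun δ : ℝ => ∫ x, (pncPr G (pncSc δ x) - pncPr G (x.1 / δ, |x.1| / δ)) ∂I.nu) (𝓝[>] 0) (𝓝 0) := by
  obtain ⟨M, R, hM, hR1, hb, hR⟩ := pnc_cs_bound hG.cont hG.cs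
  obtain ⟨α, hα, h0⟩ := hG.off
  obtain ⟨Mb, hMb⟩ := pnc_bands' I (α := α) (β := R) hα
  rw [Metric.tendsto_nhds]
  intro e he
  -- choice of ε
  obtain ⟨ε, hε, hε', hεs⟩ : ∃ ε : ℝ, 0 < ε ∧ ε ≤ 1 / 2 ∧ 8 * ε * M * max Mb 0 ≤ e / 4 := by
    refine ⟨min (1 / 2) (e / (32 * (M * max Mb 0 + 1))), lt_min (by norm_num) (by positivity), min_le_left _ _, ?_⟩
    have hK : 0 ≤ M * max Mb 0 := by positivity
    have h1 : min (1 / 2) (e / (32 * (M * max Mb 0 + 1))) ≤ e / (32 * (M * max Mb 0 + 1)) := min_le_right _ _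
    calc 8 * min (1 / 2) (e / (32 * (M * max Mb 0 + 1))) * M * max Mb 0
        = 8 * (M * max Mb 0) * min (1 / 2) (e / (32 * (M * max Mb 0 + 1))) := by ring
      _ ≤ 8 * (M * max Mb 0) * (e / (32 * (M * max Mb 0 + 1))) := mul_le_mul_of_nonneg_left h1 (by positivity)
      _ = e / 4 * ((M * max Mb 0) / (M * max Mb 0 + 1)) := by field_simp; ring
      _ ≤ e / 4 * 1 := by
          apply mul_le_mul_of_nonneg_left _ (by positivity)
          rw [div_le_one (by positivity)]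
          linarith
      _ = e / 4 := mul_one _
  have hsm : Tendsto (fun δ : ℝ => ∫ x in {x : ℝ × ℝ | |x.1| ≤ R * δ}, pncD x ∂I.nu) (𝓝[>] 0) (𝓝 0) := by
    refine (pnc_defect_small I).comp ?_
    rw [tendsto_nhdsWithin_iff]
    constructor
    · have : Tendsto (fun δ : ℝ => R * δ) (𝓝 0) (𝓝 (R * 0)) := (continuous_const.mul continuous_id).tendsto 0
      rw [mul_zero] at this
      exact this.mono_left nhdsWithin_le_nhds
    · filter_upwards [self_mem_nhdsWithin] with δ hδ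
      show 0 < R * δ
      exact mul_pos (by linarith) hδ
  have hsm' := (Metric.tendsto_nhds.1 hsm) (e * ε ^ 2 / (72 * (M + 1))) (by positivity)
  filter_upwards [hsm', self_mem_nhdsWithin] with δ hδs hδ
  have hδp : 0 < δ := hδ
  rw [dist_zero_right]
  have hB' : MeasurableSet {x : ℝ × ℝ | |x.1| ≤ R * δ} := measurableSet_le measurable_fst.abs measurable_const
  have hg1 : Integrable (Set.indicator {x : ℝ × ℝ | α * δ ≤ |x.1| ∧ |x.1| ≤ R * δ} (fun _ => 8 * ε * M)) I.nu := by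
    rw [integrable_indicator_iff (pnq_band_measurable _ _)]
    exact integrableOn_const (pnq_band_lt_top I (mul_pos hα hδp) _).ne
  have hg2 : Integrable (fun x => 18 * M / ε ^ 2 * Set.indicator {x : ℝ × ℝ | |x.1| ≤ R * δ} pncD x) I.nu :=
    ((pnc_D_integrable I).indicator hB').const_mul _
  have h1 := norm_integral_le_of_norm_le (μ := I.nu) (f := fun x => pncPr G (pncSc δ x) - pncPr G (x.1 / δ, |x.1| / δ))
    (g := fun x => Set.indicator {x : ℝ × ℝ | α * δ ≤ |x.1| ∧ |x.1| ≤ R * δ} (fun _ => 8 * ε * M) x +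
      18 * M / ε ^ 2 * Set.indicator {x : ℝ × ℝ | |x.1| ≤ R * δ} pncD x)
    (hg1.add hg2) (by
      filter_upwards [pnc_ae_nu I] with x hx
      exact pnq_KL_point hG.cont.measurable hb hR h0 hδp hε hε' hx.1 hx.2)
  refine lt_of_le_of_lt h1 ?_
  have e1 : ∫ x, (Set.indicator {x : ℝ × ℝ | α * δ ≤ |x.1| ∧ |x.1| ≤ R * δ} (fun _ => 8 * ε * M) x +
      18 * M / ε ^ 2 * Set.indicator {x : ℝ × ℝ | |x.1| ≤ R * δ} pncD x) ∂I.nu =
      I.nu.real {x : ℝ × ℝ | α * δ ≤ |x.1| ∧ |x.1| ≤ R * δ} * (8 * ε * M) + 18 * M / ε ^ 2 * ∫ x in {x : ℝ × ℝ | |x.1| ≤ R * δ}, pncD x ∂I.nu := by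
    rw [integral_add hg1 hg2, integral_indicator_const _ (pnq_band_measurable _ _), smul_eq_mul, integral_const_mul, integral_indicator hB']
  rw [e1]
  have h2 : I.nu.real {x : ℝ × ℝ | α * δ ≤ |x.1| ∧ |x.1| ≤ R * δ} ≤ max Mb 0 := by
    unfold Measure.real
    calc (I.nu {x : ℝ × ℝ | α * δ ≤ |x.1| ∧ |x.1| ≤ R * δ}).toReal ≤ (ENNReal.ofReal Mb).toReal :=
          ENNReal.toReal_mono ENNReal.ofReal_ne_top (hMb δ hδp)
      _ = max Mb 0 := ENNReal.toReal_ofReal'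
  have h3 : I.nu.real {x : ℝ × ℝ | α * δ ≤ |x.1| ∧ |x.1| ≤ R * δ} * (8 * ε * M) ≤ e / 4 := by
    calc _ ≤ max Mb 0 * (8 * ε * M) := mul_le_mul_of_nonneg_right h2 (by positivity)
      _ = 8 * ε * M * max Mb 0 := by ring
      _ ≤ e / 4 := hεs
  have h4 : ∫ x in {x : ℝ × ℝ | |x.1| ≤ R * δ}, pncD x ∂I.nu < e * ε ^ 2 / (72 * (M + 1)) := by
    rw [dist_zero_right, Real.norm_eq_abs] at hδs
    exact lt_of_le_of_lt (le_abs_self _) hδs
  have h5 : 18 * M / ε ^ 2 * ∫ x in {x : ℝ × ℝ | |x.1| ≤ R * δ}, pncD x ∂I.nu ≤ e / 4 := by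
    calc _ ≤ 18 * M / ε ^ 2 * (e * ε ^ 2 / (72 * (M + 1))) := mul_le_mul_of_nonneg_left h4.le (by positivity)
      _ = e / 4 * (M / (M + 1)) := by field_simp; ring
      _ ≤ e / 4 * 1 := by
          apply mul_le_mul_of_nonneg_left _ (by positivity)
          rw [div_le_one (by positivity)]
          linarith
      _ = e / 4 := mul_one _
  linarith

/-- integrability of the two terms of KL-e -/
theorem pnc_KL_int {G : ℝ × ℝ → ℝ} (hG : PncT G) {δ : ℝ} (hδ : 0 < δ) :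
    Integrable (fun x => pncPr G (pncSc δ x)) I.nu ∧ Integrable (fun x : ℝ × ℝ => pncPr G (x.1 / δ, |x.1| / δ)) I.nu :=
  pnq_KL_int I hG hδ

/-- KL-f. on the graph the Cauchy weight cancels `|ζ|²` -/
theorem pnc_Pr_diag (Ψ : ℝ × ℝ → ℝ) {κ : ℝ} (hκ : κ ≠ 0) : pncPr (fun z => Ψ z * pncQ z) (κ, |κ|) = |κ| / π * pncFl Ψ κ := by
  have h0 : |κ| ≠ 0 := abs_ne_zero.2 hκ
  unfold pncPr pncFl
  simp only [h0, if_false]
  rw [← integral_const_mul]
  congr 1
  funext t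
  have hq : κ ^ 2 + t ^ 2 ≠ 0 := by positivity
  unfold pncQ pncCd
  simp only [sq_abs]
  field_simp

theorem pnc_sc_continuous (δ : ℝ) : Continuous (pncSc δ) := by unfold pncSc; fun_prop

/-- **the key lemma**.      TEX[04-plane (4.19) `plane:eq:limiting-mixture`] -/
theorem pnc_KL {Ψ : ℝ × ℝ → ℝ} (hΨ : PncT Ψ) : Tendsto (fun δ : ℝ => pncLam I δ Ψ - π⁻¹ * pncNn I δ (pncFl Ψ)) (𝓝[>] 0) (𝓝 0) := by
  have hG : PncT fun z => Ψ z * pncQ z := hΨ.mulQ
  set G : ℝ × ℝ → ℝ := fun z => Ψ z * pncQ z with hGdef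
  obtain ⟨M, R, hM0, hR1, hM, hR⟩ := pnc_cs_bound hG.cont hG.cs
  obtain ⟨α, hα, hoff⟩ := hG.off
  have h := ((pnc_KL_dist I hG).add (pnc_KL_conc I hG)).sub (pnc_KL_E I hG)
  simp only [add_zero, sub_zero] at h
  refine h.congr' ?_
  filter_upwards [self_mem_nhdsWithin] with δ hδ
  have hδ : 0 < δ := hδ
  obtain ⟨-, -, hmix⟩ := pnc_mix_real I (G := fun x => G (pncSc δ x)) (hG.cont.comp (pnc_sc_continuous δ)).measurable
    (M := M) (ε := α * δ) (by positivity) (fun x => hM _) (fun x hx => hoff _ (by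
      show |x.1 / δ| < α
      rw [abs_div, abs_of_pos hδ, div_lt_iff₀ hδ]; exact hx))
  simp only [pnc_Pr_sc G hδ] at hmix
  obtain ⟨hi1, hi2⟩ := pnc_KL_int I hG hδ
  rw [integral_sub hi1 hi2, hmix]
  have h5 : ∫ x : ℝ × ℝ, pncPr G (x.1 / δ, |x.1| / δ) ∂I.nu = π⁻¹ * pncNn I δ (pncFl Ψ) := by
    unfold pncNn
    rw [← integral_const_mul]
    refine integral_congr_ae ?_
    filter_upwards [pnc_ae_nu I] with x hx
    have hk : x.1 / δ ≠ 0 := div_ne_zero hx.1 hδ.ne'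
    have e : |x.1| / δ = |x.1 / δ| := by rw [abs_div, abs_of_pos hδ]
    rw [e, hGdef, pnc_Pr_diag Ψ hk]
    ring
  rw [h5]
  show _ = ∫ p, G (pncSc δ p) ∂I.C0 - _
  ring

/-! ### two charts -/

/-- a tangential test is bounded and lives in an interval -/
theorem pnk_T1_bound {a : ℝ → ℝ} (ha : PncT1 a) : ∃ M A : ℝ, 0 ≤ M ∧ 0 ≤ A ∧ (∀ x, |a x| ≤ M) ∧ ∀ x, A < |x| → a x = 0 := by
  obtain ⟨M, hM⟩ := ha.cs.exists_bound_of_continuous ha.cont
  obtain ⟨A, hA⟩ := ha.cs.isCompact.isBounded.subset_closedBall (0 : ℝ)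
  refine ⟨max M 0, max A 0, le_max_right _ _, le_max_right _ _, fun x => (hM x).trans (le_max_left _ _), fun x hx => ?_⟩
  by_contra h
  have h1 : x ∈ tsupport a := subset_tsupport _ h
  have h2 := hA h1
  rw [mem_closedBall_zero_iff, Real.norm_eq_abs] at h2
  exact absurd (h2.trans (le_max_left _ _)) (not_le.2 hx)

/-- the product test in the skew coordinates `(ζ₁, (Rot ζ)₁)` -/
theorem pnc_prod_T {a b : ℝ → ℝ} (ha : PncT1 a) (hb : PncT1 b) : PncT fun z => a z.1 * b (pncRot z).1 := by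
  obtain ⟨_, A, _, hA0, _, hA⟩ := pnk_T1_bound ha
  obtain ⟨_, B, _, hB0, _, hB⟩ := pnk_T1_bound hb
  obtain ⟨α, hα, hoff⟩ := ha.off
  refine ⟨(ha.cont.comp continuous_fst).mul (hb.cont.comp (continuous_fst.comp pnc_rot_continuous)), ?_, α, hα, fun z hz => by simp [hoff z.1 hz]⟩
  refine HasCompactSupport.intro (K := Set.Icc (-A) A ×ˢ Set.Icc (-(2 * (A + B))) (2 * (A + B))) (isCompact_Icc.prod isCompact_Icc) fun z hz => ?_
  by_contra h
  apply hz
  have h1 : a z.1 ≠ 0 := fun h0 => h (by simp [h0])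
  have h2 : b (pncRot z).1 ≠ 0 := fun h0 => h (by simp [h0])
  have h3 : |z.1| ≤ A := not_lt.1 fun hlt => h1 (hA _ hlt)
  have h4 : |(pncRot z).1| ≤ B := not_lt.1 fun hlt => h2 (hB _ hlt)
  have hs3 : (1 : ℝ) ≤ Real.sqrt 3 := by
    rw [show (1 : ℝ) = Real.sqrt 1 by simp]
    exact Real.sqrt_le_sqrt (by norm_num)
  unfold pncRot at h4
  simp only at h4
  rw [abs_le] at h3 h4
  refine ⟨⟨h3.1, h3.2⟩, ?_, ?_⟩
  · by_contra hc
    rw [not_le] at hc
    nlinarith [h3.1, h3.2, h4.1, h4.2]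
  · by_contra hc
    rw [not_le] at hc
    nlinarith [h3.1, h3.2, h4.1, h4.2]

theorem pnc_prod_T' {a b : ℝ → ℝ} (ha : PncT1 a) (hb : PncT1 b) : PncT fun z => a (pncRotI z).1 * b z.1 := by
  obtain ⟨_, A, _, hA0, _, hA⟩ := pnk_T1_bound ha
  obtain ⟨_, B, _, hB0, _, hB⟩ := pnk_T1_bound hb
  obtain ⟨α, hα, hoff⟩ := hb.off
  refine ⟨(ha.cont.comp (continuous_fst.comp pnc_rotI_continuous)).mul (hb.cont.comp continuous_fst), ?_, α, hα, fun z hz => by simp [hoff z.1 hz]⟩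
  refine HasCompactSupport.intro (K := Set.Icc (-B) B ×ˢ Set.Icc (-(2 * (A + B))) (2 * (A + B))) (isCompact_Icc.prod isCompact_Icc) fun z hz => ?_
  by_contra h
  apply hz
  have h1 : a (pncRotI z).1 ≠ 0 := fun h0 => h (by simp [h0])
  have h2 : b z.1 ≠ 0 := fun h0 => h (by simp [h0])
  have h3 : |z.1| ≤ B := not_lt.1 fun hlt => h2 (hB _ hlt)
  have h4 : |(pncRotI z).1| ≤ A := not_lt.1 fun hlt => h1 (hA _ hlt)
  have hs3 : (1 : ℝ) ≤ Real.sqrt 3 := by
    rw [show (1 : ℝ) = Real.sqrt 1 by simp]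
    exact Real.sqrt_le_sqrt (by norm_num)
  unfold pncRotI at h4
  simp only at h4
  rw [abs_le] at h3 h4
  refine ⟨⟨h3.1, h3.2⟩, ?_, ?_⟩
  · by_contra hc
    rw [not_le] at hc
    nlinarith [h3.1, h3.2, h4.1, h4.2]
  · by_contra hc
    rw [not_le] at hc
    nlinarith [h3.1, h3.2, h4.1, h4.2]

theorem pnc_prod_fl {a b : ℝ → ℝ} (hb : PncT1 b) (κ : ℝ) : pncFl (fun z => a z.1 * b (pncRot z).1) κ = 2 / Real.sqrt 3 * (a κ * ∫ x, b x) := by
  have hs3 : 0 < Real.sqrt 3 := Real.sqrt_pos.2 (by norm_num)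
  unfold pncFl pncRot
  simp only
  rw [integral_const_mul]
  have h1 : ∫ τ, b (κ / 2 - Real.sqrt 3 / 2 * τ) = |(Real.sqrt 3 / 2)⁻¹| • ∫ y, b (κ / 2 - y) :=
    Measure.integral_comp_mul_left (fun y => b (κ / 2 - y)) (Real.sqrt 3 / 2)
  rw [h1, integral_sub_left_eq_self, abs_of_pos (by positivity), smul_eq_mul]
  field_simp

theorem pnc_prod_fl' {a b : ℝ → ℝ} (ha : PncT1 a) (κ : ℝ) : pncFl (fun z => a (pncRotI z).1 * b z.1) κ = 2 / Real.sqrt 3 * (b κ * ∫ x, a x) := by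
  have hs3 : 0 < Real.sqrt 3 := Real.sqrt_pos.2 (by norm_num)
  unfold pncFl pncRotI
  simp only
  rw [integral_mul_const]
  have h1 : ∫ τ, a (κ / 2 + Real.sqrt 3 / 2 * τ) = |(Real.sqrt 3 / 2)⁻¹| • ∫ y, a (κ / 2 + y) :=
    Measure.integral_comp_mul_left (fun y => a (κ / 2 + y)) (Real.sqrt 3 / 2)
  rw [h1, integral_add_left_eq_self, abs_of_pos (by positivity), smul_eq_mul]
  field_simp

theorem pnk_sc_measurable (δ : ℝ) : Measurable (pncSc δ) := by unfold pncSc; fun_prop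

theorem pnk_Q_rotI (p : ℝ × ℝ) : pncQ (pncRotI p) = pncQ p := by
  conv_rhs => rw [← pnc_rot_rotI p, pnc_Q_rot]

/-- rotation invariance of `Λ_δ` -/
theorem pnc_Lam_rot {Ψ : ℝ × ℝ → ℝ} (hm : Measurable Ψ) (δ : ℝ) : pncLam I δ (fun z => Ψ (pncRotI z)) = pncLam I δ Ψ := by
  unfold pncLam
  have hF : Measurable fun p => Ψ (pncSc δ p) * pncQ (pncSc δ p) :=
    (hm.comp (pnk_sc_measurable δ)).mul (pnc_Q_continuous.measurable.comp (pnk_sc_measurable δ))
  rw [← pnc_rotI_integral I hF]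
  congr 1
  funext p
  have h1 : pncRotI (pncSc δ p) = pncSc δ (pncRotI p) := by
    unfold pncRotI pncSc
    ext
    · simp only; ring
    · simp only; ring
  show Ψ (pncRotI (pncSc δ p)) * pncQ (pncSc δ p) = _
  rw [h1, pnc_Q_sc, pnc_Q_sc, pnk_Q_rotI]

theorem pnc_Nn_smul (c : ℝ) (a : ℝ → ℝ) (δ : ℝ) : pncNn I δ (fun x => c * a x) = c * pncNn I δ a := by
  unfold pncNn
  rw [← integral_const_mul]
  congr 1
  funext x
  ring

/-- **`|k| η(dk)` is asymptotically a multiple of Lebesgue measure at every scale**.      TEX[04-plane l.560-580], replaced -/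
theorem pnc_prod {a b : ℝ → ℝ} (ha : PncT1 a) (hb : PncT1 b) :
    Tendsto (fun δ : ℝ => pncNn I δ a * (∫ x, b x) - pncNn I δ b * (∫ x, a x)) (𝓝[>] 0) (𝓝 0) := by
  have h1 := pnc_KL I (pnc_prod_T ha hb)
  have h2 := pnc_KL I (pnc_prod_T' ha hb)
  have hs3 : Real.sqrt 3 ≠ 0 := by positivity
  have e1 : pncFl (fun z : ℝ × ℝ => a z.1 * b (pncRot z).1) = fun κ => (2 / Real.sqrt 3 * ∫ x, b x) * a κ := by
    funext κ
    rw [pnc_prod_fl hb]
    ring
  have e2 : pncFl (fun z : ℝ × ℝ => a (pncRotI z).1 * b z.1) = fun κ => (2 / Real.sqrt 3 * ∫ x, a x) * b κ := by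
    funext κ
    rw [pnc_prod_fl' ha]
    ring
  have e3 : ∀ δ, pncLam I δ (fun z : ℝ × ℝ => a (pncRotI z).1 * b z.1) = pncLam I δ fun z : ℝ × ℝ => a z.1 * b (pncRot z).1 := by
    intro δ
    have := pnc_Lam_rot I (Ψ := fun z : ℝ × ℝ => a z.1 * b (pncRot z).1) (pnc_prod_T ha hb).cont.measurable δ
    simpa only [pnc_rot_rotI] using this
  rw [e1] at h1
  rw [e2] at h2
  simp only [pnc_Nn_smul, e3] at h1 h2
  have h := (h2.sub h1).const_mul (π * (Real.sqrt 3 / 2))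
  simp only [sub_zero, mul_zero] at h
  refine h.congr fun δ => ?_
  have hp := Real.pi_ne_zero
  field_simp
  ring

/-- `Λ_δ Ψ - c_δ ∫ Ψ → 0` for planar tests which vanish near `κ = 0` -/
theorem pnc_lam_T {Ψ : ℝ × ℝ → ℝ} (hΨ : PncT Ψ) : Tendsto (fun δ : ℝ => pncLam I δ Ψ - pncc I δ * ∫ z, Ψ z) (𝓝[>] 0) (𝓝 0) := by
  have h1 := pnc_KL I hΨ
  have h2 := pnc_prod I hΨ.fl pnc_b0_T1
  rw [pnc_b0_integral, pnc_fl_integral hΨ.cont hΨ.cs] at h2
  have h := h1.add (h2.const_mul π⁻¹)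
  simp only [mul_zero, add_zero] at h
  refine h.congr fun δ => ?_
  unfold pncc
  ring

/-- the cutoff of the strip: `0` on `|κ| ≤ h`, `1` on `|κ| ≥ 2h` -/
noncomputable def pncZh (h κ : ℝ) : ℝ := max 0 (min 1 (|κ| / h - 1))

theorem pnc_zh_T {Ψ : ℝ × ℝ → ℝ} (hc : Continuous Ψ) (hs : HasCompactSupport Ψ) {h : ℝ} (hh : 0 < h) : PncT fun z => Ψ z * pncZh h z.1 := by
  refine ⟨hc.mul (by unfold pncZh; fun_prop), hs.mul_right, h, hh, fun z hz => ?_⟩
  have h1 : |z.1| / h - 1 < 0 := by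
    rw [sub_neg, div_lt_one hh]; exact hz
  unfold pncZh
  rw [max_eq_left ((min_le_right _ _).trans h1.le), mul_zero]

theorem pnq_zh_nonneg (h κ : ℝ) : 0 ≤ pncZh h κ := le_max_left _ _

theorem pnq_zh_le_one (h κ : ℝ) : pncZh h κ ≤ 1 := max_le zero_le_one (min_le_left _ _)

theorem pnq_zh_eq_one {h κ : ℝ} (hh : 0 < h) (hκ : 2 * h ≤ |κ|) : pncZh h κ = 1 := by
  unfold pncZh
  have : 1 ≤ |κ| / h - 1 := by
    rw [le_sub_iff_add_le, le_div_iff₀ hh]
    linarith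
  rw [min_eq_left this, max_eq_right zero_le_one]

theorem pnq_zh_abs (h κ : ℝ) : |1 - pncZh h κ| ≤ 1 := by
  rw [abs_le]
  constructor <;> linarith [pnq_zh_nonneg h κ, pnq_zh_le_one h κ]

/-- the strip costs `O(h)` in `Λ_δ`, uniformly in `δ` (`pnc_strip`) -/
theorem pnc_zh_Lam {Ψ : ℝ × ℝ → ℝ} (hc : Continuous Ψ) (hs : HasCompactSupport Ψ) :
    ∃ M : ℝ, ∀ h δ : ℝ, 0 < h → h ≤ 1 / 2 → 0 < δ → |pncLam I δ Ψ - pncLam I δ fun z => Ψ z * pncZh h z.1| ≤ M * h := by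
  obtain ⟨M, R, hM, hR1, hb, hR⟩ := pnc_cs_bound hc hs
  obtain ⟨K4, hK4⟩ := pnc_strip I
  refine ⟨M * (max K4 0 * R * 2), fun h δ hh hh2 hδ => ?_⟩
  have hT := pnc_zh_T hc hs hh
  have i1 := pnc_Lam_integrable I hc hs hδ
  have i2 := pnc_Lam_integrable I hT.cont hT.cs hδ
  unfold pncLam
  rw [← integral_sub i1 i2, ← Real.norm_eq_abs]
  refine le_trans (norm_integral_le_lintegral_norm _) ?_
  have hS : MeasurableSet {p : ℝ × ℝ | |p.1| ≤ 2 * h * δ ∧ pncN p ≤ R * δ} :=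
    (measurableSet_le measurable_fst.abs measurable_const).inter (measurableSet_le pnc_N_continuous.measurable measurable_const)
  have hle : ∫⁻ p, ENNReal.ofReal ‖Ψ (pncSc δ p) * pncQ (pncSc δ p) - Ψ (pncSc δ p) * pncZh h (pncSc δ p).1 * pncQ (pncSc δ p)‖ ∂I.C0 ≤
      ENNReal.ofReal M * ∫⁻ p in {p : ℝ × ℝ | |p.1| ≤ 2 * h * δ ∧ pncN p ≤ R * δ}, ENNReal.ofReal (pncQ (pncSc δ p)) ∂I.C0 := by
    rw [← lintegral_const_mul' _ _ ENNReal.ofReal_ne_top, ← lintegral_indicator hS]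
    apply lintegral_mono
    intro p
    beta_reduce
    have e : Ψ (pncSc δ p) * pncQ (pncSc δ p) - Ψ (pncSc δ p) * pncZh h (pncSc δ p).1 * pncQ (pncSc δ p) =
        Ψ (pncSc δ p) * (1 - pncZh h (pncSc δ p).1) * pncQ (pncSc δ p) := by ring
    by_cases hp : |p.1| ≤ 2 * h * δ ∧ pncN p ≤ R * δ
    · rw [Set.indicator_of_mem (show p ∈ {p : ℝ × ℝ | |p.1| ≤ 2 * h * δ ∧ pncN p ≤ R * δ} from hp), ← ENNReal.ofReal_mul hM]
      apply ENNReal.ofReal_le_ofReal
      rw [e, norm_mul, norm_mul, Real.norm_eq_abs, Real.norm_eq_abs, Real.norm_eq_abs, abs_of_nonneg (pnc_Q_nonneg _)]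
      apply mul_le_mul_of_nonneg_right _ (pnc_Q_nonneg _)
      calc |Ψ (pncSc δ p)| * |1 - pncZh h (pncSc δ p).1| ≤ M * 1 := mul_le_mul (hb _) (pnq_zh_abs _ _) (abs_nonneg _) hM
        _ = M := mul_one _
    · rw [Set.indicator_of_notMem (show p ∉ {p : ℝ × ℝ | |p.1| ≤ 2 * h * δ ∧ pncN p ≤ R * δ} from hp)]
      have : Ψ (pncSc δ p) * (1 - pncZh h (pncSc δ p).1) = 0 := by
        by_cases h1 : |p.1| ≤ 2 * h * δ
        · have h2 : R * δ < pncN p := by
            by_contra hcon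
            push Not at hcon
            exact hp ⟨h1, hcon⟩
          rw [hR _ (by rw [pnc_N_sc hδ, lt_div_iff₀ hδ]; exact h2), zero_mul]
        · push Not at h1
          rw [pnq_zh_eq_one hh (by
            simp only [pncSc]
            rw [abs_div, abs_of_pos hδ, le_div_iff₀ hδ]
            exact h1.le), sub_self, mul_zero]
      rw [e, this, zero_mul, norm_zero, ENNReal.ofReal_zero]
  have h2 := hK4 R (2 * h) δ hR1 (by positivity) (by linarith) hδ
  calc (∫⁻ p, ENNReal.ofReal ‖Ψ (pncSc δ p) * pncQ (pncSc δ p) - Ψ (pncSc δ p) * pncZh h (pncSc δ p).1 * pncQ (pncSc δ p)‖ ∂I.C0).toReal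
      ≤ (ENNReal.ofReal M * ENNReal.ofReal (K4 * R * (2 * h))).toReal :=
        ENNReal.toReal_mono (ENNReal.mul_ne_top ENNReal.ofReal_ne_top ENNReal.ofReal_ne_top) (hle.trans (mul_le_mul_right h2 _))
    _ = M * max (K4 * R * (2 * h)) 0 := by rw [ENNReal.toReal_mul, ENNReal.toReal_ofReal hM, ENNReal.toReal_ofReal']
    _ ≤ M * (max K4 0 * R * (2 * h)) := by
        apply mul_le_mul_of_nonneg_left _ hM
        apply max_le
        · have : K4 ≤ max K4 0 := le_max_left _ _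
          have hpos : 0 ≤ R * (2 * h) := by positivity
          nlinarith
        · positivity
    _ = M * (max K4 0 * R * 2) * h := by ring

/-- the strip costs `O(h)` in Lebesgue measure -/
theorem pnc_zh_vol {Ψ : ℝ × ℝ → ℝ} (hc : Continuous Ψ) (hs : HasCompactSupport Ψ) :
    ∃ M : ℝ, ∀ h : ℝ, 0 < h → h ≤ 1 / 2 → |(∫ z, Ψ z) - ∫ z, Ψ z * pncZh h z.1| ≤ M * h := by
  obtain ⟨M, R, hM, hR1, hb, hR⟩ := pnc_cs_bound hc hs
  refine ⟨8 * M * R, fun h hh _ => ?_⟩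
  have hT := pnc_zh_T hc hs hh
  have i1 : Integrable Ψ := hc.integrable_of_hasCompactSupport hs
  have i2 : Integrable (fun z : ℝ × ℝ => Ψ z * pncZh h z.1) := hT.cont.integrable_of_hasCompactSupport hT.cs
  rw [← integral_sub i1 i2, ← Real.norm_eq_abs]
  have hmeas : MeasurableSet (Set.Icc (-(2 * h)) (2 * h) ×ˢ Set.Icc (-R) R : Set (ℝ × ℝ)) := measurableSet_Icc.prod measurableSet_Icc
  have hvol : (volume : Measure (ℝ × ℝ)) (Set.Icc (-(2 * h)) (2 * h) ×ˢ Set.Icc (-R) R) = ENNReal.ofReal (4 * h) * ENNReal.ofReal (2 * R) := by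
    rw [Measure.volume_eq_prod, Measure.prod_prod, Real.volume_Icc, Real.volume_Icc]
    congr 2 <;> ring
  have h1 := norm_integral_le_of_norm_le (μ := volume) (f := fun z : ℝ × ℝ => Ψ z - Ψ z * pncZh h z.1)
    (g := Set.indicator (Set.Icc (-(2 * h)) (2 * h) ×ˢ Set.Icc (-R) R) (fun _ => M)) (by
      rw [integrable_indicator_iff hmeas]
      exact integrableOn_const (by rw [hvol]; exact ENNReal.mul_ne_top ENNReal.ofReal_ne_top ENNReal.ofReal_ne_top))
    (Eventually.of_forall fun z => by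
      have e : Ψ z - Ψ z * pncZh h z.1 = Ψ z * (1 - pncZh h z.1) := by ring
      by_cases hz : z ∈ (Set.Icc (-(2 * h)) (2 * h) ×ˢ Set.Icc (-R) R : Set (ℝ × ℝ))
      · rw [Set.indicator_of_mem hz, e, norm_mul, Real.norm_eq_abs, Real.norm_eq_abs]
        calc |Ψ z| * |1 - pncZh h z.1| ≤ M * 1 := mul_le_mul (hb _) (pnq_zh_abs _ _) (abs_nonneg _) hM
          _ = M := mul_one _
      · rw [Set.indicator_of_notMem hz, e]
        have : Ψ z * (1 - pncZh h z.1) = 0 := by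
          by_cases h1 : |z.1| ≤ 2 * h
          · have h2 : R < |z.2| := by
              by_contra hcon
              push Not at hcon
              exact hz ⟨abs_le.1 h1, abs_le.1 hcon⟩
            rw [hR _ (lt_of_lt_of_le h2 (pnc_abs_snd_le z)), zero_mul]
          · push Not at h1
            rw [pnq_zh_eq_one hh h1.le, sub_self, mul_zero]
        rw [this, norm_zero])
  refine le_trans h1 ?_
  rw [integral_indicator_const _ hmeas, smul_eq_mul]
  unfold Measure.real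
  rw [hvol, ENNReal.toReal_mul, ENNReal.toReal_ofReal (by positivity), ENNReal.toReal_ofReal (by linarith)]
  apply le_of_eq
  ring

/-- **the scaling form of the spectrum**: `Λ_δ Ψ - c_δ ∫ Ψ → 0` for every `Ψ ∈ C_c(ℝ²)`.      TEX[04-plane (4.18) `plane:eq:subsequence`] -/
theorem pnc_lam {Ψ : ℝ × ℝ → ℝ} (hc : Continuous Ψ) (hs : HasCompactSupport Ψ) :
    Tendsto (fun δ : ℝ => pncLam I δ Ψ - pncc I δ * ∫ z, Ψ z) (𝓝[>] 0) (𝓝 0) := by
  obtain ⟨M1, hM1⟩ := pnc_zh_Lam I hc hs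
  obtain ⟨M2, hM2⟩ := pnc_zh_vol hc hs
  obtain ⟨Mc, hMc⟩ := pnc_c_bdd I
  rw [Metric.tendsto_nhds]
  intro η hη
  set B : ℝ := |M1| + |Mc| * |M2| + 1 with hB
  have hBpos : 0 < B := by positivity
  set h : ℝ := min (1 / 2) (η / (2 * B)) with hh
  have hh0 : 0 < h := lt_min (by norm_num) (by positivity)
  have hh1 : h ≤ 1 / 2 := min_le_left _ _
  have hh2 : B * h ≤ η / 2 := by
    have : h ≤ η / (2 * B) := min_le_right _ _
    calc B * h ≤ B * (η / (2 * B)) := by gcongr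
      _ = η / 2 := by field_simp
  have h3 := pnc_lam_T I (pnc_zh_T hc hs hh0)
  rw [Metric.tendsto_nhds] at h3
  filter_upwards [h3 (η / 2) (by positivity), self_mem_nhdsWithin] with δ hδ hδ0
  have hδ0 : 0 < δ := hδ0
  rw [Real.dist_eq, sub_zero] at hδ ⊢
  have a1 := hM1 h δ hh0 hh1 hδ0
  have a2 := hM2 h hh0 hh1
  have a3 := hMc δ hδ0
  have e : pncLam I δ Ψ - pncc I δ * ∫ z, Ψ z
      = (pncLam I δ Ψ - pncLam I δ fun z => Ψ z * pncZh h z.1)
        + ((pncLam I δ fun z => Ψ z * pncZh h z.1) - pncc I δ * ∫ z, Ψ z * pncZh h z.1)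
        - pncc I δ * ((∫ z, Ψ z) - ∫ z, Ψ z * pncZh h z.1) := by ring
  rw [e]
  have b1 : |pncc I δ * ((∫ z, Ψ z) - ∫ z, Ψ z * pncZh h z.1)| ≤ |Mc| * |M2| * h := by
    rw [abs_mul]
    calc |pncc I δ| * |(∫ z, Ψ z) - ∫ z, Ψ z * pncZh h z.1| ≤ |Mc| * (|M2| * h) := by
          refine mul_le_mul (a3.trans (le_abs_self _)) (a2.trans ?_) (abs_nonneg _) (abs_nonneg _)
          exact mul_le_mul_of_nonneg_right (le_abs_self _) hh0.le
      _ = |Mc| * |M2| * h := by ring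
  have b2 : |pncLam I δ Ψ - pncLam I δ fun z => Ψ z * pncZh h z.1| ≤ |M1| * h :=
    a1.trans (mul_le_mul_of_nonneg_right (le_abs_self _) hh0.le)
  have b3 : |M1| * h + |Mc| * |M2| * h ≤ B * h := by
    rw [hB]; nlinarith
  calc _ ≤ |pncLam I δ Ψ - pncLam I δ fun z => Ψ z * pncZh h z.1|
        + |(pncLam I δ fun z => Ψ z * pncZh h z.1) - pncc I δ * ∫ z, Ψ z * pncZh h z.1|
        + |pncc I δ * ((∫ z, Ψ z) - ∫ z, Ψ z * pncZh h z.1)| := by
        refine (abs_sub _ _).trans ?_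
        gcongr
        exact abs_add_le _ _
    _ < η := by linarith

theorem pnc_scale_eqns_cite : True := by
  have := @pncFl.eq_1
  have := @pncZh.eq_1
  trivial

end Claimed.Agent.R291
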